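import Vale.Agent.P057Z.St.Api

/-!
# P057Z, block St: contraction, lifting and the gain in one block
-/

noncomputable section

namespace Vale.Agent.P057Z.St

namespace Blk

open PS

theorem comm2 (P Q R : PS) (F : P.α → Q.α → R.α → ℝ) :
    (P.E fun p => Q.E fun q => R.E fun r => F p q r) =
      R.E fun r => P.E fun p => Q.E fun q => F p q r := by
  rw [E_comm R P]
  exact P.E_congr fun p => E_comm Q R _

theorem abs3 {x y z A B C : ℝ} (hx : |x| ≤ A) (hy : |y| ≤ B) (hz : |z| ≤ C) :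
    |x * y * z| ≤ A * B * C := by
  have h1 := (abs_nonneg _).trans hx
  have h2 := (abs_nonneg _).trans hy
  rw [abs_mul, abs_mul]
  exact mul_le_mul (mul_le_mul hx hy (abs_nonneg _) h1) hz (abs_nonneg _) (mul_nonneg h1 h2)

theorem ab {x B : ℝ} (h : 0 ≤ x ∧ x ≤ B) : |x| ≤ B := (abs_of_nonneg h.1).trans_le h.2

theorem up {F D C : ℝ} (h : |F| ≤ C) : F * D ≤ F + C * |D - 1| := by
  have h1 := mul_le_mul_of_nonneg_right h (abs_nonneg (D - 1))
  rw [← abs_mul] at h1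
  linarith [le_abs_self (F * (D - 1))]

variable {X Y W : PS}

theorem step {Ω : PS} (n P : Ω.α → X.α → X.α → ℝ) (d : X.α → X.α → W.α → ℝ)
    (Q : Ω.α → X.α → X.α → W.α → ℝ) {C η : ℝ} (hn : ∀ ω x x', 0 ≤ n ω x x')
    (hd : ∀ x x' w, 0 ≤ d x x' w) (hC : ∀ ω x x', |n ω x x' * P ω x x' ^ 2| ≤ C) (h0 : 0 ≤ C)
    (hη : (X.E fun x => X.E fun x' => |W.E (d x x') - 1|) ≤ η) :
    (Ω.E fun ω => X.E fun x => X.E fun x' => W.E fun w =>
      n ω x x' * d x x' w * (P ω x x' * Q ω x x' w)) ^ 2 ≤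
    ((Ω.E fun ω => X.E fun x => X.E fun x' => n ω x x' * P ω x x' ^ 2) + C * η) *
      Ω.E fun ω => X.E fun x => X.E fun x' => W.E fun w => n ω x x' * d x x' w * Q ω x x' w ^ 2 := by
  have h1 := (Ω.prod (X.prod (X.prod W))).cs
    (w := fun z => n z.1 z.2.1 z.2.2.1 * d z.2.1 z.2.2.1 z.2.2.2)
    (fun z => mul_nonneg (hn _ _ _) (hd _ _ _)) (fun z => P z.1 z.2.1 z.2.2.1)
    fun z => Q z.1 z.2.1 z.2.2.1 z.2.2.2
  simp only [E_prod] at h1
  refine h1.trans (mul_le_mul_of_nonneg_right ?_ (Ω.E_nonneg fun _ => X.E_nonneg fun _ =>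
    X.E_nonneg fun _ => W.E_nonneg fun _ =>
      mul_nonneg (mul_nonneg (hn _ _ _) (hd _ _ _)) (sq_nonneg _)))
  refine (Ω.E_mono fun ω => X.E_mono fun x => X.E_mono fun x' => (?_ : _ ≤
    n ω x x' * P ω x x' ^ 2 + C * |W.E (d x x') - 1|)).trans ?_
  · refine le_of_eq_of_le ?_ (up (hC ω x x'))
    rw [← E_mul_left]
    exact W.E_congr fun w => by ring
  · simp only [E_add, E_mul_left, E_const]
    linarith [mul_le_mul_of_nonneg_left hη h0]

theorem mom_eq (S : KS X Y) (A : S.Ker) : S.mom A 2 = S.Ω.E fun ω => X.E fun x => X.E fun x' =>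
    Y.E fun y => Y.E fun y' => S.ν ω x * S.ν ω x' * (S.ν' ω y * S.ν' ω y') *
      (A ω x y * A ω x' y * (A ω x y' * A ω x' y')) := by
  refine S.Ω.E_congr fun ω => X.E_congr fun x => X.E_congr fun x' => ?_
  rw [E_sq, ← E_mul_left]
  refine Y.E_congr fun y => ?_
  rw [← E_mul_left]
  exact Y.E_congr fun y' => by ring

theorem mom_tp (S : KS X Y) (A : S.Ker) : S.tp.mom (fun ω y x => A ω x y) 2 = S.mom A 2 := by
  rw [mom_eq, mom_eq]
  refine S.Ω.E_congr fun ω => ?_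
  rw [comm2]
  refine X.E_congr fun x => ?_
  rw [comm2]
  exact X.E_congr fun x' => Y.E_congr fun y => Y.E_congr fun y' => by ring

theorem fin {L T M ε : ℝ} (hM : 0 ≤ M) (hε : 0 ≤ ε) (h1 : L ^ 2 ≤ (L + ε) * T)
    (h2 : T ^ 2 ≤ (L + ε) * M) : L ≤ 8 * M + ε := by
  rcases le_or_gt L ε with h | h
  · linarith
  · have h0 : 0 < L := hε.trans_lt h
    have h3 : (L ^ 2) ^ 2 ≤ ((L + ε) * T) ^ 2 := pow_le_pow_left₀ (sq_nonneg L) h1 2
    have h4 := mul_le_mul_of_nonneg_left h2 (sq_nonneg (L + ε))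
    have h5 : (L + ε) ^ 3 ≤ (2 * L) ^ 3 := pow_le_pow_left₀ (by linarith) (by linarith) 3
    have h6 := mul_le_mul_of_nonneg_right h5 hM
    have h7 : L ^ 3 * L ≤ L ^ 3 * (8 * M) := by nlinarith
    linarith [le_of_mul_le_mul_left h7 (pow_pos h0 3)]

theorem sqb {u v p B : ℝ} (hu : |u| ≤ B) (hv : |v| ≤ B) (hp : |p| ≤ B * (B * B * B) * (B * B * B)) :
    |u * v * p ^ 2| ≤ B ^ 16 := by
  refine (abs3 hu hv (?_ : _ ≤ (B * (B * B * B) * (B * B * B)) ^ 2)).trans_eq (by ring)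
  rw [abs_pow]
  exact pow_le_pow_left₀ (abs_nonneg _) hp 2

/-- the reindexing of a block -/
def iso (S : KS X Y) (a : X.α → W.α → ℝ) (b : Y.α → W.α → ℝ) {M : ℕ} (j : Fin (M + 1)) :
    KS.Iso ((S.ext W a b).ext (W.pow M) (pw a M) (pw b M))
      (S.ext (W.pow (M + 1)) (pw a _) (pw b _)) where
  e := (Equiv.prodAssoc _ _ _).trans
    (Equiv.prodCongr (Equiv.refl _) (Fin.insertNthEquiv (fun _ => W.α) j))
  μ ω := by
    show S.Ω.μ ω.1.1 * ∏ i, W.μ (Fin.insertNth (α := fun _ => W.α) j ω.1.2 ω.2 i) =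
      S.Ω.μ ω.1.1 * W.μ ω.1.2 * ∏ i, W.μ (ω.2 i)
    rw [Fin.prod_univ_succAbove _ j, mul_assoc]
    simp
  ν ω x := (congrArg (S.ν ω.1.1 x * ·) (pw_insertNth a M j x ω.1.2 ω.2)).trans
    (mul_assoc _ _ _).symm
  ν' ω y := (congrArg (S.ν' ω.1.1 y * ·) (pw_insertNth b M j y ω.1.2 ω.2)).trans
    (mul_assoc _ _ _).symm

theorem pe {a : X.α → W.α → ℝ} {b : Y.α → W.α → ℝ} {g : W.α → ℝ} {x : X.α} {y : Y.α} {c : ℝ}
    (h : c ≠ 0 → (W.E fun w => a x w * b y w * g w) = 1) (N : ℕ) (d : ℝ) :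
    ((W.pow N).E fun w => pw a N x w * pw b N y w * (c * (d * ∏ l, g (w l)))) = c * d := by
  by_cases hc : c = 0
  · simp [hc, E_const]
  · have h1 := W.E_pow N fun w => a x w * b y w * g w
    rw [h hc, one_pow] at h1
    rw [← mul_one (c * d), h1, ← E_mul_left]
    refine E_congr _ fun w => ?_
    rw [pw, pw, Finset.prod_mul_distrib, Finset.prod_mul_distrib]
    ring

end Blk

open Blk PS

theorem con_of (hS : STAR) : CON := by
  intro X Y W S a b B δ hB hb ha hb' G hG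
  have ha' : ∀ x w, |a x w| ≤ B := fun x w => ab ⟨ha.nn x w, ha.le x w⟩
  have hb'' : ∀ y w, |b y w| ≤ B := fun y w => ab ⟨hb'.nn y w, hb'.le y w⟩
  have hA : ∀ ω x y, |ce a b G ω x y| ≤ B * B * B := fun ω x y =>
    W.abs_E_le_of fun w => abs3 (ha' x w) (hb'' y w) (hG _ x y)
  have hδ := ha.nonneg
  have h16 : 0 ≤ B ^ 16 := by positivity
  generalize hAd : ce a b G = A at hA
  have h1 := step (fun ω x x' => S.ν ω x * S.ν ω x')
    (fun ω x x' => Y.E fun y => S.ν' ω y * A ω x y * A ω x' y) (fun x _ w => a x w)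
    (fun ω x x' w => Y.E fun y => S.ν' ω y * b y w * (G (ω, w) x y * A ω x' y)) (η := 2 * B * δ)
    (fun ω x x' => mul_nonneg (hb.1 ω x).1 (hb.1 ω x').1) (fun x _ w => ha.nn x w)
    (fun ω x x' => sqb (ab (hb.1 ω x)) (ab (hb.1 ω x')) (Y.abs_E_le_of fun y =>
      abs3 (ab (hb.2 ω y)) (hA ω x y) (hA ω x' y))) h16 (by
      simp only [E_const]
      nlinarith [(hS X X X W a a a B δ hB ha ha ha).1])
  have h2 := step (fun ω y y' => S.ν' ω y * S.ν' ω y')
    (fun ω y y' => X.E fun x => S.ν ω x * A ω x y * A ω x y') (fun y y' w => b y w * b y' w)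
    (fun ω y y' w => X.E fun x => S.ν ω x * a x w * G (ω, w) x y * G (ω, w) x y')
    (fun ω y y' => mul_nonneg (hb.2 ω y).1 (hb.2 ω y').1)
    (fun y y' w => mul_nonneg (hb'.nn y w) (hb'.nn y' w))
    (fun ω y y' => sqb (ab (hb.2 ω y)) (ab (hb.2 ω y')) (X.abs_E_le_of fun x =>
      abs3 (ab (hb.1 ω x)) (hA ω x y) (hA ω x y'))) h16 (hS Y Y Y W b b b B δ hB hb' hb' hb').2.1
  have e1 : (S.Ω.E fun ω => X.E fun x => X.E fun x' => W.E fun w => S.ν ω x * S.ν ω x' * a x w *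
      ((Y.E fun y => S.ν' ω y * A ω x y * A ω x' y) *
        Y.E fun y => S.ν' ω y * b y w * (G (ω, w) x y * A ω x' y))) = S.mom A 2 := by
    refine S.Ω.E_congr fun ω => X.E_congr fun x => X.E_congr fun x' => ?_
    have e : (W.E fun w => a x w * Y.E fun y => S.ν' ω y * b y w * (G (ω, w) x y * A ω x' y)) =
        Y.E fun y => S.ν' ω y * A ω x y * A ω x' y := by
      simp only [← E_mul_left]
      rw [E_comm]
      refine Y.E_congr fun y => ?_
      rw [show A ω x y = W.E fun w => a x w * b y w * G (ω, w) x y from by rw [← hAd]; rfl,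
        ← E_mul_left, ← E_mul_right]
      exact W.E_congr fun w => by ring
    rw [sq, ← mul_assoc]
    nth_rewrite 3 [← e]
    rw [← E_mul_left]
    exact W.E_congr fun w => by ring
  have e2 : (S.Ω.E fun ω => Y.E fun y => Y.E fun y' => W.E fun w => S.ν' ω y * S.ν' ω y' *
      (b y w * b y' w) * ((X.E fun x => S.ν ω x * A ω x y * A ω x y') *
        X.E fun x => S.ν ω x * a x w * G (ω, w) x y * G (ω, w) x y')) =
      S.Ω.E fun ω => X.E fun x => X.E fun x' => W.E fun w => S.ν ω x * S.ν ω x' * a x w *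
        (Y.E fun y => S.ν' ω y * b y w * (G (ω, w) x y * A ω x' y)) ^ 2 := by
    refine S.Ω.E_congr fun ω => ?_
    rw [comm2, comm2 X X W]
    refine W.E_congr fun w => ?_
    simp only [E_sq, mul_comm (X.E fun x => S.ν ω x * A ω x _ * A ω x _), E_mul_E]
    simp only [← E_mul_left]
    rw [comm2]
    refine X.E_congr fun x => ?_
    rw [comm2]
    exact X.E_congr fun x' => Y.E_congr fun y => Y.E_congr fun y' => by ring
  have e3 : (S.Ω.E fun ω => Y.E fun y => Y.E fun y' => W.E fun w => S.ν' ω y * S.ν' ω y' *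
      (b y w * b y' w) * (X.E fun x => S.ν ω x * a x w * G (ω, w) x y * G (ω, w) x y') ^ 2) =
      (S.ext W a b).mom G 2 := by
    rw [← mom_tp, KS.mom, E_prod]
    refine S.Ω.E_congr fun ω => ?_
    rw [comm2]
    exact W.E_congr fun w => Y.E_congr fun y => Y.E_congr fun y' => by ring
  rw [e1] at h1
  rw [e2, e3] at h2
  have h3 := fin (KS.mom_nonneg (hb.ext (fun x w => ⟨ha.nn x w, ha.le x w⟩)
    fun y w => ⟨hb'.nn y w, hb'.le y w⟩) G even_two) (by positivity) h1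
    (h2.trans_eq (congrArg (fun t => (t + _) * _) (mom_tp S A)))
  have h4 : B ^ 17 ≤ B ^ 20 := pow_le_pow_right₀ hB (by norm_num)
  have h5 := mul_le_mul_of_nonneg_right h4 hδ
  have h6 : 0 ≤ B ^ 20 * δ := by positivity
  calc _ ≤ _ := h3
    _ = 8 * (S.ext W a b).mom G 2 + 2 * (B ^ 17 * δ) := by ring
    _ ≤ _ := by linarith

theorem lift_of (hS : STAR) : LIFT := by
  intro X Y W S a b B δ hB hb ha hb' G hG
  have hδ := ha.nonneg
  have e : (S.ext W a b).mom (fun ω => G ω.1) 2 = S.Ω.E fun ω => X.E fun x => X.E fun x' =>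
      Y.E fun y => Y.E fun y' => S.ν ω x * S.ν ω x' * (S.ν' ω y * S.ν' ω y') *
        (G ω x y * G ω x' y * (G ω x y' * G ω x' y')) *
          W.E fun w => a x w * a x' w * b y w * b y' w := by
    rw [mom_eq, E_prod]
    refine S.Ω.E_congr fun ω => ?_
    rw [← comm2]
    refine X.E_congr fun x => X.E_congr fun x' => ?_
    rw [← comm2]
    refine Y.E_congr fun y => Y.E_congr fun y' => ?_
    rw [← E_mul_left]
    exact W.E_congr fun w => by ring
  have h2 : ∀ {u v : ℝ}, |u| ≤ B → |v| ≤ B → |u * v| ≤ B * B := fun hu hv =>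
    (abs_mul _ _).trans_le (mul_le_mul hu hv (abs_nonneg _) (zero_le_one.trans hB))
  rw [e, mom_eq]
  refine (S.Ω.E_mono fun ω => X.E_mono fun x => X.E_mono fun x' => Y.E_mono fun y =>
    Y.E_mono fun y' => up (abs3 (h2 (ab (hb.1 ω x)) (ab (hb.1 ω x')))
      (h2 (ab (hb.2 ω y)) (ab (hb.2 ω y'))) (abs3 (hG ω x y) (hG ω x' y)
        (h2 (hG ω x y') (hG ω x' y'))))).trans ?_
  simp only [E_add]
  simp only [E_mul_left, E_const]
  have h3 := mul_le_mul_of_nonneg_left (hS X Y X W a b a B δ hB ha hb' ha).2.2.2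
    (by positivity : 0 ≤ B * B * (B * B) * (B * B * (B * B)))
  have h4 : B ^ 11 ≤ B ^ 20 := pow_le_pow_right₀ hB (by norm_num)
  have h5 := mul_le_mul_of_nonneg_right h4 hδ
  have h6 : 0 ≤ B ^ 20 * δ := by positivity
  have h7 : B * B * (B * B) * (B * B * (B * B)) * (4 * B ^ 3 * δ) = 4 * (B ^ 11 * δ) := by ring
  linarith

theorem block_of (hP : CUTP) (hC : CON) (hL : LIFT) (hO : ORT) (hX : XN) : BLOCK := by
  intro X Y W S a b Φ g H B₀ B δ Γ κ R τ₀ τ₁ m hH ha hb hm hB₀ hmB hR hS hΓ hΓm hκ hτ₀ hd0 hd1 h1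
    hg hW τ' h0' h1'
  have hΓ0 : 0 < Γ := one_pos.trans_le hΓ
  have hm1 : (1 : ℝ) ≤ m := by nlinarith [one_le_pow₀ (n := 6) hΓ]
  obtain ⟨M, rfl⟩ : ∃ M, m = M + 1 := ⟨m - 1, by have : 1 ≤ m := by exact_mod_cast hm1
                                                 omega⟩
  have hB : 1 ≤ B := hm1.trans hmB
  have hδ := ha.nonneg
  rw [div_le_iff₀' (by positivity)] at h0'
  rw [le_div_iff₀' (by positivity)] at h1'
  obtain ⟨A', hA', hX0, hX1⟩ := hW _ h0' h1'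
  have hτ : 0 < 5 * Γ * τ' := hτ₀.trans_le h0'
  have hτ' : 0 < τ' := (mul_pos_iff_of_pos_left (by positivity)).1 hτ
  have hHN : ∀ N ≤ M + 1, H ^ N ≤ B₀ := fun N h => (pow_le_pow_right₀ hH h).trans hm
  have hB3 : B ≤ B ^ 3 := le_self_pow₀ hB (by norm_num)
  have hB2 : B ^ 2 ≤ B ^ 3 := pow_le_pow_right₀ hB (by norm_num)
  have hB0 : 0 ≤ B₀ := (pow_nonneg (zero_le_one.trans hH) _).trans hm
  have hsup : ∀ N ≤ M + 1, ∀ (G : (W.pow N).α → ℝ) (x y) (r : ℝ), (∀ w, |G w| ≤ r) →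
      |(W.pow N).E fun w => pw a N x w * pw b N y w * G w| ≤ B₀ * B₀ * r := fun N h G x y r hr =>
    (W.pow N).abs_E_le_of fun w => abs3
      (ab ⟨pw_nonneg ha.nn N x w, (pw_le ha.nn ha.le N x w).trans (hHN N h)⟩)
      (ab ⟨pw_nonneg hb.nn N y w, (pw_le hb.nn hb.le N y w).trans (hHN N h)⟩) (hr w)
  have hcut : ∀ {Z : PS} {c : Z.α → W.α → ℝ}, Cut c H δ → ∀ N ≤ M + 1,
      Cut (pw c N) (B ^ 3) (B ^ 2 * δ) := fun hc N h => (hP _ W _ H δ N hH hc).mono
    (((hHN N h).trans hB₀).trans hB3) (mul_le_mul_of_nonneg_right ((mul_le_mul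
      ((Nat.cast_le.2 h).trans hmB) ((hHN N h).trans hB₀) (by positivity)
      (by positivity)).trans_eq (sq B).symm) hδ)
  have hHB : H ≤ B := ((pow_one H).symm.trans_le (hHN 1 (by omega))).trans hB₀
  have hE : (S.ext W a b).Bd (B ^ 3) := (hS.ext (fun x w => ⟨ha.nn x w, ha.le x w⟩)
    fun y w => ⟨hb.nn y w, hb.le y w⟩).mono (by nlinarith)
  have hO1 := hO X Y W S a b H B δ M A' hH ha hb (hm.trans hB₀) (by exact_mod_cast hmB) hS
    fun ω x y => by linarith [hA' ω x y, abs_nonneg (A' ω x y)]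
  rw [KS.X0_le_iff (by positivity)] at hX0
  rw [KS.X1_le_iff (by positivity)] at hX1
  have h62 : 20 * B ^ 20 * δ ≤ 20 * B ^ 62 * δ := by
    have := pow_le_pow_right₀ hB (show 20 ≤ 62 by norm_num)
    gcongr
  obtain ⟨j, -, hj⟩ := Finset.exists_le_of_sum_le (s := Finset.univ) Finset.univ_nonempty
    (g := fun _ : Fin (M + 1) => (κ / Γ * τ' ^ 2) ^ 2) (hO1.trans (by
      rw [Finset.sum_const, Finset.card_univ, Fintype.card_fin, nsmul_eq_mul]
      have h2 : κ ^ 2 * τ₀ ^ 4 ≤ κ ^ 2 * (5 * Γ * τ') ^ 4 := by gcongr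
      have h3 := mul_le_mul_of_nonneg_right hΓm (sq_nonneg (κ / Γ * τ' ^ 2))
      have h4 : 1875 * Γ ^ 6 * (κ / Γ * τ' ^ 2) ^ 2 = 3 * (κ ^ 2 * (5 * Γ * τ') ^ 4) := by
        field_simp
        norm_num
      have h5 : (κ * (5 * Γ * τ') ^ 2) ^ 2 = κ ^ 2 * (5 * Γ * τ') ^ 4 := by ring
      linarith))
  refine ⟨fun ω x y => sl a b j A' ω x y - ce (pw a _) (pw b _) A' ω.1 x y, fun ω x y => ?_,
    (KS.X0_le_iff (by positivity)).2 hj, ?_⟩
  · refine (abs_sub _ _).trans ((add_le_add (hsup M (by omega) _ x y R fun w => hA' _ x y)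
      (hsup _ le_rfl _ x y R fun w => hA' _ x y)).trans_eq (by ring))
  set D : (S.ext (W.pow (M + 1)) (pw a _) (pw b _)).Ker :=
    fun ω x y => Φ ω.1 x y * ∏ l, g x y (ω.2 l) - A' ω x y with hD
  have hDB : ∀ ω x y, |D ω x y| ≤ B := fun ω x y =>
    (abs_sub _ _).trans (by linarith [hg ω.1 x y ω.2, hA' ω x y])
  have e : (fun (ω : (S.ext W a b).Ω.α) x y => Φ ω.1 x y * (g x y ω.2 - 1) -
      (sl a b j A' ω x y - ce (pw a _) (pw b _) A' ω.1 x y)) =
      fun ω x y => sl a b j D ω x y - ce (pw a _) (pw b _) D ω.1 x y := by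
    funext ω x y
    have e1 := pe (h1 ω.1 x y) M (g x y ω.2)
    have e2 := pe (h1 ω.1 x y) (M + 1) 1
    have e3 : ∀ w : (W.pow M).α, ∏ l, g x y (Fin.insertNth (α := fun _ => W.α) j ω.2 w l) =
        g x y ω.2 * ∏ l, g x y (w l) := fun w => pw_insertNth (fun x w => g x y w) M j x ω.2 w
    simp only [one_mul, mul_one] at e2
    simp only [sl, ce, hD, mul_sub, E_sub, e3, e1, e2]
    ring
  have h3 : 1 ≤ B ^ 3 := hB.trans hB3
  have h4 : 20 * (B ^ 3) ^ 20 * (B ^ 2 * δ) ≤ (κ / (5 * Γ * τ')) ^ 4 := by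
    refine le_trans (le_of_eq_of_le (by ring) hd1) ?_
    have := hτ.trans_le h1'
    gcongr
  have h5 := hC X Y (W.pow M) (S.ext W a b) _ _ _ _ h3 hE (hcut ha M (by omega))
    (hcut hb M (by omega)) (fun ω => D ((iso S a b j).e ω)) fun ω x y => (hDB _ x y).trans hB3
  rw [(iso S a b j).mom D] at h5
  have h6 := hC X Y (W.pow (M + 1)) S _ _ _ _ h3 (hS.mono hB3) (hcut ha _ le_rfl)
    (hcut hb _ le_rfl) D fun ω x y => (hDB _ x y).trans hB3
  have hδ2 : δ ≤ B ^ 2 * δ := le_mul_of_one_le_left hδ (one_le_pow₀ hB)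
  have h7 := hL X Y W S a b _ _ h3 (hS.mono hB3) (ha.mono (hHB.trans hB3) hδ2)
    (hb.mono (hHB.trans hB3) hδ2) (ce (pw a _) (pw b _) D) fun ω x y =>
      (hsup _ le_rfl _ x y B fun w => hDB _ x y).trans (by
        rw [pow_succ, sq]
        gcongr)
  have h8 : (2 * (κ / (5 * Γ * τ'))) ^ 4 = 16 * (κ / (5 * Γ * τ')) ^ 4 := by ring
  have h9 : 0 ≤ (κ / (5 * Γ * τ')) ^ 4 := by positivity
  have h10 : (S.ext W a b).X1 (sl a b j D) ≤ 2 * (κ / (5 * Γ * τ')) :=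
    (KS.X1_le_iff (by positivity)).2 (le_trans h5 (by linarith))
  have h11 : (S.ext W a b).X1 (fun ω => ce (pw a _) (pw b _) D ω.1) ≤ 2 * (κ / (5 * Γ * τ')) :=
    (KS.X1_le_iff (by positivity)).2 (by linarith)
  have h12 : κ / Γ / τ' = 5 * (κ / (5 * Γ * τ')) := by field_simp
  have h13 : 0 ≤ κ / (5 * Γ * τ') := by positivity
  rw [e]
  exact (hX X Y _ _ _ _ hE).2.1.trans (by linarith)

end Vale.Agent.P057Z.St
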