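import Vale.Agent.P057Z.St.Api

/-!
# P057Z, block St: the weak norm of one face
-/

noncomputable section

namespace Vale.Agent.P057Z.St

namespace Edge

open Real

theorem mB_ge : (10 : ℝ) ^ 4 ≤ (mB : ℝ) := by
  unfold mB
  norm_num

theorem mB_eq : 1875 * ((10 : ℝ) ^ 4) ^ 6 ≤ (mB : ℝ) := by
  unfold mB
  norm_num

theorem two_le : (2 : ℝ) ≤ exp 1 := by linarith [add_one_le_exp 1]

theorem two_pow_le (k : ℕ) : (2 : ℝ) ^ k ≤ exp k := by
  rw [← exp_one_pow]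
  exact pow_le_pow_left₀ (by norm_num) two_le k

theorem exp_le_four (k : ℕ) : exp k ≤ 4 ^ k := by
  rw [← exp_one_pow]
  exact pow_le_pow_left₀ (exp_pos _).le (exp_one_lt_d9.le.trans (by norm_num)) k

theorem pow_le_exp {a t : ℝ} (h0 : 0 ≤ a) (h : a ≤ exp t) (k : ℕ) : a ^ k ≤ exp (k * t) := by
  rw [exp_nat_mul]
  exact pow_le_pow_left₀ h0 h k

theorem exp_le_pow {a t : ℝ} (h : exp t ≤ a) (k : ℕ) : exp (k * t) ≤ a ^ k := by
  rw [exp_nat_mul]
  exact pow_le_pow_left₀ (exp_pos _).le h k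

theorem mul_le_exp {a b s t : ℝ} (hb : 0 ≤ b) (h : a ≤ exp s) (h' : b ≤ exp t) :
    a * b ≤ exp (s + t) := by
  rw [exp_add]
  exact mul_le_mul h h' hb (exp_pos _).le

theorem exp_le_mul {a b s t : ℝ} (h : exp s ≤ a) (h' : exp t ≤ b) : exp (s + t) ≤ a * b := by
  rw [exp_add]
  exact mul_le_mul h h' (exp_pos _).le ((exp_pos _).le.trans h)

theorem c16 : (5 * 10 ^ 4 : ℝ) ≤ exp 16 := by
  have := two_pow_le 16
  norm_num at this ⊢
  linarith

theorem c16' : exp (-16) ≤ (2 / 10 ^ 4 : ℝ) := by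
  rw [exp_neg, inv_le_comm₀ (exp_pos _) (by norm_num)]
  exact le_trans (by norm_num) c16

/-- the parameters -/
structure Par (x y M p δ : ℝ) : Prop where
  hM : 10 ^ 4 ≤ M
  hx : 8 * M ≤ x
  hy : x ≤ y
  p1 : 2 * x ≤ p
  p2 : p ≤ 2 * x + 2
  hδ : δ ≤ exp (-y ^ 6)

namespace Par

variable {x y M δ : ℝ} {p : ℕ} (h : Par x y M p δ)
include h

theorem y1 : 10 ^ 4 ≤ y := by linarith [h.hM, h.hx, h.hy]

theorem x1 : 10 ^ 4 ≤ x := by linarith [h.hM, h.hx]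

theorem p3 : (p : ℝ) ≤ 3 * y := by linarith [h.p2, h.hy, h.y1]

theorem up (k : ℕ) : 10 ^ 4 * y ^ k ≤ y ^ (k + 1) := by
  rw [pow_succ, mul_comm]
  exact mul_le_mul_of_nonneg_left h.y1 (pow_nonneg (by linarith [h.y1]) k)

theorem chain : 10 ^ 4 ≤ y ∧ 10 ^ 4 * y ≤ y ^ 2 ∧ 10 ^ 4 * y ^ 2 ≤ y ^ 3 ∧ 10 ^ 4 * y ^ 3 ≤ y ^ 4 ∧
    10 ^ 4 * y ^ 4 ≤ y ^ 5 ∧ 10 ^ 4 * y ^ 5 ≤ y ^ 6 :=
  ⟨h.y1, by simpa using h.up 1, h.up 2, h.up 3, h.up 4, h.up 5⟩

theorem N1 : p * M ≤ y ^ 2 / 3 := by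
  have h1 : (p : ℝ) * M ≤ (2 * x + 2) * (x / 8) :=
    mul_le_mul h.p2 (by linarith [h.hx]) (by linarith [h.hM]) (by linarith [h.x1])
  have h2 : x ^ 2 ≤ y ^ 2 := pow_le_pow_left₀ (by linarith [h.x1]) h.hy 2
  nlinarith [h.x1]

theorem N0 : 0 ≤ p * M := mul_nonneg (Nat.cast_nonneg _) (by linarith [h.hM])

theorem Ny : p * M * y ≤ y ^ 3 / 3 := by
  have := mul_le_mul_of_nonneg_right h.N1 (show 0 ≤ y by linarith [h.y1])
  linarith

theorem Nx : p * M * (x + 1) ≤ 2 * (p * M * y) := by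
  have := mul_le_mul_of_nonneg_left (show x + 1 ≤ 2 * y by linarith [h.hy, h.y1]) h.N0
  linarith

theorem py : p * y ≤ 3 * y ^ 2 := by
  have := mul_le_mul_of_nonneg_right h.p3 (show 0 ≤ y by linarith [h.y1])
  linarith

theorem px : p * (x + 1) ≤ 2 * (p * y) := by
  have := mul_le_mul_of_nonneg_left (show x + 1 ≤ 2 * y by linarith [h.hy, h.y1])
    (Nat.cast_nonneg (α := ℝ) p)
  linarith

theorem small {a t s : ℝ} (h0 : 0 ≤ a) (ha : a ≤ exp t) (hs : t - y ^ 6 ≤ s) :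
    a * δ ≤ exp s := by
  refine (mul_le_mul_of_nonneg_left h.hδ h0).trans ?_
  exact (mul_le_exp (exp_pos _).le ha le_rfl).trans (exp_le_exp.mpr (by linarith))

theorem tau1 : (2 : ℝ) ^ ⌈3 * y ^ 3⌉₊ * (exp (-y ^ 3) * (5 * 10 ^ 4) ^ p) ≤ exp (3 * y ^ 3) := by
  obtain ⟨c0, c1, c2, -⟩ := h.chain
  have h1 : (⌈3 * y ^ 3⌉₊ : ℝ) ≤ 3 * y ^ 3 + 1 := (Nat.ceil_lt_add_one (by positivity)).le
  refine (mul_le_exp (by positivity) (two_pow_le _) (mul_le_exp (by positivity) le_rfl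
    (pow_le_exp (by positivity) c16 p))).trans (exp_le_exp.mpr ?_)
  linarith [h.p3]

theorem err62 : 20 * exp (42 * y ^ 3) ^ 62 * δ ≤ exp (-12 * y ^ 3) := by
  obtain ⟨c0, c1, c2, c3, c4, c5⟩ := h.chain
  have h1 : (20 : ℝ) ≤ exp 5 := by
    have := two_pow_le 5
    norm_num at this ⊢
    linarith
  refine h.small (by positivity) (mul_le_exp (by positivity) h1
    (pow_le_exp (by positivity) le_rfl 62)) ?_
  push_cast
  linarith

theorem kap : exp (-y ^ 2) ≤ (2 / 10 ^ 4 : ℝ) ^ p := by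
  obtain ⟨c0, c1, -⟩ := h.chain
  exact le_trans (exp_le_exp.mpr (by linarith [h.p3])) (exp_le_pow c16' p)

theorem ends {κ : ℝ} (hκ : exp (-y ^ 2) ≤ κ) :
    exp y ^ p * (exp y * exp (x + 1) ^ p) ≤ κ / exp (-y ^ 3) ∧
    exp y ^ p * (exp y * exp (x + 1) ^ p) ≤ κ * (2 ^ ⌈3 * y ^ 3⌉₊ * exp (-y ^ 3)) ^ 2 := by
  obtain ⟨c0, c1, c2, -⟩ := h.chain
  have h1 : exp y ^ p * (exp y * exp (x + 1) ^ p) ≤ exp (-y ^ 2 + y ^ 3) :=
    (mul_le_exp (by positivity) (pow_le_exp (by positivity) le_rfl p) (mul_le_exp (by positivity)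
      le_rfl (pow_le_exp (by positivity) le_rfl p))).trans
      (exp_le_exp.mpr (by linarith [h.py, h.px]))
  refine ⟨h1.trans ?_, h1.trans (exp_le_mul hκ ?_)⟩
  · rw [div_eq_mul_inv, ← exp_neg, neg_neg]
    exact exp_le_mul hκ le_rfl
  · rw [mul_pow, ← pow_mul, mul_comm _ 2, pow_mul]
    refine le_trans (exp_le_exp.mpr ?_) (exp_le_mul (s := ⌈3 * y ^ 3⌉₊) ?_ (exp_le_pow le_rfl 2))
    · push_cast
      linarith [Nat.le_ceil (3 * y ^ 3)]
    · exact (exp_le_four _).trans_eq (by norm_num)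

theorem one : 10 * (p + 1) * exp y ^ (8 * p + 8) * δ ≤ 1 := by
  obtain ⟨c0, c1, c2, c3, c4, c5⟩ := h.chain
  have h1 : 10 * ((p : ℝ) + 1) ≤ exp (y ^ 2) := by linarith [add_one_le_exp (y ^ 2), h.p3]
  refine (h.small (s := 0) (by positivity) (mul_le_exp (by positivity) h1
    (pow_le_exp (by positivity) le_rfl _)) ?_).trans_eq exp_zero
  push_cast
  linarith [h.py]

theorem err2 : δ * (exp y ^ p) ^ 3 * ((exp y ^ p) ^ 2 * ((exp y ^ p) ^ 3 * 1 ^ 2) ^ 2) ^ 4 ≤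
    2 ^ 4 := by
  obtain ⟨c0, c1, c2, c3, c4, c5⟩ := h.chain
  rw [show δ * (exp y ^ p) ^ 3 * ((exp y ^ p) ^ 2 * ((exp y ^ p) ^ 3 * 1 ^ 2) ^ 2) ^ 4 =
    (exp y ^ p) ^ 35 * δ by ring]
  refine ((h.small (s := 0) (by positivity) (pow_le_exp (by positivity)
    (pow_le_exp (by positivity) le_rfl _) _) ?_).trans_eq exp_zero).trans (by norm_num)
  push_cast
  linarith [h.py]

variable {N : ℕ} (hN : (N : ℝ) = p * M)
include hN

theorem errN : δ * (exp y ^ N) ^ 3 *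
    ((exp y ^ N) ^ 2 * ((exp y ^ N) ^ 3 * (exp (x + 1) ^ N) ^ 2) ^ (2 * N)) ^ 4 ≤ 1 := by
  obtain ⟨c0, c1, c2, c3, c4, c5⟩ := h.chain
  have hB : exp y ^ N ≤ exp (N * y) := pow_le_exp (by positivity) le_rfl _
  have hK : exp (x + 1) ^ N ≤ exp (N * (x + 1)) := pow_le_exp (by positivity) le_rfl _
  rw [mul_assoc, mul_comm δ]
  refine (h.small (s := 0) (by positivity) (mul_le_exp (by positivity)
    (pow_le_exp (by positivity) hB _) (pow_le_exp (by positivity) (mul_le_exp (by positivity)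
    (pow_le_exp (by positivity) hB _) (pow_le_exp (by positivity) (mul_le_exp (by positivity)
    (pow_le_exp (by positivity) hB _) (pow_le_exp (by positivity) hK _)) _)) _)) ?_).trans_eq
    exp_zero
  push_cast
  rw [hN]
  have h1 := mul_le_mul h.N1 (show 3 * (p * M * y) + 2 * (p * M * (x + 1)) ≤ 7 * (y ^ 3 / 3) by
    linarith [h.Ny, h.Nx]) (by have := h.N0; have := h.x1; positivity) (by positivity)
  have h2 : y ^ 2 / 3 * (7 * (y ^ 3 / 3)) = 7 / 9 * y ^ 5 := by ring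
  linarith [h.Ny]

theorem mom : (2 : ℝ) ^ (2 * N - 1) * exp (x + 1) ^ N *
    (2 * ((1 + 1 / (10 * M)) ^ (2 * (2 * N) * N) * (1 + 1 / (10 * M)) ^ (2 * (2 * N) * N))) ≤
    (2 ^ p) ^ (3 * (2 * N)) := by
  have hM := h.hM
  have h1 : 1 + 1 / (10 * M) ≤ exp (1 / (10 * M)) := by linarith [add_one_le_exp (1 / (10 * M))]
  have h2 := pow_le_exp (by positivity) h1 (2 * (2 * N) * N)
  have h3 : (2 : ℝ) ^ (2 * N - 1) ≤ exp (2 * N) :=
    (pow_le_pow_right₀ one_le_two (Nat.sub_le _ _)).trans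
      ((two_pow_le _).trans_eq (by push_cast; rfl))
  refine (mul_le_exp (by positivity) (mul_le_exp (by positivity) h3
    (pow_le_exp (by positivity) le_rfl N)) (mul_le_exp (by positivity) two_le
    (mul_le_exp (by positivity) h2 h2))).trans ?_
  have h4 : ((2 * (2 * N) * N : ℕ) : ℝ) * (1 / (10 * M)) = 2 / 5 * (N * p) := by
    push_cast
    rw [hN]
    field_simp
    ring
  rw [h4, ← pow_mul, show p * (3 * (2 * N)) = 2 * (3 * (N * p)) by ring, pow_mul]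
  refine le_trans (exp_le_exp.mpr ?_) ((exp_le_four (3 * (N * p))).trans_eq (by norm_num))
  push_cast
  have h5 : (1 : ℝ) ≤ N := by rw [hN]; nlinarith [h.p1, h.x1]
  have h6 := mul_le_mul_of_nonneg_left (show x + 4 ≤ p by linarith [h.p1, h.x1])
    (show (0 : ℝ) ≤ N by linarith)
  have h7 : (0 : ℝ) ≤ N * p := by positivity
  nlinarith

theorem sup {τ : ℝ} (h0 : 0 ≤ τ) (hτ : τ ≤ exp (3 * y ^ 3)) :
    (exp y ^ N) ^ 2 * (exp y ^ N * exp (x + 1) ^ N) ^ 3 * τ ^ 8 / (2 ^ p) ^ 2 ≤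
      exp (40 * y ^ 3) := by
  obtain ⟨c0, c1, c2, -⟩ := h.chain
  have hB : exp y ^ N ≤ exp (N * y) := pow_le_exp (by positivity) le_rfl _
  have hK : exp (x + 1) ^ N ≤ exp (N * (x + 1)) := pow_le_exp (by positivity) le_rfl _
  refine (div_le_self (by positivity) (one_le_pow₀ (one_le_pow₀ one_le_two))).trans ?_
  refine (mul_le_exp (by positivity) (mul_le_exp (by positivity) (pow_le_exp (by positivity) hB _)
    (pow_le_exp (by positivity) (mul_le_exp (by positivity) hB hK) _))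
    (pow_le_exp h0 hτ _)).trans (exp_le_exp.mpr ?_)
  push_cast
  rw [hN]
  linarith [h.Ny, h.Nx]

theorem it1 : exp y ^ N ≤ exp (42 * y ^ 3) ∧ exp y * exp (x + 1) ^ N ≤ exp (40 * y ^ 3) := by
  obtain ⟨c0, c1, c2, -⟩ := h.chain
  refine ⟨(pow_le_exp (by positivity) le_rfl _).trans (exp_le_exp.mpr ?_),
    (mul_le_exp (by positivity) le_rfl (pow_le_exp (by positivity) le_rfl _)).trans
      (exp_le_exp.mpr ?_)⟩
  · rw [hN]
    linarith [h.Ny]
  · rw [hN]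
    linarith [h.Ny, h.Nx]

omit hN in
theorem it2 {m : ℕ} (hm : (m : ℝ) = M) : exp y ^ m ≤ exp (42 * y ^ 3) ∧
    (m : ℝ) ≤ exp (42 * y ^ 3) ∧
    2 * (exp (40 * y ^ 3) * (2 * (exp y ^ m) ^ 2) ^ p) ≤ exp (42 * y ^ 3) := by
  obtain ⟨c0, c1, c2, -⟩ := h.chain
  have hB : exp y ^ m ≤ exp (m * y) := pow_le_exp (by positivity) le_rfl _
  have h1 : M * y ≤ y ^ 2 := by
    have := mul_le_mul_of_nonneg_right (show M ≤ y by linarith [h.hx, h.hy, h.hM])
      (show 0 ≤ y by linarith)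
    linarith
  refine ⟨hB.trans (exp_le_exp.mpr ?_), ?_, (mul_le_exp (by positivity) two_le
    (mul_le_exp (by positivity) le_rfl (pow_le_exp (by positivity) (mul_le_exp (by positivity)
    two_le (pow_le_exp (by positivity) hB _)) _))).trans (exp_le_exp.mpr ?_)⟩
  · rw [hm]
    linarith
  · linarith [add_one_le_exp (42 * y ^ 3), h.hx, h.hy, h.hM]
  · push_cast
    rw [hm]
    linarith [h.Ny, h.p3]

end Par

theorem bd {X Y W : PS} {a : X.α → W.α → ℝ} {b : Y.α → W.α → ℝ} {M δ : ℝ} (ha : Cut a M δ)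
    (hb : Cut b M δ) (p : ℕ) : (cols a b p).Bd (M ^ p) :=
  ⟨fun w x => ⟨pw_nonneg ha.nn _ x w, pw_le ha.nn ha.le _ x w⟩,
    fun w y => ⟨pw_nonneg hb.nn _ y w, pw_le hb.nn hb.le _ y w⟩⟩

theorem abs_prod_le {N : ℕ} {u : Fin N → ℝ} {K : ℝ} (hu : ∀ l, |u l| ≤ K) :
    |∏ l, u l| ≤ K ^ N := by
  rw [Finset.abs_prod]
  refine (Finset.prod_le_prod (fun _ _ => abs_nonneg _) fun _ _ => hu _).trans_eq ?_
  rw [Finset.prod_const, Finset.card_univ, Fintype.card_fin]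

end Edge

open Edge Real in
theorem edge_of (hX : XN) (hG : GRAM) (hI : ITER) (hM : GMON) (hO : ONE) : EDGE := by
  intro X Y W n γ a b f g x y δ e₀ p s hx hy hp1 hp2 hδ hF hN hB
  have h : Par x y mB p δ := ⟨mB_ge, hx, hy, hp1, hp2, hδ⟩
  have hMe := mB_eq
  generalize mB = mB at *
  obtain ⟨c0, c1, c2, c3, c4, c5⟩ := h.chain
  have hM0 := h.hM
  have hx1 := h.x1
  have hH : 1 ≤ exp y := one_le_exp (by linarith)
  have hK : 1 ≤ exp (x + 1) := one_le_exp (by linarith)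
  have hp : 1 ≤ p := by exact_mod_cast (show (1 : ℝ) ≤ p by linarith)
  have he : (1 : ℝ) / (10 * mB) ≤ 1 := by rw [div_le_one (by positivity)]; linarith
  have hg : ∀ x' y' w, 0 ≤ g x' y' w ∧ g x' y' w ≤ exp (x + 1) := fun x' y' w =>
    ⟨hN.nn _ _ _, (hN.le _ _ _).trans (by
      rw [add_comm x]
      exact mul_le_exp (hF.nn _ _ _) (le_trans (by linarith) two_le) (hF.le _ _ _))⟩
  have hγ : ∀ x' y', 0 ≤ γ x' y' ∧ γ x' y' ≤ 1 := fun x' y' => by
    rcases hN.zo x' y' with h | h <;> rw [h] <;> norm_num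
  have hκ : exp (-y ^ 2) ≤ (if s then (2 / 10 ^ 4) ^ p else 2 : ℝ) := by
    cases s
    · exact (exp_le_one_iff.mpr (by nlinarith)).trans one_le_two
    · exact h.kap
  have hend := (hX _ _ (cols a b p) _ (lift n γ a b (sel s g) p) (lift n γ a b (sel s g) p)
    (bd hF.ca hF.cb p)).2.2.2 (exp y * exp (x + 1) ^ p) fun w x' y' => by
      show |n x' y' * (γ x' y' * ∏ l, sel s g x' y' (w l))| ≤ _
      rw [abs_mul, abs_mul, abs_of_nonneg (hF.cn.nn _ _), abs_of_nonneg (hγ _ _).1]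
      refine mul_le_mul (hF.cn.le _ _) ((mul_le_of_le_one_left (abs_nonneg _) (hγ _ _).2).trans
        (abs_prod_le fun l => ?_)) (mul_nonneg (hγ _ _).1 (abs_nonneg _)) (by positivity)
      cases s
      · exact abs_one.trans_le hK
      · exact abs_le.mpr ⟨by show _ ≤ g _ _ _ - 1; linarith [(hg x' y' (w l)).1],
          by show g _ _ _ - 1 ≤ _; linarith [(hg x' y' (w l)).2]⟩
  refine ⟨(exp_pos _).trans_le hκ, ?_, hend.2.trans (h.ends hκ).1, hend.1.trans (h.ends hκ).2⟩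
  cases s
  · obtain ⟨o1, o2⟩ := hO X Y W n γ a b g _ δ p hH hF.cn hF.ca hF.cb hN.zo h.one
    exact ⟨_, hG X Y (cols a b p) n (fun w x' y' => γ x' y' * ∏ l, sel false g x' y' (w l))
      (exp y ^ p) 1 δ 2 2 2 _ _ 2 (one_le_pow₀ hH) le_rfl (bd hF.ca hF.cb p)
      (hF.cn.mono (le_self_pow₀ hH (by omega)) le_rfl)
      (fun w x' y' => by simpa [sel] using hγ x' y') even_two le_rfl o1 o2
      (((hX _ _ (cols a b p) _ _ (lift n γ a b (sel false g) p)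
        (bd hF.ca hF.cb p)).2.2.1).trans_le o2) h.err2 two_pos (by norm_num) (exp_pos _)⟩
  · have hN1 : 1 ≤ p * mB := Nat.mul_pos hp (by exact_mod_cast (show (0 : ℝ) < mB by linarith))
    have hNe : ((p * mB : ℕ) : ℝ) = p * (mB : ℝ) := Nat.cast_mul _ _
    obtain ⟨m1, m2, m3⟩ := hM X Y W n γ a b f g _ δ _ (p * mB) (2 * (p * mB)) hF.cn hF.ca hF.cb
      (by positivity) hF.nn hN
    rw [Big, not_or, not_le, not_le] at hB
    have h1e : (1 : ℝ) ≤ (1 + 1 / (10 * mB)) ^ (2 * (2 * (p * mB)) * (p * mB)) :=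
      one_le_pow₀ (le_add_of_nonneg_right (by positivity))
    have hδ1 : δ ≤ 1 := hδ.trans (exp_le_one_iff.mpr (by nlinarith))
    have hτ := h.tau1
    have hW := (hG X Y (cols a b (p * mB)) n (fun w x' y' => γ x' y' * ∏ l, g x' y' (w l))
      (exp y ^ (p * mB)) (exp (x + 1) ^ (p * mB)) δ 2 _ (2 ^ p)
      (exp (-y ^ 3) * (5 * 10 ^ 4) ^ p) (2 ^ ⌈3 * y ^ 3⌉₊ * (exp (-y ^ 3) * (5 * 10 ^ 4) ^ p))
      (2 * (p * mB)) (one_le_pow₀ hH) (one_le_pow₀ hK) (bd hF.ca hF.cb _)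
      (hF.cn.mono (le_self_pow₀ hH (by omega)) le_rfl)
      (fun w x' y' => ⟨mul_nonneg (hγ _ _).1 (Finset.prod_nonneg fun _ _ => (hg _ _ _).1),
        (mul_le_of_le_one_left (Finset.prod_nonneg fun _ _ => (hg _ _ _).1) (hγ _ _).2).trans
          ((le_abs_self _).trans (abs_prod_le fun l =>
            (abs_of_nonneg (hg _ _ _).1).trans_le (hg _ _ _).2))⟩)
      (even_two_mul _) (by omega) (m1.trans (by linarith))
      (m2.trans (mul_le_mul_of_nonneg_left hB.1.le (by linarith)))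
      (m3.trans (mul_le_mul_of_nonneg_left hB.2.le (by linarith)))
      ((h.errN hNe).trans (one_le_pow₀ (one_le_mul_of_one_le_of_one_le h1e h1e)))
      (by positivity) (h.mom hNe) (by positivity)).mono (h.sup hNe (by positivity) hτ)
    obtain ⟨i1, i2⟩ := h.it1 hNe
    obtain ⟨i3, i4, i5⟩ := h.it2 (m := mB) rfl
    have e1 : (2 : ℝ) ^ p / (10 ^ 4) ^ p = (2 / 10 ^ 4) ^ p := (div_pow _ _ _).symm
    have e2 : exp (-y ^ 3) * (5 * 10 ^ 4) ^ p / (5 * 10 ^ 4) ^ p = exp (-y ^ 3) :=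
      mul_div_cancel_right₀ _ (by positivity)
    have e3 : 2 ^ ⌈3 * y ^ 3⌉₊ * (exp (-y ^ 3) * (5 * 10 ^ 4) ^ p) / (5 * 10 ^ 4) ^ p =
        2 ^ ⌈3 * y ^ 3⌉₊ * exp (-y ^ 3) := by rw [mul_div_assoc, e2]
    have hW2 := hI X Y W n γ a b g _ _ (exp y ^ mB) (exp (42 * y ^ 3)) δ (10 ^ 4) _ _ _ _ mB p hH
      hF.cn hF.ca hF.cb hN.zo hg hK hN.one le_rfl i3 i1 i4 i2 i5 (by norm_num) hMe
      (by positivity) (by positivity)
      (le_mul_of_one_le_left (by positivity) (one_le_pow₀ one_le_two))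
      (h.err62.trans (by
        rw [e1, e2]
        refine le_trans (exp_le_exp.mpr ?_) (exp_le_mul (exp_le_pow h.kap 2) (exp_le_pow le_rfl 4))
        push_cast
        linarith))
      (h.err62.trans (by
        refine le_trans (exp_le_exp.mpr ?_) (exp_le_pow (t := -(3 * y ^ 3)) ?_ 4)
        · push_cast
          linarith
        · rw [exp_neg, inv_eq_one_div]
          exact div_le_div₀ (by positivity) (one_le_pow₀ one_le_two) (by positivity) hτ)) hW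
    rw [e1, e2, e3] at hW2
    exact ⟨_, hW2⟩

end Vale.Agent.P057Z.St
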