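import Vale.Agent.P057Z.St.Api

/-!
# P057Z, block St: Gram kernels, moments of the lifted kernel, moments of the weights
-/

noncomputable section

namespace Vale.Agent.P057Z.St

namespace Grm

variable {X Y W : PS}

theorem cs_sqrt (P : PS) {A B : P.α → ℝ} (hA : ∀ a, 0 ≤ A a) (hB : ∀ a, 0 ≤ B a) :
    (P.E fun a => √(A a) * √(B a)) ≤ √(P.E A) * √(P.E B) := by
  have h := P.cs_abs (w := fun _ => 1) (fun _ => zero_le_one) (fun a => √(A a)) fun a => √(B a)
  simp only [one_mul, Real.sq_sqrt (hA _), Real.sq_sqrt (hB _)] at h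
  exact (le_abs_self _).trans h

theorem sum_sq_E {κ : Type} [Fintype κ] (ν : X.α → ℝ) (a : X.α → κ → ℝ) :
    ∑ I, (X.E fun x => ν x * a x I) ^ 2 =
      X.E fun x => X.E fun x' => ν x * ν x' * ∑ I, a x I * a x' I := by
  simp only [PS.E_sq, ← PS.E_sum, Finset.mul_sum]
  exact X.E_congr fun x => X.E_congr fun x' => Finset.sum_congr rfl fun I _ => by ring

theorem sum_E_sq {κ : Type} [Fintype κ] {ν : X.α → ℝ} {a : X.α → κ → ℝ} {B R : ℝ}
    (hν : ∀ x, 0 ≤ ν x ∧ ν x ≤ B) (ha : ∀ x, ∑ I, a x I * a x I ≤ R) :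
    ∑ I, (X.E fun x => (ν x * a x I) ^ 2) ≤ B ^ 2 * R := by
  rw [← PS.E_sum]
  refine X.E_le fun x => ?_
  simp only [mul_pow, ← Finset.mul_sum, sq (a x _)]
  exact mul_le_mul (pow_le_pow_left₀ (hν x).1 (hν x).2 2) (ha x)
    (Finset.sum_nonneg fun I _ => mul_self_nonneg _) (sq_nonneg B)

theorem fibre (hO : OPN) {κ : Type} [Fintype κ] {n : X.α → Y.α → ℝ} {B R δ : ℝ} {ν : X.α → ℝ}
    {ν' : Y.α → ℝ} {a : X.α → κ → ℝ} {b : Y.α → κ → ℝ} (hB : 1 ≤ B) (hn : Cut n B δ)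
    (hν : ∀ x, 0 ≤ ν x ∧ ν x ≤ B) (hν' : ∀ y, 0 ≤ ν' y ∧ ν' y ≤ B)
    (ha : ∀ x, ∑ I, a x I * a x I ≤ R) (hb : ∀ y, ∑ I, b y I * b y I ≤ R) :
    (X.E fun x => Y.E fun y => ν x * ν' y * (n x y * ∑ I, a x I * b y I)) ≤
      √(∑ I, (X.E fun x => ν x * a x I) ^ 2) * √(∑ I, (Y.E fun y => ν' y * b y I) ^ 2) +
        √√(δ * B ^ 3) * (B ^ 2 * R) := by
  have h1 : (X.E fun x => Y.E fun y => ν x * ν' y * (n x y * ∑ I, a x I * b y I)) =
      ∑ I, (X.E fun x => ν x * a x I) * (Y.E fun y => ν' y * b y I) +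
      ∑ I, X.E fun x => Y.E fun y => ν x * a x I * (ν' y * b y I) * (n x y - 1) := by
    simp only [PS.E_mul_E, ← PS.E_sum, ← PS.E_add, Finset.mul_sum, ← Finset.sum_add_distrib]
    exact X.E_congr fun x => Y.E_congr fun y => Finset.sum_congr rfl fun I _ => by ring
  rw [h1]
  refine add_le_add (Real.sum_mul_le_sqrt_mul_sqrt _ _ _) ?_
  refine (Finset.sum_le_sum fun I _ => (le_abs_self _).trans (hO X Y n B δ _ _ hB hn)).trans ?_
  simp only [mul_assoc, ← Finset.mul_sum]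
  refine mul_le_mul_of_nonneg_left ?_ (Real.sqrt_nonneg _)
  refine (Real.sum_mul_le_sqrt_mul_sqrt _ _ _).trans ?_
  have h0 : 0 ≤ B ^ 2 * R :=
    (Finset.sum_nonneg fun I _ => X.E_nonneg fun x => sq_nonneg _).trans (sum_E_sq hν ha)
  simp only [Real.sq_sqrt (X.E_nonneg fun x => sq_nonneg _),
    Real.sq_sqrt (Y.E_nonneg fun x => sq_nonneg _)]
  rw [← Real.mul_self_sqrt h0]
  exact mul_le_mul (Real.sqrt_le_sqrt (sum_E_sq hν ha)) (Real.sqrt_le_sqrt (sum_E_sq hν' hb))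
    (Real.sqrt_nonneg _) (Real.sqrt_nonneg _)

theorem pow_sum {ι : Type} [Fintype ι] (q : ℕ) (u v : ι → ℝ) :
    ∑ I : Fin q → ι, (∏ k, u (I k)) * ∏ k, v (I k) = (∑ i, u i * v i) ^ q := by
  simp only [Fintype.sum_pow, Finset.prod_mul_distrib]

theorem mom_le {S : KS X Y} (hν : ∀ ω x, 0 ≤ S.ν ω x) (hν' : ∀ ω y, 0 ≤ S.ν' ω y) {A A' : S.Ker}
    {c : ℝ} (h : ∀ ω x y, 0 ≤ A ω x y ∧ A ω x y ≤ c * A' ω x y) (q : ℕ) :
    S.mom A q ≤ c ^ (2 * q) * S.mom A' q := by
  simp only [KS.mom, ← PS.E_mul_left]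
  refine PS.E_mono _ fun ω => X.E_mono fun x => X.E_mono fun x' => ?_
  rw [mul_left_comm, pow_mul, ← mul_pow, ← PS.E_mul_left]
  refine mul_le_mul_of_nonneg_left (pow_le_pow_left₀ (Y.E_nonneg fun y =>
    mul_nonneg (mul_nonneg (hν' _ _) (h _ _ _).1) (h _ _ _).1) (Y.E_mono fun y => ?_) q)
    (mul_nonneg (hν _ _) (hν _ _))
  have h1 := mul_le_mul_of_nonneg_left (mul_le_mul (h ω x y).2 (h ω x' y).2 (h ω x' y).1
    ((h ω x y).1.trans (h ω x y).2)) (hν' ω y)
  linarith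

theorem mom_grid (n : X.α → Y.α → ℝ) (a : X.α → W.α → ℝ) (b : Y.α → W.α → ℝ)
    (f : X.α → Y.α → W.α → ℝ) (N q : ℕ) :
    (cols a b N).mom (fun w x y => n x y * ∏ l, f x y (w l)) q = grid n a b f N q := by
  refine PS.E_congr _ fun w => ?_
  simp only [PS.E_sq, PS.E_pow Y q, ← PS.E_mul_left]
  rw [PS.E_comm (Y.pow q)]
  refine X.E_congr fun x => ?_
  rw [PS.E_comm (Y.pow q)]
  refine X.E_congr fun x' => PS.E_congr _ fun y => ?_
  simp only [pw, Finset.prod_mul_distrib]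
  ring

theorem mom_lift {n γ : X.α → Y.α → ℝ} {a : X.α → W.α → ℝ} {b : Y.α → W.α → ℝ}
    {f g : X.α → Y.α → W.α → ℝ} {e : ℝ} (N q : ℕ) (hn : ∀ x y, 0 ≤ n x y) (ha : ∀ x w, 0 ≤ a x w)
    (hb : ∀ y w, 0 ≤ b y w) (hγ : ∀ x y, γ x y = 0 ∨ γ x y = 1) (hg : ∀ x y w, 0 ≤ g x y w)
    (hf : ∀ x y w, g x y w ≤ (1 + e) * f x y w) :
    (cols a b N).mom (lift n γ a b g N) q ≤ (1 + e) ^ (2 * q * N) * grid n a b f N q := by
  rw [← mom_grid, mul_comm (2 * q), pow_mul]
  refine mom_le (fun w x => pw_nonneg ha N x w) (fun w y => pw_nonneg hb N y w)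
    (fun w x y => ?_) q
  have h0 : 0 ≤ ∏ l, g x y (w l) := Finset.prod_nonneg fun l _ => hg _ _ _
  have h1 : ∏ l, g x y (w l) ≤ (1 + e) ^ N * ∏ l, f x y (w l) := by
    refine (Finset.prod_le_prod (fun l _ => hg _ _ _) fun l _ => hf x y (w l)).trans_eq ?_
    rw [Finset.prod_mul_distrib, Finset.prod_const, Finset.card_univ, Fintype.card_fin]
  have h2 := mul_le_mul_of_nonneg_left h1 (hn x y)
  have h3 := mul_nonneg (hn x y) h0
  rcases hγ x y with h | h <;> simp only [lift, h, zero_mul, mul_zero, one_mul] <;>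
    constructor <;> linarith

theorem weigh {u c H : ℝ} (h0 : 0 ≤ u) (h1 : u ≤ H) : u * c ≤ u + H * |c - 1| := by
  have h2 : u * (c - 1) ≤ H * |c - 1| :=
    (mul_le_mul_of_nonneg_left (le_abs_self _) h0).trans
      (mul_le_mul_of_nonneg_right h1 (abs_nonneg _))
  linarith

end Grm

open Grm

theorem grm_of (hO : OPN) : GRM := by
  intro X Y S ι _ n B R δ q α β hB hS hn hα hβ
  have h : ∀ u : ι → ℝ, ∑ i, u i * u i ≤ R →
      ∑ I : Fin q → ι, (∏ k, u (I k)) * ∏ k, u (I k) ≤ R ^ q := fun u hu => by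
    rw [pow_sum]
    exact pow_le_pow_left₀ (Finset.sum_nonneg fun i _ => mul_self_nonneg _) hu q
  simp only [← pow_sum, ← sum_sq_E]
  refine (PS.E_mono _ fun ω => fibre hO hB hn (hS.1 ω) (hS.2 ω) (fun x => h _ (hα ω x))
    fun y => h _ (hβ ω y)).trans ?_
  rw [PS.E_add, PS.E_const]
  exact add_le_add_left (cs_sqrt _ (fun ω => Finset.sum_nonneg fun I _ => sq_nonneg _)
    fun ω => Finset.sum_nonneg fun I _ => sq_nonneg _) _

theorem gmon : GMON := by
  intro X Y W n γ a b f g H δ e N q hn ha hb _ _ hg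
  refine ⟨?_, mom_lift N q hn.nn ha.nn hb.nn hg.zo hg.nn hg.le,
    mom_lift (γ := fun y x => γ x y) (g := fun y x w => g x y w) N q (fun y x => hn.nn x y) hb.nn
      ha.nn (fun y x => hg.zo x y) (fun y x w => hg.nn x y w) fun y x w => hg.le x y w⟩
  refine le_trans ?_ (show (X.E fun x => Y.E fun y => n x y) ≤ 1 + δ by
    linarith [(abs_le.1 hn.mean_le).2])
  rw [KS.av, PS.E_comm]
  refine X.E_mono fun x => ?_
  rw [PS.E_comm]
  refine Y.E_mono fun y => ?_
  rcases hg.zo x y with h | h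
  · simp only [lift, h, zero_mul, mul_zero, PS.E_const, hn.nn x y]
  · refine le_of_eq ?_
    rw [← mul_one (n x y), ← one_pow N, ← hg.one x y h, PS.E_pow, ← PS.E_mul_left]
    refine PS.E_congr _ fun w => ?_
    simp only [lift, h, pw, Finset.prod_mul_distrib]
    ring

theorem one_of (hC : CUTP) (hS : STAR) : ONE := by
  intro X Y W n γ a b g H δ p hH hn ha hb hγ hδ
  have hδ0 := hn.nonneg
  have hP : 1 ≤ H ^ p := one_le_pow₀ hH
  have ca := hC X W a H δ p hH ha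
  have cb := hC Y W b H δ p hH hb
  obtain ⟨-, s2, -, s4⟩ := hS X Y Y _ _ _ _ _ _ hP ca cb cb
  have s := (hS X X X Y n n n H δ hH hn hn hn).2.1
  have hl : ∀ w x y, 0 ≤ lift n γ a b (sel false g) p w x y ∧
      lift n γ a b (sel false g) p w x y ≤ 1 * n x y := fun w x y => by
    rcases hγ x y with h | h <;> simp [lift, sel, h, hn.nn x y]
  have num : ∀ k ≤ 8 * p + 8, H ^ k * δ ≤ H ^ (8 * p + 8) * δ := fun k hk =>
    mul_le_mul_of_nonneg_right (pow_le_pow_right₀ hH hk) hδ0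
  have hp : (0 : ℝ) ≤ p := Nat.cast_nonneg p
  have h0 : 0 ≤ H ^ (8 * p + 8) * δ := by positivity
  constructor
  · have h1 : (cols a b p).av (lift n γ a b (sel false g) p) ≤ X.E fun x => Y.E fun y =>
        n x y + H * |((W.pow p).E fun w => pw a p x w * pw b p y w) - 1| := by
      rw [KS.av, PS.E_comm]
      refine X.E_mono fun x => ?_
      rw [PS.E_comm]
      refine Y.E_mono fun y => le_trans ?_ (weigh (hn.nn x y) (hn.le x y))
      rw [mul_comm, ← PS.E_mul_right]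
      exact PS.E_mono _ fun w => mul_le_mul_of_nonneg_left ((hl w x y).2.trans_eq (one_mul _))
        (mul_nonneg (ca.nn _ _) (cb.nn _ _))
    simp only [PS.E_add, PS.E_mul_left] at h1
    have h2 := mul_le_mul_of_nonneg_left s2 (zero_le_one.trans hH)
    have h3 := mul_le_mul_of_nonneg_left (num (2 * p + 1) (by omega)) hp
    have h4 := num 0 (by omega)
    have h5 : H * (2 * H ^ p * (p * H ^ p * δ)) = 2 * (p * (H ^ (2 * p + 1) * δ)) := by ring
    have h6 := (abs_le.1 hn.mean_le).2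
    nlinarith
  · have h1 := mom_le (S := cols a b p) (fun w x => ca.nn x w) (fun w y => cb.nn y w)
      (A' := fun _ x y => n x y) hl 2
    have h2 : (cols a b p).mom (fun _ x y => n x y) 2 ≤ X.E fun x => X.E fun x' => Y.E fun y =>
        Y.E fun y' => n x y * n x' y * (n x y' * n x' y') + H * H * (H * H) *
          |((W.pow p).E fun w => pw a p x w * pw a p x' w * pw b p y w * pw b p y' w) - 1| := by
      rw [KS.mom, PS.E_comm]
      refine X.E_mono fun x => ?_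
      rw [PS.E_comm]
      refine X.E_mono fun x' => ?_
      simp only [PS.E_sq, ← PS.E_mul_left Y]
      rw [PS.E_comm]
      refine Y.E_mono fun y => ?_
      rw [PS.E_comm]
      have h3 : ∀ y, 0 ≤ n x y * n x' y ∧ n x y * n x' y ≤ H * H := fun y =>
        ⟨mul_nonneg (hn.nn _ _) (hn.nn _ _),
          mul_le_mul (hn.le _ _) (hn.le _ _) (hn.nn _ _) (zero_le_one.trans hH)⟩
      refine Y.E_mono fun y' => le_trans (le_of_eq ?_) (weigh (mul_nonneg (h3 y).1 (h3 y').1)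
        (mul_le_mul (h3 y).2 (h3 y').2 (h3 y').1 (mul_self_nonneg H)))
      rw [← PS.E_mul_left]
      exact PS.E_congr _ fun w => by ring
    have h3 : (X.E fun x => X.E fun x' => Y.E fun y => Y.E fun y' =>
        n x y * n x' y * (n x y' * n x' y')) ≤ X.E fun x => X.E fun x' =>
          1 + 2 * (H * H) * |(Y.E fun y => n x y * n x' y) - 1| := by
      refine X.E_mono fun x => X.E_mono fun x' => ?_
      rw [← PS.E_mul_E]
      have h4 : 0 ≤ Y.E fun y => n x y * n x' y :=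
        Y.E_nonneg fun y => mul_nonneg (hn.nn _ _) (hn.nn _ _)
      have h5 : (Y.E fun y => n x y * n x' y) ≤ H * H := Y.E_le fun y =>
        mul_le_mul (hn.le _ _) (hn.le _ _) (hn.nn _ _) (zero_le_one.trans hH)
      have h6 := weigh (c := Y.E fun y => n x y * n x' y) h4 h5
      have h7 := weigh (c := Y.E fun y => n x y * n x' y) zero_le_one
        (one_le_mul_of_one_le_of_one_le hH hH)
      linarith
    simp only [PS.E_add, PS.E_mul_left, PS.E_const] at h2 h3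
    have h4 := mul_le_mul_of_nonneg_left s4 (mul_nonneg (mul_self_nonneg H) (mul_self_nonneg H))
    have h5 := mul_le_mul_of_nonneg_left s (mul_nonneg zero_le_two (mul_self_nonneg H))
    have h6 := mul_le_mul_of_nonneg_left (num (4 * p + 4) (by omega)) hp
    have h7 := num 3 (by omega)
    have h8 : H * H * (H * H) * (4 * (H ^ p) ^ 3 * (p * H ^ p * δ)) =
        4 * (p * (H ^ (4 * p + 4) * δ)) := by ring
    have h9 : 2 * (H * H) * (2 * H * δ) = 4 * (H ^ 3 * δ) := by ring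
    rw [one_pow, one_mul] at h1
    nlinarith

end Vale.Agent.P057Z.St
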