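import Vale.Agent.P057Z.St.Api
import Vale.Agent.P057Z.Sk

/-!
# P057Z, block St: assembly of the lower tail theorem
-/

noncomputable section

namespace Vale.Agent.P057Z.St

namespace Hg

theorem mB_ge : (10 : ℝ) ^ 4 ≤ (mB : ℝ) := by
  unfold mB
  norm_num

theorem exp_le_three (p : ℕ) : Real.exp p ≤ 3 ^ p := by
  rw [← Real.exp_one_pow]
  exact pow_le_pow_left₀ (Real.exp_pos _).le (Real.exp_one_lt_d9.le.trans (by norm_num)) p

theorem cube_le {x y : ℝ} {p : ℕ} (h0 : 0 ≤ y) (hy : y ≤ Real.exp x) (hp : 2 * x ≤ p) :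
    y ^ 3 ≤ 5 ^ p := by
  have h1 : Real.exp (3 / 2) ≤ 5 := by
    have h2 : Real.exp (3 / 2) ^ 2 = Real.exp 1 ^ 3 := by
      rw [← Real.exp_nat_mul, ← Real.exp_nat_mul]
      norm_num
    have h3 : Real.exp 1 ^ 3 ≤ 2.72 ^ 3 :=
      pow_le_pow_left₀ (Real.exp_pos _).le (Real.exp_one_lt_d9.le.trans (by norm_num)) 3
    nlinarith [Real.exp_pos (3 / 2)]
  calc y ^ 3 ≤ Real.exp x ^ 3 := pow_le_pow_left₀ h0 hy 3
    _ = Real.exp (3 * x) := by rw [← Real.exp_nat_mul]; norm_num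
    _ ≤ Real.exp (p * (3 / 2)) := Real.exp_le_exp.mpr (by linarith)
    _ = Real.exp (3 / 2) ^ p := Real.exp_nat_mul _ _
    _ ≤ 5 ^ p := pow_le_pow_left₀ (Real.exp_pos _).le h1 p

theorem kap {t : ℝ} (h0 : 0 ≤ t) (h1 : t ≤ 2) {s₁ s₂ s₃ : Bool}
    (h : s₁ = true ∨ s₂ = true ∨ s₃ = true) :
    (if s₁ then t else 2) * (if s₂ then t else 2) * (if s₃ then t else 2) ≤ 4 * t := by
  have h2 : t * t ≤ 2 * t := by nlinarith
  have h3 : t * t * t ≤ 4 * t := by nlinarith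
  cases s₁ <;> cases s₂ <;> cases s₃ <;> simp at h ⊢ <;> nlinarith

theorem err {x y δ M : ℝ} (hM : 10 ^ 4 ≤ M) (hx : 8 * M ≤ x) (hy : x ≤ y)
    (hδ : δ ≤ Real.exp (-y ^ 6)) : 2000 * Real.exp x * Real.exp y ^ 6 * δ ≤ 1 / (10 * M) := by
  have hy1 : 10 ^ 4 ≤ y := by linarith
  have h1 : 20000 * M ≤ Real.exp (2 * y) := by
    have h2 : y ≤ Real.exp y := by linarith [Real.add_one_le_exp y]
    rw [two_mul, Real.exp_add]
    nlinarith
  have h2 : 9 * y ≤ y ^ 6 := by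
    have : (10 : ℝ) ^ 5 ≤ y ^ 5 := pow_le_pow_left₀ (by norm_num) (by linarith) 5
    nlinarith
  rw [le_div_iff₀ (by linarith)]
  calc 2000 * Real.exp x * Real.exp y ^ 6 * δ * (10 * M)
      = 20000 * M * (Real.exp x * Real.exp y ^ 6) * δ := by ring
    _ ≤ 20000 * M * (Real.exp x * Real.exp y ^ 6) * Real.exp (-y ^ 6) :=
        mul_le_mul_of_nonneg_left hδ (by positivity)
    _ ≤ Real.exp (2 * y) * (Real.exp y * Real.exp y ^ 6) * Real.exp (-y ^ 6) := by gcongr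
    _ = Real.exp (9 * y - y ^ 6) := by
        rw [← Real.exp_nat_mul, ← Real.exp_add, ← Real.exp_add, ← Real.exp_add]
        congr 1
        push_cast
        ring
    _ ≤ 1 := Real.exp_le_one_iff.mpr (by linarith)

theorem bd {X Y W : PS} {a : X.α → W.α → ℝ} {b : Y.α → W.α → ℝ} {M δ : ℝ} (ha : Cut a M δ)
    (hb : Cut b M δ) (p : ℕ) : (cols a b p).Bd (M ^ p) :=
  ⟨fun w x => ⟨pw_nonneg ha.nn _ x w, pw_le ha.nn ha.le _ x w⟩,
    fun w y => ⟨pw_nonneg hb.nn _ y w, pw_le hb.nn hb.le _ y w⟩⟩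

theorem fin {p : ℕ} {y : ℝ} (hp : 3 ≤ p) (h0 : 0 ≤ y) (hy : y ^ 3 ≤ 5 ^ p) :
    24 * ((⌈3 * y ^ 3⌉₊ : ℝ) + 2) * (4 * (2 / 10 ^ 4) ^ p) < 1 / 60 ^ p := by
  have h1 : (⌈3 * y ^ 3⌉₊ : ℝ) ≤ 3 * y ^ 3 + 1 := (Nat.ceil_lt_add_one (by positivity)).le
  have h2 : (1 : ℝ) ≤ 5 ^ p := one_le_pow₀ (by norm_num)
  have h3 : ((3 : ℝ) / 50) ^ p ≤ (3 / 50) ^ 3 := pow_le_pow_of_le_one (by norm_num) (by norm_num) hp
  rw [lt_div_iff₀ (by positivity)]
  calc 24 * ((⌈3 * y ^ 3⌉₊ : ℝ) + 2) * (4 * (2 / 10 ^ 4) ^ p) * 60 ^ p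
      ≤ 24 * (6 * 5 ^ p) * (4 * (2 / 10 ^ 4) ^ p) * 60 ^ p := by gcongr; linarith
    _ = 576 * (5 * (2 / 10 ^ 4) * 60) ^ p := by rw [mul_pow, mul_pow]; ring
    _ = 576 * (3 / 50) ^ p := by norm_num
    _ < 1 := by linarith

end Hg

open Hg in
theorem hg_of (hH : HOL) (hE : EDGE) (hT : TRI) : HG := by
  have hM := mB_ge
  have hM0 : (0 : ℝ) < mB := by linarith
  have hM1 : 1 ≤ mB := by exact_mod_cast (show (1 : ℝ) ≤ mB by linarith)
  have he : (1 : ℝ) / (10 * mB) ≤ 1 := by rw [div_le_one (by positivity)]; linarith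
  refine ⟨1 / (10 * mB) / 2000, 1 / (10 * mB), 8 * mB, by positivity, by positivity, he,
    fun x hx => ?_⟩
  have hx0 : 0 ≤ x := by linarith
  have hp1 : 2 * x ≤ (2 * ⌈x⌉₊ : ℕ) := by push_cast; linarith [Nat.le_ceil x]
  have hp2 : ((2 * ⌈x⌉₊ : ℕ) : ℝ) ≤ 2 * x + 2 := by
    push_cast; linarith [Nat.ceil_lt_add_one hx0]
  have hev : Even (2 * ⌈x⌉₊) := even_two_mul _
  generalize 2 * ⌈x⌉₊ = p at hp1 hp2 hev
  have hp3 : 3 ≤ p := by exact_mod_cast (show (3 : ℝ) ≤ p by linarith)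
  have hN : 1 ≤ p * mB := Nat.mul_pos (by omega) hM1
  have hq : ((2 * (p * mB) : ℕ) : ℝ) ≤ x ^ 2 := by
    push_cast
    have : (p : ℝ) * mB ≤ (2 * x + 2) * (x / 8) := mul_le_mul hp2 (by linarith) hM0.le (by linarith)
    nlinarith
  refine ⟨p * mB, 2 * (p * mB), hN, by omega, le_trans (by exact_mod_cast by omega) hq, hq, ?_,
    fun y δ D hxy hy hδ hD => ?_⟩
  · push_cast
    rw [show 1 / (10 * (mB : ℝ)) * (p * mB) = p / 10 by field_simp]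
    linarith
  by_contra hc
  simp only [not_or] at hc
  obtain ⟨g₁, g₂, g₃, γ₁, γ₂, γ₃, s₁, s₂, s₃, n₁, n₂, n₃, hs, hl⟩ := hH D (Real.exp x) (Real.exp y)
    (1 / (10 * mB)) _ δ p (Real.one_le_exp (by linarith)) (Real.one_le_exp hx0)
    ((Real.exp_le_exp.mpr (by linarith)).trans (exp_le_three p)) hev (by omega) (by positivity) he
    (by positivity) le_rfl (err hM hx hxy hδ) hD
  have w₁ := hE _ _ _ _ γ₁ _ _ _ g₁ x y δ _ p s₁ hx hxy hp1 hp2 hδ hD.F₁ n₁ hc.1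
  have w₂ := hE _ _ _ _ γ₂ _ _ _ g₂ x y δ _ p s₂ hx hxy hp1 hp2 hδ hD.F₂ n₂ hc.2.1
  have w₃ := hE _ _ _ _ γ₃ _ _ _ g₃ x y δ _ p s₃ hx hxy hp1 hp2 hδ hD.F₃ n₃ hc.2.2
  have h := hT _ _ _ _ _ _ _ _ _ _ _ (bd hD.F₁.ca hD.F₁.cb p) (bd hD.F₂.ca hD.F₂.cb p)
    (bd hD.F₃.ca hD.F₃.cb p) _ _ _ _ _ (Real.exp_pos _) w₁ w₂ w₃
  have hk := kap (t := (2 / 10 ^ 4) ^ p) (by positivity)
    ((pow_le_one₀ (by norm_num) (by norm_num)).trans one_le_two) hs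
  have hf := fin hp3 (by linarith : 0 ≤ y) (cube_le (by linarith) hy hp1)
  have h2 := hl.trans ((le_abs_self _).trans (h.trans (mul_le_mul_of_nonneg_left hk
    (by positivity))))
  linarith

namespace Hg

variable {Ω : Type} [Fintype Ω] (μ : Ω → ℝ) (h0 : ∀ x, 0 ≤ μ x) (h1 : ∑ x, μ x = 1)

/-- the probability space of a weight -/
@[reducible] def ps : PS := ⟨Ω, μ, h0, h1⟩

theorem sum3 (F : (Fin 3 → Ω) → ℝ) : ∑ y : Fin 3 → Ω, (∏ l, μ (y l)) * F y =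
    (ps μ h0 h1).E fun x => (ps μ h0 h1).E fun y => (ps μ h0 h1).E fun w => F ![x, y, w] := by
  refine ((ps μ h0 h1).E_pow_cons 2 F).trans (PS.E_congr _ fun x => ?_)
  refine ((ps μ h0 h1).E_pow_cons 1 _).trans (PS.E_congr _ fun y => ?_)
  refine ((ps μ h0 h1).E_pow_cons 0 _).trans (PS.E_congr _ fun w => ?_)
  rw [PS.E_pow_zero]
  rfl

theorem sum4 (F : (Fin 4 → Ω) → ℝ) : ∑ y : Fin 4 → Ω, (∏ l, μ (y l)) * F y =
    (ps μ h0 h1).E fun v => (ps μ h0 h1).E fun x => (ps μ h0 h1).E fun y => (ps μ h0 h1).E fun w =>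
      F ![v, x, y, w] := by
  refine ((ps μ h0 h1).E_pow_cons 3 F).trans (PS.E_congr _ fun v => ?_)
  exact sum3 μ h0 h1 fun y => F (Fin.cons v y)

theorem grid_eq (e : Ω → Ω → ℝ) (f : Ω → Ω → Ω → ℝ) (N q : ℕ) :
    grid (X := ps μ h0 h1) (Y := ps μ h0 h1) (W := ps μ h0 h1) e e e f N q =
      ∑ w : Fin N → Ω, ∑ y : Fin q → Ω,
        (∏ l, μ (w l)) * (∏ k, μ (y k)) * (∏ k, ∏ l, e (y k) (w l)) *
          (∑ x, μ x * (∏ l, e x (w l)) * (∏ k, e x (y k)) * ∏ k, ∏ l, f x (y k) (w l)) ^ 2 := by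
  simp only [grid, PS.E, Finset.mul_sum, mul_assoc]

end Hg

open Hg in
theorem bridge (h : HG) : P057Z.HG := by
  obtain ⟨e₀, e₁, C, he₀, he₁, he₁', h⟩ := h
  refine ⟨e₁, he₁, he₁', e₀, he₀, ⌈C⌉₊ + 6, ?_⟩
  intro X Y δ Ω _ _ μ e f hX hXY hY hδ0 hδ h0 h1 hsym he hcut hf hmean hsl hfew
  push_cast at hX
  have hC := Nat.le_ceil C
  have hC0 : (0 : ℝ) ≤ ⌈C⌉₊ := Nat.cast_nonneg _
  have hX1 : 1 ≤ X := by linarith
  have hY1 : 1 ≤ Y := by linarith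
  obtain ⟨N, q, hN, hq, hN2, hq2, h100, h⟩ := h X (by linarith)
  have hX2 : X ^ 2 ≤ X ^ (⌈C⌉₊ + 6) := pow_le_pow_right₀ hX1 (by omega)
  have hc : Cut (X := ps μ h0 h1) (Y := ps μ h0 h1) e (Real.exp Y) δ :=
    ⟨fun x y => (he x y).1, fun x y => (he x y).2, fun u v hu hv => by
      refine le_of_eq_of_le (congrArg _ ?_) (hcut u v hu hv)
      simp only [PS.E, Finset.mul_sum]
      exact Finset.sum_congr rfl fun x _ => Finset.sum_congr rfl fun y _ => by ring⟩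
  have hs : ∀ (i : Fin 4) (σ : Equiv.Perm (Fin 3)), Slice (X := ps μ h0 h1) (Y := ps μ h0 h1)
      (W := ps μ h0 h1) e e (fun x y w => f i (![x, y, w] ∘ σ)) e₀ δ := fun i σ x y => by
    simpa only [PS.E, mul_assoc] using hsl i σ x y
  have hF : ∀ i : Fin 4, Face (X := ps μ h0 h1) (Y := ps μ h0 h1) (W := ps μ h0 h1) e e e
      (fun x y w => f i ![x, y, w]) (Real.exp X) (Real.exp Y) e₀ δ := fun i =>
    ⟨hc, hc, hc, fun _ _ _ => (hf i _).1, fun _ _ _ => (hf i _).2, by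
      have h2 := hmean i
      simp only [mul_assoc (∏ l, μ _)] at h2
      rw [sum3 μ h0 h1] at h2
      exact h2, hs i 1⟩
  have e10 : ∀ x y w : Ω, ![x, y, w] ∘ Equiv.swap (0 : Fin 3) 1 = ![y, x, w] := fun x y w => by
    funext i
    fin_cases i <;> rfl
  have e21 : ∀ x y w : Ω, ![x, y, w] ∘ Equiv.swap (1 : Fin 3) 2 = ![x, w, y] := fun x y w => by
    funext i
    fin_cases i <;> rfl
  have e3 : ∀ x y w : Ω, ![x, y, w] ∘ (finRotate 3).symm = ![w, x, y] := fun x y w => by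
    funext i
    fin_cases i <;> rfl
  have hB : ∀ i : Fin 4, Big (X := ps μ h0 h1) (Y := ps μ h0 h1) (W := ps μ h0 h1) e e e
      (fun x y w => f i ![x, y, w]) N q ((1 + e₁) ^ (2 * q * N)) → ∃ σ : Equiv.Perm (Fin 3),
      (1 + e₁) ^ (2 * q * N) ≤ grid (X := ps μ h0 h1) (Y := ps μ h0 h1) (W := ps μ h0 h1) e e e
        (fun x y w => f i (![x, y, w] ∘ σ)) N q := fun i hb => by
    rcases hb with hb | hb
    · exact ⟨1, hb⟩
    · refine ⟨Equiv.swap 0 1, ?_⟩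
      simp only [e10]
      rwa [show (fun y x => e x y) = e from funext fun x => funext fun y => hsym y x] at hb
  have key := h Y δ ⟨ps μ h0 h1, ps μ h0 h1, ps μ h0 h1, ps μ h0 h1, e, e, e, e, e, e,
      fun x y w => f 0 ![x, y, w], fun x y w => f 1 ![x, y, w], fun x y w => f 2 ![x, y, w],
      fun x y w => f 3 ![x, y, w]⟩ hXY
    ((le_self_pow₀ hY1 (by omega)).trans hY)
    (hδ.trans (Real.exp_le_exp.mpr (neg_le_neg (pow_le_pow_right₀ hY1 (by omega)))))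
    ⟨hF 0, hF 1, hF 2, hF 3, by
      have h2 := hs 3 (Equiv.swap 1 2)
      simp only [e21] at h2
      rw [show (fun y x => e x y) = e from funext fun x => funext fun y => hsym y x]
      exact h2, by
      have h2 := hs 3 (finRotate 3).symm
      simp only [e3] at h2
      rw [show (fun y x => e x y) = e from funext fun x => funext fun y => hsym y x]
      exact h2, by
      simp only [mul_assoc (∏ l, μ _)] at hfew
      rw [sum4 μ h0 h1] at hfew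
      refine le_of_eq_of_le (PS.E_congr _ fun y₁ => PS.E_congr _ fun y₂ => PS.E_congr _ fun y₃ =>
        PS.E_congr _ fun y₄ => ?_) hfew
      have a0 : ![y₁, y₂, y₃, y₄] ∘ (0 : Fin 4).succAbove = ![y₂, y₃, y₄] := by
        funext i
        fin_cases i <;> rfl
      have a1 : ![y₁, y₂, y₃, y₄] ∘ (1 : Fin 4).succAbove = ![y₁, y₃, y₄] := by
        funext i
        fin_cases i <;> rfl
      have a2 : ![y₁, y₂, y₃, y₄] ∘ (2 : Fin 4).succAbove = ![y₁, y₂, y₄] := by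
        funext i
        fin_cases i <;> rfl
      have a3 : ![y₁, y₂, y₃, y₄] ∘ (3 : Fin 4).succAbove = ![y₁, y₂, y₃] := by
        funext i
        fin_cases i <;> rfl
      rw [Fin.prod_univ_four, a0, a1, a2, a3]
      show _ = e y₁ y₂ * e y₁ y₃ * e y₁ y₄ * e y₂ y₃ * e y₂ y₄ * e y₃ y₄ * _
      ring⟩
  rcases key with k | k | k
  · obtain ⟨σ, hσ⟩ := hB 0 k
    rw [grid_eq] at hσ
    exact ⟨0, σ, q, N, hq, hq2.trans hX2, hN, hN2.trans hX2, h100, hσ⟩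
  · obtain ⟨σ, hσ⟩ := hB 1 k
    rw [grid_eq] at hσ
    exact ⟨1, σ, q, N, hq, hq2.trans hX2, hN, hN2.trans hX2, h100, hσ⟩
  · obtain ⟨σ, hσ⟩ := hB 2 k
    rw [grid_eq] at hσ
    exact ⟨2, σ, q, N, hq, hq2.trans hX2, hN, hN2.trans hX2, h100, hσ⟩

end Vale.Agent.P057Z.St
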