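import Vale.Agent.P057Z.St.Api

/-!
# P057Z, block St: good edges and the Hoelder lift
-/

noncomputable section

namespace Vale.Agent.P057Z.St

namespace HolX

variable {X Y W : PS}

theorem two (hS : STAR) {a : X.α → W.α → ℝ} {b : Y.α → W.α → ℝ} {M δ : ℝ} (hM : 1 ≤ M)
    (ca : Cut a M δ) (cb : Cut b M δ) :
    (X.E fun x => Y.E fun y => |(W.E fun w => a x w * b y w) - 1|) ≤ 2 * M * δ :=
  (hS X Y X W a b a M δ hM ca cb ca).2.1

theorem lin {r s : X.α → Y.α → ℝ} {M e δ c : ℝ} (h0 : ∀ x y, 0 ≤ r x y) (hM : ∀ x y, r x y ≤ M)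
    (he : 0 ≤ e) (hδ : 0 ≤ δ) (h1 : 0 ≤ M) (hc : (X.E fun x => Y.E fun y => r x y) ≤ c)
    (hs : (X.E fun x => Y.E fun y => |s x y - 1|) ≤ 2 * M * δ) :
    (X.E fun x => Y.E fun y => r x y * ((1 + e) * s x y + δ)) ≤
      (1 + e) * (c + 2 * M ^ 2 * δ) + δ * c := by
  refine (X.E_mono fun x => Y.E_mono (G := fun y => (1 + e + δ) * r x y +
    (1 + e) * M * |s x y - 1|) fun y => ?_).trans ?_
  · have k1 : r x y * (s x y - 1) ≤ M * |s x y - 1| :=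
      (mul_le_mul_of_nonneg_left (le_abs_self _) (h0 x y)).trans
        (mul_le_mul_of_nonneg_right (hM x y) (abs_nonneg _))
    have k2 := mul_le_mul_of_nonneg_left k1 (add_nonneg zero_le_one he)
    linarith
  · simp only [PS.E_add, PS.E_mul_left]
    have k1 := mul_le_mul_of_nonneg_left hc (add_nonneg (add_nonneg zero_le_one he) hδ)
    have k2 := mul_le_mul_of_nonneg_left hs (mul_nonneg (add_nonneg zero_le_one he) h1)
    linarith

theorem edge (hS : STAR) {n θ : X.α → Y.α → ℝ} {a : X.α → W.α → ℝ} {b : Y.α → W.α → ℝ}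
    {f : X.α → Y.α → W.α → ℝ} {M e δ c : ℝ} (hM : 1 ≤ M) (cn : Cut n M δ) (ca : Cut a M δ)
    (cb : Cut b M δ) (sl : Slice a b f e δ) (he : 0 ≤ e) (h0 : ∀ x y, 0 ≤ θ x y)
    (h1 : ∀ x y, θ x y ≤ 1) (hc : (X.E fun x => Y.E fun y => n x y * θ x y) ≤ c) :
    (X.E fun x => Y.E fun y => W.E fun w => n x y * θ x y * (a x w * b y w * f x y w)) ≤
      (1 + e) * (c + 2 * M ^ 2 * δ) + δ * c := by
  have k : ∀ x y, 0 ≤ n x y * θ x y := fun x y => mul_nonneg (cn.nn x y) (h0 x y)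
  refine le_trans (X.E_mono fun x => Y.E_mono fun y => ?_) (lin k (fun x y =>
    (mul_le_of_le_one_right (cn.nn x y) (h1 x y)).trans (cn.le x y)) he cn.nonneg
    (zero_le_one.trans hM) hc (two hS hM ca cb))
  rw [PS.E_mul_left]
  exact mul_le_mul_of_nonneg_left (sl x y) (k x y)

theorem jen (P : PS) {r f c : P.α → ℝ} {p : ℕ} (hr : ∀ z, 0 ≤ r z) (h0 : ∀ z, 0 ≤ f z)
    (h3 : ∀ z, f z ≤ 3 ^ p) (hp : Even p) (h2 : 2 ≤ p) (hm : (P.E fun z => r z * f z) ≤ 2)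
    (hc : 1 / 10 ≤ |P.E fun z => r z * f z * c z|) : 1 / 60 ^ p ≤ P.E fun z => r z * c z ^ p := by
  have k0 : ∀ z, 0 ≤ r z * f z := fun z => mul_nonneg (hr z) (h0 z)
  have k1 := P.jen k0 c hp (by omega)
  have k2 : (P.E fun z => r z * f z * c z ^ p) ≤ 3 ^ p * P.E fun z => r z * c z ^ p := by
    rw [← PS.E_mul_left]
    refine P.E_mono fun z => ?_
    have := mul_le_mul_of_nonneg_right (h3 z) (mul_nonneg (hr z) (hp.pow_nonneg (c z)))
    linarith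
  have k3 : (P.E fun z => r z * f z) ^ (p - 1) ≤ 2 ^ p :=
    (pow_le_pow_left₀ (P.E_nonneg k0) hm _).trans (pow_le_pow_right₀ one_le_two (by omega))
  have k4 := pow_le_pow_left₀ (by norm_num) hc p
  rw [hp.pow_abs] at k4
  have k5 := (k4.trans k1).trans (mul_le_mul k3 k2
    (P.E_nonneg fun z => mul_nonneg (k0 z) (hp.pow_nonneg _)) (by positivity))
  rw [← mul_assoc, ← mul_pow, mul_comm, ← div_le_iff₀ (by positivity), ← div_pow] at k5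
  rw [← one_div_pow]
  norm_num at k5 ⊢
  exact k5

theorem E3 (X Y Z : PS) (F : (X.prod (Y.prod Z)).α → ℝ) :
    (X.prod (Y.prod Z)).E F = X.E fun x => Y.E fun y => Z.E fun z => F (x, y, z) := by
  rw [PS.E_prod]
  exact X.E_congr fun x => PS.E_prod _ _ _

theorem tr_eq (D : K4) (p : ℕ) (γ₁ : D.Y₂.α → D.Y₃.α → ℝ) (γ₂ : D.Y₁.α → D.Y₃.α → ℝ)
    (γ₃ : D.Y₁.α → D.Y₂.α → ℝ) (h₁ : D.Y₂.α → D.Y₃.α → D.Y₄.α → ℝ)
    (h₂ : D.Y₁.α → D.Y₃.α → D.Y₄.α → ℝ) (h₃ : D.Y₁.α → D.Y₂.α → D.Y₄.α → ℝ) :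
    tr (Ω := D.Y₄.pow p) (fun w y => pw D.n₁₄ p y w) (fun w y => pw D.n₂₄ p y w)
      (fun w y => pw D.n₃₄ p y w) (lift D.n₂₃ γ₁ D.n₂₄ D.n₃₄ h₁ p)
      (lift D.n₁₃ γ₂ D.n₁₄ D.n₃₄ h₂ p) (lift D.n₁₂ γ₃ D.n₁₄ D.n₂₄ h₃ p) =
    D.Y₁.E fun y₁ => D.Y₂.E fun y₂ => D.Y₃.E fun y₃ =>
      D.n₁₂ y₁ y₂ * D.n₁₃ y₁ y₃ * D.n₂₃ y₂ y₃ * (γ₁ y₂ y₃ * γ₂ y₁ y₃ * γ₃ y₁ y₂) *
        (D.Y₄.E fun w => D.n₁₄ y₁ w * D.n₂₄ y₂ w * D.n₃₄ y₃ w *
          (h₁ y₂ y₃ w * h₂ y₁ y₃ w * h₃ y₁ y₂ w)) ^ p := by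
  unfold tr
  rw [PS.E_comm]
  refine PS.E_congr _ fun y₁ => ?_
  rw [PS.E_comm]
  refine PS.E_congr _ fun y₂ => ?_
  rw [PS.E_comm]
  refine PS.E_congr _ fun y₃ => ?_
  rw [PS.E_pow, ← PS.E_mul_left]
  refine PS.E_congr _ fun w => ?_
  simp only [pw, lift, Finset.prod_mul_distrib]
  ring

theorem zo {γ : ℝ} (h : γ = 0 ∨ γ = 1) : 0 ≤ γ ∧ γ ≤ 1 := by
  rcases h with rfl | rfl <;> norm_num

theorem three {a b c : ℝ} (ha : a = 0 ∨ a = 1) (hb : b = 0 ∨ b = 1) (hc : c = 0 ∨ c = 1) :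
    0 ≤ a * b * c ∧ a * b * c ≤ 1 ∧ 1 - (1 - a) - (1 - b) - (1 - c) ≤ a * b * c := by
  rcases ha with rfl | rfl <;> rcases hb with rfl | rfl <;> rcases hc with rfl | rfl <;> norm_num

theorem mass (hS : STAR) {Z : PS} {n : X.α → Y.α → ℝ} {a : X.α → Z.α → ℝ} {b : Y.α → Z.α → ℝ}
    {f : X.α → Y.α → Z.α → ℝ} {γ₁ : Y.α → Z.α → ℝ} {γ₂ : X.α → Z.α → ℝ} {γ₃ : X.α → Y.α → ℝ}
    {K M e δ : ℝ} (hM : 1 ≤ M) (h0 : 0 ≤ e) (h1 : e ≤ 1 / 2000) (h2 : M ^ 2 * δ ≤ 1 / 2000)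
    (F : Face n a b f K M e δ) (s₂ : Slice n (fun z y => b y z) (fun x z y => f x y z) e δ)
    (s₁ : Slice (fun y x => n x y) (fun z x => a x z) (fun y z x => f x y z) e δ)
    (z₁ : ∀ y z, γ₁ y z = 0 ∨ γ₁ y z = 1) (z₂ : ∀ y z, γ₂ y z = 0 ∨ γ₂ y z = 1)
    (z₃ : ∀ y z, γ₃ y z = 0 ∨ γ₃ y z = 1)
    (B₁ : (Y.E fun x => Z.E fun y => b x y * (1 - γ₁ x y)) ≤ 1 / 40)
    (B₂ : (X.E fun x => Z.E fun y => a x y * (1 - γ₂ x y)) ≤ 1 / 40)
    (B₃ : (X.E fun x => Y.E fun y => n x y * (1 - γ₃ x y)) ≤ 1 / 40) :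
    (X.E fun x => Y.E fun y => Z.E fun z => n x y * a x z * b y z * f x y z) ≤ 2 ∧
    9 / 10 ≤ X.E fun x => Y.E fun y => Z.E fun z =>
      n x y * a x z * b y z * (γ₁ y z * γ₂ x z * γ₃ x y) * f x y z := by
  have d0 := F.cn.nonneg
  have m1 : δ ≤ M ^ 2 * δ := le_mul_of_one_le_left d0 (one_le_pow₀ hM)
  have nb : ∀ c, 0 ≤ c → c ≤ 3 / 2 → (1 + e) * (c + 2 * M ^ 2 * δ) + δ * c ≤ c + 1 / 200 :=
    fun c c0 c1 => by
      have k1 : e * (c + 2 * M ^ 2 * δ) ≤ 1 / 2000 * 2 :=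
        mul_le_mul h1 (by linarith) (by positivity) (by norm_num)
      have k2 : δ * c ≤ 1 / 2000 * 2 := mul_le_mul (by linarith) (by linarith) c0 (by norm_num)
      linarith
  have E₁ := (edge hS hM F.cb F.cn.tp F.ca.tp s₁ h0 (fun x y => sub_nonneg.2 (zo (z₁ x y)).2)
    (fun x y => sub_le_self _ (zo (z₁ x y)).1) B₁).trans (nb _ (by norm_num) (by norm_num))
  have E₂ := (edge hS hM F.ca F.cn F.cb.tp s₂ h0 (fun x y => sub_nonneg.2 (zo (z₂ x y)).2)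
    (fun x y => sub_le_self _ (zo (z₂ x y)).1) B₂).trans (nb _ (by norm_num) (by norm_num))
  have E₃ := (edge hS hM F.cn F.ca F.cb F.slice h0 (fun x y => sub_nonneg.2 (zo (z₃ x y)).2)
    (fun x y => sub_le_self _ (zo (z₃ x y)).1) B₃).trans (nb _ (by norm_num) (by norm_num))
  have E₄ := (edge hS (θ := fun _ _ => 1) (c := 1 + δ) hM F.cn F.ca F.cb F.slice h0
    (fun _ _ => zero_le_one) (fun _ _ => le_rfl) (by
      simp only [mul_one]
      linarith [(abs_le.1 F.cn.mean_le).2])).trans (nb _ (by linarith) (by linarith))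
  have k0 : 1 - e ≤ X.E fun x => Y.E fun y => Z.E fun z => n x y * a x z * b y z * f x y z := F.mean
  simp only [Z.E_comm X, Y.E_comm X] at E₁
  simp only [Z.E_comm Y] at E₂
  refine ⟨le_trans (le_of_eq (X.E_congr fun x => Y.E_congr fun y => Z.E_congr fun z => by ring))
    (E₄.trans (by linarith)), le_trans ?_ (X.E_mono fun x => Y.E_mono fun y => Z.E_mono
      (F := fun z => n x y * a x z * b y z * f x y z -
        b y z * (1 - γ₁ y z) * (n x y * a x z * f x y z) -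
        a x z * (1 - γ₂ x z) * (n x y * b y z * f x y z) -
        n x y * (1 - γ₃ x y) * (a x z * b y z * f x y z)) fun z => ?_)⟩
  · simp only [PS.E_sub]
    linarith
  · have := mul_le_mul_of_nonneg_left (three (z₁ y z) (z₂ x z) (z₃ x y)).2.2 (mul_nonneg
      (mul_nonneg (mul_nonneg (F.cn.nn x y) (F.ca.nn x z)) (F.cb.nn y z)) (F.nn x y z))
    linarith

theorem core (P W : PS) {N G f : P.α → ℝ} {ν g₁ g₂ g₃ f₁ f₂ f₃ : P.α → W.α → ℝ} {K B : ℝ} {p : ℕ}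
    (hK3 : K ≤ 3 ^ p) (hp : Even p) (h2 : 2 ≤ p) (N0 : ∀ z, 0 ≤ N z) (N1 : ∀ z, N z ≤ B)
    (G0 : ∀ z, 0 ≤ G z) (G1 : ∀ z, G z ≤ 1) (f0 : ∀ z, 0 ≤ f z) (f1 : ∀ z, f z ≤ K)
    (ν0 : ∀ z w, 0 ≤ ν z w) (a₁ : ∀ z w, 0 ≤ g₁ z w ∧ g₁ z w ≤ 2 * f₁ z w)
    (a₂ : ∀ z w, 0 ≤ g₂ z w ∧ g₂ z w ≤ 2 * f₂ z w) (a₃ : ∀ z w, 0 ≤ g₃ z w ∧ g₃ z w ≤ 2 * f₃ z w)
    (U : (P.E fun z => N z * f z) ≤ 2) (L : 9 / 10 ≤ P.E fun z => N z * G z * f z)
    (T : B * K * (P.E fun z => |W.E (ν z) - 1|) ≤ 1 / 10)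
    (C : (P.E fun z => W.E fun w => N z * f z * (ν z w * (f₁ z w * f₂ z w * f₃ z w))) ≤ 1 / 100) :
    ∃ s₁ s₂ s₃, (s₁ = true ∨ s₂ = true ∨ s₃ = true) ∧ 1 / 60 ^ p ≤ P.E fun z => N z * G z *
      (W.E fun w => ν z w * ((if s₁ then g₁ z w - 1 else 1) * (if s₂ then g₂ z w - 1 else 1) *
        (if s₃ then g₃ z w - 1 else 1))) ^ p := by
  obtain ⟨c, hc⟩ : ∃ c : Bool → Bool → Bool → P.α → ℝ, ∀ s₁ s₂ s₃ z, c s₁ s₂ s₃ z =
    W.E fun w => ν z w * ((if s₁ then g₁ z w - 1 else 1) * (if s₂ then g₂ z w - 1 else 1) *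
      (if s₃ then g₃ z w - 1 else 1)) := ⟨_, fun _ _ _ _ => rfl⟩
  simp only [← hc]
  have r0 : ∀ z, 0 ≤ N z * G z * f z := fun z => mul_nonneg (mul_nonneg (N0 z) (G0 z)) (f0 z)
  have r1 : ∀ z, N z * G z * f z ≤ N z * f z := fun z =>
    mul_le_mul_of_nonneg_right (mul_le_of_le_one_right (N0 z) (G1 z)) (f0 z)
  have S : (P.E fun z => N z * G z * f z * (c true true true z + c true true false z +
      c true false true z + c true false false z + c false true true z + c false true false z +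
      c false false true z + c false false false z)) ≤ 8 * (1 / 100) := by
    refine le_trans ?_ (mul_le_mul_of_nonneg_left C (by norm_num))
    rw [← PS.E_mul_left]
    refine P.E_mono fun z => ?_
    simp only [hc, ← PS.E_add, ← PS.E_mul_left]
    refine PS.E_mono _ fun w => ?_
    obtain ⟨b₁, c₁⟩ := a₁ z w
    obtain ⟨b₂, c₂⟩ := a₂ z w
    obtain ⟨b₃, c₃⟩ := a₃ z w
    have k3 := mul_le_mul (mul_le_mul c₁ c₂ b₂ (b₁.trans c₁)) c₃ b₃
      (mul_nonneg (b₁.trans c₁) (b₂.trans c₂))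
    have k4 := mul_le_mul (r1 z) (mul_le_mul_of_nonneg_left k3 (ν0 z w)) (mul_nonneg (ν0 z w)
      (mul_nonneg (mul_nonneg b₁ b₂) b₃)) (mul_nonneg (N0 z) (f0 z))
    simp only [if_true, Bool.false_eq_true, if_false]
    linarith
  have Z : (P.E fun z => N z * G z * f z) - 1 / 10 ≤
      P.E fun z => N z * G z * f z * c false false false z := by
    refine le_trans ?_ (P.E_mono (F := fun z => N z * G z * f z - B * K * |W.E (ν z) - 1|)
      fun z => ?_)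
    · simp only [PS.E_sub, PS.E_mul_left]
      linarith
    · have l1 : c false false false z = W.E (ν z) := by simp [hc]
      have l2 := mul_le_mul_of_nonneg_left (neg_abs_le (W.E (ν z) - 1)) (r0 z)
      have l3 := mul_le_mul_of_nonneg_right ((r1 z).trans (mul_le_mul (N1 z) (f1 z) (f0 z)
        ((N0 z).trans (N1 z)))) (abs_nonneg (W.E (ν z) - 1))
      rw [l1]
      linarith
  by_contra! k
  have A : ∀ s₁ s₂ s₃, s₁ = true ∨ s₂ = true ∨ s₃ = true →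
      -(1 / 10) < P.E fun z => N z * G z * f z * c s₁ s₂ s₃ z := fun s₁ s₂ s₃ hs =>
    (abs_lt.1 (lt_of_not_ge fun l => (k s₁ s₂ s₃ hs).not_ge (jen P
      (fun z => mul_nonneg (N0 z) (G0 z)) f0 (fun z => (f1 z).trans hK3) hp h2
      ((P.E_mono r1).trans U) l))).1
  simp only [mul_add, PS.E_add] at S
  linarith [A true true true (by simp), A true true false (by simp), A true false true (by simp),
    A true false false (by simp), A false true true (by simp), A false true false (by simp),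
    A false false true (by simp)]

end HolX

open HolX

theorem good_of (hS : STAR) : GOOD := by
  classical
  intro X Y W n a b f K M e e₀ δ hM he he1 h0 h1 hδ F
  set t : X.α → Y.α → ℝ := fun x y => W.E fun w => a x w * b y w * f x y w with ht
  set s : X.α → Y.α → ℝ := fun x y => W.E fun w => a x w * b y w with hs
  have d0 := F.cn.nonneg
  have t0 : ∀ x y, 0 ≤ t x y := fun x y => W.E_nonneg fun w =>
    mul_nonneg (mul_nonneg (F.ca.nn x w) (F.cb.nn y w)) (F.nn x y w)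
  have s0 : ∀ x y, 0 ≤ s x y := fun x y => W.E_nonneg fun w =>
    mul_nonneg (F.ca.nn x w) (F.cb.nn y w)
  refine ⟨fun x y w => if 1 - e / 2 ≤ t x y then f x y w / t x y else 0,
    fun x y => if 1 - e / 2 ≤ t x y then 1 else 0, ⟨fun x y => ?_, fun x y w => ?_, fun x y w => ?_,
    fun x y k => ?_⟩, ?_⟩
  · split_ifs <;> simp
  · split_ifs
    · exact div_nonneg (F.nn x y w) (t0 x y)
    · exact le_rfl
  · have k0 := F.nn x y w
    split_ifs with k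
    · rw [div_le_iff₀ (by linarith)]
      have k1 : 1 ≤ (1 + e) * t x y := by nlinarith
      nlinarith
    · positivity
  · have k1 : 1 - e / 2 ≤ t x y := by
      by_contra k1
      simp [k1] at k
    simp only [if_pos k1, ← mul_div_assoc, PS.E_div]
    exact div_self (by linarith : 0 < t x y).ne'
  · have k1 := (abs_le.1 F.cn.mean_le).2
    have k2 := two hS hM F.ca F.cb
    have k3 := lin (s := s) (c := 1 + δ) F.cn.nn F.cn.le h0 d0 (by linarith) (by linarith) k2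
    have k4 : 1 - e₀ ≤ X.E fun x => Y.E fun y => n x y * t x y := by
      refine F.mean.trans_eq (X.E_congr fun x => Y.E_congr fun y => ?_)
      rw [← PS.E_mul_left]
      exact W.E_congr fun w => by ring
    have k5 : (X.E fun x => Y.E fun y => e / 2 * (n x y * (1 - if 1 - e / 2 ≤ t x y then 1 else 0))) ≤
        X.E fun x => Y.E fun y => n x y * ((1 + e₀) * s x y + δ) - n x y * t x y +
          M * |s x y - 1| := by
      refine X.E_mono fun x => Y.E_mono fun y => ?_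
      have l1 : t x y ≤ (1 + e₀) * s x y + δ := F.slice x y
      have l2 := mul_le_mul_of_nonneg_right (F.cn.le x y) (abs_nonneg (s x y - 1))
      have l3 : e / 2 * (1 - if 1 - e / 2 ≤ t x y then 1 else 0) ≤
          (1 + e₀) * s x y + δ - t x y + |s x y - 1| := by
        have := neg_abs_le (s x y - 1)
        have := mul_nonneg h0 (s0 x y)
        have := abs_nonneg (s x y - 1)
        split_ifs with k <;> linarith
      have l4 := mul_le_mul_of_nonneg_left l3 (F.cn.nn x y)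
      linarith
    simp only [PS.E_add, PS.E_sub, PS.E_mul_left] at k5
    have k6 := mul_le_mul_of_nonneg_left k2 (zero_le_one.trans hM)
    have k7 : δ ≤ M ^ 2 * δ := le_mul_of_one_le_left d0 (one_le_pow₀ hM)
    have k8 : e₀ * (δ + 2 * M ^ 2 * δ) ≤ 1 * (δ + 2 * M ^ 2 * δ) :=
      mul_le_mul_of_nonneg_right (by linarith) (by positivity)
    have k9 : δ * δ ≤ 1 * δ := mul_le_mul_of_nonneg_right (by linarith) d0
    refine le_of_mul_le_mul_left ?_ (half_pos he)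
    linarith

theorem hol_of (hS : STAR) (hG : GOOD) : HOL := by
  intro D K M e e₀ δ p hM hK hK3 hp h2 he he1 h0 h1 hδ ok
  have d0 := ok.F₁.cn.nonneg
  have m0 := zero_le_one.trans hM
  have m5 : M ^ 3 * K * (3 * M ^ 2 * δ) ≤ 1 / 10 := by
    have := mul_le_mul_of_nonneg_left (mul_le_mul_of_nonneg_right
      (pow_le_pow_right₀ hM (by norm_num : 5 ≤ 6)) d0) (zero_le_one.trans hK)
    linarith
  have m2 : 2000 * M ^ 2 * δ ≤ e := by
    have k1 := mul_le_mul_of_nonneg_right (pow_le_pow_right₀ hM (by norm_num : 2 ≤ 6)) d0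
    have k2 := le_mul_of_one_le_left (by positivity : 0 ≤ M ^ 6 * δ) hK
    linarith
  obtain ⟨g₁, γ₁, N₁, B₁⟩ := hG _ _ _ _ _ _ _ K M e e₀ δ hM he he1 h0 h1 m2 ok.F₁
  obtain ⟨g₂, γ₂, N₂, B₂⟩ := hG _ _ _ _ _ _ _ K M e e₀ δ hM he he1 h0 h1 m2 ok.F₂
  obtain ⟨g₃, γ₃, N₃, B₃⟩ := hG _ _ _ _ _ _ _ K M e e₀ δ hM he he1 h0 h1 m2 ok.F₃
  have c12 := ok.F₄.cn
  have c13 := ok.F₄.ca
  have c23 := ok.F₄.cb
  obtain ⟨U, L⟩ := mass hS hM h0 (by linarith) (by linarith) ok.F₄ ok.s₂ ok.s₁ N₁.zo N₂.zo N₃.zo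
    B₁ B₂ B₃
  have k2 : ∀ {u v : ℝ}, 0 ≤ v → u ≤ (1 + e) * v → u ≤ 2 * v := fun k1 k2 =>
    k2.trans (mul_le_mul_of_nonneg_right (by linarith) k1)
  have G0 := fun z : (D.Y₁.prod (D.Y₂.prod D.Y₃)).α =>
    three (N₁.zo z.2.1 z.2.2) (N₂.zo z.1 z.2.2) (N₃.zo z.1 z.2.1)
  obtain ⟨s₁, s₂, s₃, hs, k⟩ := core (D.Y₁.prod (D.Y₂.prod D.Y₃)) D.Y₄ (B := M ^ 3)
    (N := fun z => D.n₁₂ z.1 z.2.1 * D.n₁₃ z.1 z.2.2 * D.n₂₃ z.2.1 z.2.2)
    (f := fun z => D.f₄ z.1 z.2.1 z.2.2)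
    (ν := fun z w => D.n₁₄ z.1 w * D.n₂₄ z.2.1 w * D.n₃₄ z.2.2 w)
    (g₁ := fun z => g₁ z.2.1 z.2.2) (g₂ := fun z => g₂ z.1 z.2.2) (g₃ := fun z => g₃ z.1 z.2.1)
    (f₁ := fun z => D.f₁ z.2.1 z.2.2) (f₂ := fun z => D.f₂ z.1 z.2.2)
    (f₃ := fun z => D.f₃ z.1 z.2.1) hK3 hp h2
    (fun z => mul_nonneg (mul_nonneg (c12.nn _ _) (c13.nn _ _)) (c23.nn _ _))
    (fun z => (mul_le_mul (mul_le_mul (c12.le _ _) (c13.le _ _) (c13.nn _ _) m0) (c23.le _ _)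
      (c23.nn _ _) (by positivity)).trans_eq (by ring)) (fun z => (G0 z).1) (fun z => (G0 z).2.1)
    (fun z => ok.F₄.nn _ _ _) (fun z => ok.F₄.le _ _ _)
    (fun z w => mul_nonneg (mul_nonneg (ok.F₂.ca.nn _ _) (ok.F₁.ca.nn _ _)) (ok.F₁.cb.nn _ _))
    (fun z w => ⟨N₁.nn _ _ _, k2 (ok.F₁.nn _ _ _) (N₁.le _ _ _)⟩)
    (fun z w => ⟨N₂.nn _ _ _, k2 (ok.F₂.nn _ _ _) (N₂.le _ _ _)⟩)
    (fun z w => ⟨N₃.nn _ _ _, k2 (ok.F₃.nn _ _ _) (N₃.le _ _ _)⟩)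
    ((E3 _ _ _ _).trans_le U) (L.trans_eq (by rw [E3])) (le_trans (mul_le_mul_of_nonneg_left
      ((E3 _ _ _ _).trans_le (hS _ _ _ _ _ _ _ M δ hM ok.F₂.ca ok.F₁.ca ok.F₁.cb).2.2.1)
      (by positivity)) m5) ((E3 _ _ _ _).trans_le (ok.few.trans (by linarith)))
  refine ⟨g₁, g₂, g₃, γ₁, γ₂, γ₃, s₁, s₂, s₃, N₁, N₂, N₃, hs, ?_⟩
  rw [tr_eq]
  exact k.trans_eq (E3 _ _ _ _)

end Vale.Agent.P057Z.St
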