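import Vale.Agent.P057Z.St.Api

/-!
# P057Z, block St: iteration of the gain over the blocks
-/

noncomputable section

namespace Vale.Agent.P057Z.St

namespace Iter

variable {X Y W : PS}

theorem pw_append (a : X.α → W.α → ℝ) {n m : ℕ} (x : X.α) (u : Fin n → W.α) (v : Fin m → W.α) :
    pw a (n + m) x (Fin.append u v) = pw a n x u * pw a m x v := by
  simp only [pw, Fin.prod_univ_add, Fin.append_left, Fin.append_right]

/-- two blocks of columns -/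
def iso1 (S : KS X Y) (a : X.α → W.α → ℝ) (b : Y.α → W.α → ℝ) (n m : ℕ) :
    KS.Iso ((S.ext (W.pow n) (pw a n) (pw b n)).ext (W.pow m) (pw a m) (pw b m))
      (S.ext (W.pow (n + m)) (pw a _) (pw b _)) where
  e := (Equiv.prodAssoc _ _ _).trans ((Equiv.refl _).prodCongr (Fin.appendEquiv n m))
  μ := fun ⟨⟨ω, u⟩, v⟩ => by
    show S.Ω.μ ω * ∏ i, W.μ (Fin.append u v i) = S.Ω.μ ω * (∏ i, W.μ (u i)) * ∏ i, W.μ (v i)
    simp only [Fin.prod_univ_add, Fin.append_left, Fin.append_right, mul_assoc]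
  ν := fun ⟨⟨ω, u⟩, v⟩ x => by
    show S.ν ω x * pw a (n + m) x (Fin.append u v) = S.ν ω x * pw a n x u * pw a m x v
    rw [pw_append, mul_assoc]
  ν' := fun ⟨⟨ω, u⟩, v⟩ x => by
    show S.ν' ω x * pw b (n + m) x (Fin.append u v) = S.ν' ω x * pw b n x u * pw b m x v
    rw [pw_append, mul_assoc]

/-- exchange of two parameters -/
def iso2 (S : KS X Y) {W' : PS} (a : X.α → W.α → ℝ) (b : Y.α → W.α → ℝ) (a' : X.α → W'.α → ℝ)
    (b' : Y.α → W'.α → ℝ) : KS.Iso ((S.ext W a b).ext W' a' b') ((S.ext W' a' b').ext W a b) where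
  e := ⟨fun z => ((z.1.1, z.2), z.1.2), fun z => ((z.1.1, z.2), z.1.2), fun _ => rfl, fun _ => rfl⟩
  μ := fun ⟨⟨_, _⟩, _⟩ => mul_right_comm _ _ _
  ν := fun ⟨⟨_, _⟩, _⟩ _ => mul_right_comm _ _ _
  ν' := fun ⟨⟨_, _⟩, _⟩ _ => mul_right_comm _ _ _

/-- the first column -/
def iso3 (S : KS X Y) (a : X.α → W.α → ℝ) (b : Y.α → W.α → ℝ) (p : ℕ) :
    KS.Iso (S.ext (W.pow (p + 1)) (pw a _) (pw b _))
      ((S.ext W a b).ext (W.pow p) (pw a p) (pw b p)) where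
  e := ⟨fun z => ((z.1, z.2 0), Fin.tail z.2), fun z => (z.1.1, Fin.cons z.1.2 z.2),
    fun z => by simp, fun z => by simp⟩
  μ := fun ⟨ω, w⟩ => by
    show S.Ω.μ ω * W.μ (w 0) * ∏ i, W.μ (Fin.tail w i) = S.Ω.μ ω * ∏ i, W.μ (w i)
    rw [Fin.prod_univ_succ, mul_assoc]
    rfl
  ν := fun ⟨ω, w⟩ x => by
    show S.ν ω x * a x (w 0) * ∏ i, a x (Fin.tail w i) = S.ν ω x * ∏ i, a x (w i)
    rw [Fin.prod_univ_succ, mul_assoc]
    rfl
  ν' := fun ⟨ω, w⟩ x => by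
    show S.ν' ω x * b x (w 0) * ∏ i, b x (Fin.tail w i) = S.ν' ω x * ∏ i, b x (w i)
    rw [Fin.prod_univ_succ, mul_assoc]
    rfl

/-- the one point space -/
@[reducible] def pt : PS := ⟨Unit, fun _ => 1, fun _ => zero_le_one, by simp⟩

/-- the trivial setting -/
@[reducible] def triv (X Y : PS) : KS X Y := ⟨pt, fun _ _ => 1, fun _ _ => 1⟩

def iso4 (a : X.α → W.α → ℝ) (b : Y.α → W.α → ℝ) (N : ℕ) :
    KS.Iso ((triv X Y).ext (W.pow N) (pw a N) (pw b N)) (cols a b N) where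
  e := Equiv.punitProd _
  μ := fun _ => (one_mul _).symm
  ν := fun _ _ => (one_mul _).symm
  ν' := fun _ _ => (one_mul _).symm

def iso5 (a : X.α → W.α → ℝ) (b : Y.α → W.α → ℝ) (N : ℕ) :
    KS.Iso (cols a b N) ((triv X Y).ext (W.pow N) (pw a N) (pw b N)) where
  e := (Equiv.punitProd _).symm
  μ := fun _ => one_mul _
  ν := fun _ _ => one_mul _
  ν' := fun _ _ => one_mul _

theorem prod_abs_le {g : X.α → Y.α → W.α → ℝ} {K : ℝ} (hg : ∀ x y w, 0 ≤ g x y w ∧ g x y w ≤ K)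
    (x : X.α) (y : Y.α) {n : ℕ} (w : Fin n → W.α) : |∏ l, g x y (w l)| ≤ K ^ n := by
  rw [abs_of_nonneg (Finset.prod_nonneg fun _ _ => (hg _ _ _).1)]
  refine (Finset.prod_le_prod (fun _ _ => (hg _ _ _).1) fun _ _ => (hg _ _ _).2).trans_eq ?_
  rw [Finset.prod_const, Finset.card_univ, Fintype.card_fin]

theorem gen (hB : BLOCK) (a : X.α → W.α → ℝ) (b : Y.α → W.α → ℝ) (g : X.α → Y.α → W.α → ℝ)
    {H K B₀ B δ Γ : ℝ} {m : ℕ} (hH : 1 ≤ H) (ha : Cut a H δ) (hb : Cut b H δ)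
    (hg : ∀ x y w, 0 ≤ g x y w ∧ g x y w ≤ K) (hK : 1 ≤ K) (h0 : H ^ m ≤ B₀) (h1 : B₀ ≤ B)
    (hm : (m : ℝ) ≤ B) (hΓ : 1 ≤ Γ) (hΓm : 1875 * Γ ^ 6 ≤ m) (p : ℕ) :
    ∀ (N : ℕ) (S : KS X Y) (Φ : S.Ker) (k : ℕ) (L κ R τ₀ τ₁ : ℝ), N = p * m → S.Bd (H ^ k) →
      H ^ (k + N) ≤ B → 0 ≤ L → (∀ ω x y, |Φ ω x y| ≤ L) → L * K ^ N ≤ R →
      2 * (R * (2 * B₀ ^ 2) ^ p) ≤ B → 0 < κ → 0 < τ₀ → τ₀ ≤ τ₁ →
      20 * B ^ 62 * δ ≤ (κ / Γ ^ p) ^ 2 * (τ₀ / (5 * Γ) ^ p) ^ 4 →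
      20 * B ^ 62 * δ ≤ (κ / τ₁) ^ 4 →
      (∀ ω x y, Φ ω x y ≠ 0 → (W.E fun w => a x w * b y w * g x y w) = 1) →
      (S.ext (W.pow N) (pw a N) (pw b N)).Wd (fun ω x y => Φ ω.1 x y * ∏ l, g x y (ω.2 l))
        κ R τ₀ τ₁ →
      (S.ext (W.pow p) (pw a p) (pw b p)).Wd (fun ω x y => Φ ω.1 x y * ∏ l, (g x y (ω.2 l) - 1))
        (κ / Γ ^ p) (R * (2 * B₀ ^ 2) ^ p) (τ₀ / (5 * Γ) ^ p) (τ₁ / (5 * Γ) ^ p) := by
  have hm1 : 1 ≤ m := by
    have : (1 : ℝ) ≤ m := le_trans (by nlinarith [one_le_pow₀ (n := 6) hΓ]) hΓm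
    exact_mod_cast this
  have hB0 : 1 ≤ B₀ := (one_le_pow₀ hH).trans h0
  have hB2 : 1 ≤ 2 * B₀ ^ 2 := by nlinarith [one_le_pow₀ (n := 2) hB0]
  have hΓ0 : 0 < Γ := by linarith
  induction p with
  | zero =>
    intro N S Φ k L κ R τ₀ τ₁ hN _ _ _ _ _ _ _ _ _ _ _ _ h
    obtain rfl : N = 0 := by rw [hN, zero_mul]
    simpa using h
  | succ p ih =>
    intro N S Φ k L κ R τ₀ τ₁ hN hS hk hL hΦ hR hRB hκ hτ hτ' e1 e2 hone h
    obtain rfl : N = p * m + m := by rw [hN, Nat.succ_mul]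
    have hR0 : 0 ≤ R := (mul_nonneg hL (pow_nonneg (by linarith) _)).trans hR
    have hτ1 : 0 < τ₁ := hτ.trans_le hτ'
    have hS' : (S.ext (W.pow (p * m)) (pw a _) (pw b _)).Bd B := by
      refine (hS.ext (fun x w => ⟨pw_nonneg ha.nn _ x w, pw_le ha.nn ha.le _ x w⟩)
        fun y w => ⟨pw_nonneg hb.nn _ y w, pw_le hb.nn hb.le _ y w⟩).mono ?_
      rw [← pow_add]
      exact (pow_le_pow_right₀ hH (by omega)).trans hk
    have h2R : 2 * R ≤ B := by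
      have := mul_le_mul_of_nonneg_left (one_le_pow₀ (n := p + 1) hB2) hR0
      linarith
    have e1' : 20 * B ^ 62 * δ ≤ κ ^ 2 * τ₀ ^ 4 := by
      refine e1.trans (mul_le_mul ?_ ?_ (by positivity) (by positivity))
      · exact pow_le_pow_left₀ (by positivity) (div_le_self hκ.le (one_le_pow₀ hΓ)) 2
      · exact pow_le_pow_left₀ (by positivity)
          (div_le_self hτ.le (one_le_pow₀ (by linarith))) 4
    have hW := (iso1 S a b (p * m) m).Wd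
      (A₀ := fun ω x y => (Φ ω.1.1 x y * ∏ l, g x y (ω.1.2 l)) * ∏ l, g x y (ω.2 l))
      (fun ⟨⟨ω, u⟩, v⟩ x y => by
        show _ = Φ ω x y * ∏ l, g x y (Fin.append u v l)
        simp only [Fin.prod_univ_add, Fin.append_left, Fin.append_right, mul_assoc]) h
    have hW2 := hB X Y W (S.ext (W.pow (p * m)) (pw a _) (pw b _)) a b
      (fun ω x y => Φ ω.1 x y * ∏ l, g x y (ω.2 l)) g H B₀ B δ Γ κ R τ₀ τ₁ m hH ha hb h0 h1 hm
      h2R hS' hΓ hΓm hκ hτ e1' e2 (fun ω x y hne => hone ω.1 x y (left_ne_zero_of_mul hne))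
      (fun ω x y w => by
        rw [abs_mul, abs_mul]
        refine le_trans ?_ hR
        rw [pow_add, ← mul_assoc]
        exact mul_le_mul (mul_le_mul (hΦ _ _ _) (prod_abs_le hg _ _ _) (abs_nonneg _) hL)
          (prod_abs_le hg _ _ _) (abs_nonneg _) (by positivity)) hW
    have hW3 := (iso2 S a b (pw a (p * m)) (pw b (p * m))).Wd
      (A₀ := fun ω x y => (Φ ω.1.1 x y * (g x y ω.1.2 - 1)) * ∏ l, g x y (ω.2 l))
      (fun ⟨⟨ω, u⟩, v⟩ x y => mul_right_comm _ _ _) hW2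
    have hW4 := ih (p * m) (S.ext W a b) (fun ω x y => Φ ω.1 x y * (g x y ω.2 - 1)) (k + 1) (L * K)
      (κ / Γ) (R * (2 * B₀ ^ 2)) (τ₀ / (5 * Γ)) (τ₁ / (5 * Γ)) rfl
      ((hS.ext (fun x w => ⟨ha.nn x w, ha.le x w⟩) fun y w => ⟨hb.nn y w, hb.le y w⟩).mono
        (pow_succ H k).ge)
      ((pow_le_pow_right₀ hH (by omega)).trans hk) (by positivity)
      (fun ω x y => by
        rw [abs_mul]
        refine mul_le_mul (hΦ _ _ _) (abs_le.mpr ⟨?_, ?_⟩) (abs_nonneg _) hL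
        · linarith [(hg x y ω.2).1]
        · linarith [(hg x y ω.2).2])
      (by
        have h3 : K * K ^ (p * m) ≤ K ^ (p * m + m) := by
          rw [← pow_succ']
          exact pow_le_pow_right₀ hK (by omega)
        have h4 := mul_le_mul_of_nonneg_left h3 hL
        have h5 := mul_le_mul_of_nonneg_left hB2 hR0
        rw [mul_assoc]
        linarith)
      (by rw [mul_assoc R, ← pow_succ']; exact hRB) (by positivity) (by positivity)
      (div_le_div_of_nonneg_right hτ' (by positivity))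
      (by rw [div_div, div_div, ← pow_succ', ← pow_succ']; exact e1)
      (by
        refine e2.trans (pow_le_pow_left₀ (by positivity) ?_ 4)
        rw [show κ / Γ / (τ₁ / (5 * Γ)) = 5 * (κ / τ₁) by field_simp]
        have : 0 < κ / τ₁ := by positivity
        linarith)
      (fun ω x y hne => hone ω.1 x y (left_ne_zero_of_mul hne)) hW3
    rw [div_div, div_div, div_div, mul_assoc R, ← pow_succ', ← pow_succ', ← pow_succ'] at hW4
    refine (iso3 S a b p).Wd (fun ⟨ω, w⟩ x y => ?_) hW4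
    show Φ ω x y * ∏ l, (g x y (w l) - 1) =
      Φ ω x y * (g x y (w 0) - 1) * ∏ l, (g x y (Fin.tail w l) - 1)
    rw [Fin.prod_univ_succ, mul_assoc]
    rfl

end Iter

open Iter in
theorem iter_of (hB : BLOCK) : ITER := by
  intro X Y W n γ a b g H K B₀ B δ Γ κ R τ₀ τ₁ m p hH hn ha hb hγ hg hK hone h0 h1 h2 hm hR hRB hΓ
    hΓm hκ hτ hτ' e1 e2 h
  have hW := (iso4 a b (p * m)).Wd
    (A₀ := fun ω x y => (n x y * γ x y) * ∏ l, g x y (ω.2 l))
    (fun ⟨_, w⟩ x y => mul_assoc _ _ _) h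
  have hW2 := gen hB a b g hH ha hb hg hK h0 h1 hm hΓ hΓm p (p * m) (triv X Y)
    (fun _ x y => n x y * γ x y) 0 H κ R τ₀ τ₁ rfl
    ⟨fun _ _ => ⟨zero_le_one, (pow_zero H).ge⟩, fun _ _ => ⟨zero_le_one, (pow_zero H).ge⟩⟩
    (by rw [zero_add]; exact h2) (by linarith)
    (fun _ x y => by
      rcases hγ x y with h | h
      · rw [h, mul_zero, abs_zero]; linarith
      · rw [h, mul_one, abs_of_nonneg (hn.nn x y)]; exact hn.le x y)
    hR hRB hκ hτ hτ' e1 e2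
    (fun _ x y hne => hone x y ((hγ x y).resolve_left (right_ne_zero_of_mul hne))) hW
  refine (iso5 a b p).Wd (fun w x y => ?_) hW2
  exact (mul_assoc _ _ _).symm

end Vale.Agent.P057Z.St
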