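import Vale.Agent.P057Z.St.Api

/-!
# P057Z, block St: the Efron-Stein inequality and orthogonality in one block
-/

noncomputable section

namespace Vale.Agent.P057Z.St

theorem esi : ESI := by
  intro P M G
  obtain ⟨m, hm⟩ : ∃ m, (P.pow (M + 1)).E G = m := ⟨_, rfl⟩
  obtain ⟨g, hg⟩ : ∃ g : Fin (M + 1) → P.α → ℝ, ∀ j v,
    ((P.pow M).E fun w => G (Fin.insertNth j v w)) - m = g j v := ⟨_, fun _ _ => rfl⟩
  have h0 : ∀ j, P.E (g j) = 0 := fun j => by
    rw [← P.E_congr (hg j), PS.E_sub, PS.E_const, ← PS.E_pow_succ, hm, sub_self]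
  have h1 : ∀ j, ((P.pow (M + 1)).E fun w => G w * g j (w j)) = P.E fun v => g j v ^ 2 := fun j => by
    rw [P.E_pow_succ M j, ← add_zero (P.E fun v => g j v ^ 2), ← mul_zero m, ← h0 j,
      ← PS.E_mul_left, ← PS.E_add]
    refine P.E_congr fun v => ?_
    simp only [Fin.insertNth_apply_same, PS.E_mul_right, eq_add_of_sub_eq (hg j v)]
    ring
  have h2 : ∀ j, ((P.pow (M + 1)).E fun w => g j (w j)) = 0 := fun j => by
    rw [P.E_pow_succ M j]
    simp only [Fin.insertNth_apply_same, PS.E_const, h0]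
  have h3 : ∀ j, (∑ k, (P.pow (M + 1)).E fun w => g j (w j) * g k (w k)) =
      P.E fun v => g j v ^ 2 := fun j => by
    simp only [P.E_pow_succ M j, Fin.sum_univ_succAbove _ j, Fin.insertNth_apply_same,
      Fin.insertNth_apply_succAbove, PS.E_const, ← PS.E_mul_E, h0, zero_mul,
      Finset.sum_const_zero, add_zero, sq]
  have h4 := (P.pow (M + 1)).E_mono (G := fun w => G w ^ 2) (F := fun w =>
    2 * m * G w + 2 * (∑ j, G w * g j (w j)) - m ^ 2 - 2 * m * (∑ j, g j (w j)) -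
      ∑ j, ∑ k, g j (w j) * g k (w k)) fun w => by
    rw [← Finset.sum_mul_sum, ← Finset.mul_sum]
    nlinarith [sq_nonneg (G w - m - ∑ j, g j (w j))]
  simp only [PS.E_sub, PS.E_add, PS.E_mul_left, PS.E_sum, PS.E_const, h1, h2, h3, hm,
    Finset.sum_const_zero] at h4
  simp only [hm, hg]
  linarith

namespace Ort

variable {X Y W : PS}

/-- the reweighted space -/
@[reducible] def rew (W : PS) (c : W.α → ℝ) (hc : ∀ w, 0 ≤ c w) (hs : 0 < W.E c) : PS where
  α := W.α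
  μ w := W.μ w * c w / W.E c
  nn w := div_nonneg (mul_nonneg (W.nn w) (hc w)) hs.le
  one := by rw [← Finset.sum_div]; exact div_self hs.ne'

theorem rew_pow {c : W.α → ℝ} (hc : ∀ w, 0 ≤ c w) (hs : 0 < W.E c) (N : ℕ)
    (F : (Fin N → W.α) → ℝ) : ((W.pow N).E fun w => (∏ l, c (w l)) * F w) =
      W.E c ^ N * ((rew W c hc hs).pow N).E F := by
  refine (Finset.sum_congr rfl fun w _ => ?_).trans (Finset.mul_sum _ _ _).symm
  simp only [Finset.prod_div_distrib, Finset.prod_mul_distrib, Finset.prod_const,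
    Finset.card_univ, Fintype.card_fin]
  field_simp

theorem rew_E {c : W.α → ℝ} (hc : ∀ w, 0 ≤ c w) (hs : 0 < W.E c) (F : W.α → ℝ) :
    (W.E fun w => c w * F w) = W.E c * (rew W c hc hs).E F := by
  refine (Finset.sum_congr rfl fun w _ => ?_).trans (Finset.mul_sum _ _ _).symm
  field_simp

theorem var (A : W.α → ℝ) {m : ℝ} (h : m = W.E A) (r t : ℝ) :
    (W.E fun v => (r * A v - r * t * m) ^ 2) =
      r ^ 2 * ((W.E fun v => (A v - m) ^ 2) + (1 - t) ^ 2 * m ^ 2) := by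
  rw [W.E_congr (G := fun v => r ^ 2 * ((A v - m) ^ 2 + (1 - t) ^ 2 * m ^ 2 +
    2 * (1 - t) * m * (A v - m))) fun v => by ring]
  simp only [PS.E_mul_left, PS.E_add, PS.E_sub, PS.E_const, ← h, sub_self, mul_zero, add_zero]

theorem near (h : ESI) {c : W.α → ℝ} (hc : ∀ w, 0 ≤ c w) {M : ℕ}
    (hs : 2 * (M + 1) * |W.E c - 1| ≤ 1) (G : (Fin (M + 1) → W.α) → ℝ) :
    (∑ j : Fin (M + 1), W.E fun v => c v *
      (((W.pow M).E fun w => (∏ l, c (w l)) * G (Fin.insertNth j v w)) -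
        (W.pow (M + 1)).E fun w => (∏ l, c (w l)) * G w) ^ 2) ≤
      2 * (W.pow (M + 1)).E fun w => (∏ l, c (w l)) * G w ^ 2 := by
  have hM := Nat.cast_nonneg (α := ℝ) M
  have a0 := abs_nonneg (W.E c - 1)
  have a1 := le_abs_self (W.E c - 1)
  have a2 := neg_abs_le (W.E c - 1)
  have s0 : 0 < W.E c := by nlinarith
  have s1 : W.E c ^ M ≤ 2 := by
    refine (pow_le_pow_left₀ s0.le (show _ ≤ Real.exp (W.E c - 1) by
      linarith [Real.add_one_le_exp (W.E c - 1)]) M).trans ?_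
    rw [← Real.exp_nat_mul]
    refine (Real.exp_le_exp.2 (show _ ≤ 1 / 2 by nlinarith)).trans
      ((Real.exp_bound_div_one_sub_of_interval (by norm_num) (by norm_num)).trans (by norm_num))
  have s2 : (M + 1) * (1 - W.E c) ^ 2 ≤ 1 := by
    rw [← neg_sub, neg_sq, ← sq_abs]
    nlinarith
  have k := h (rew W c hc s0) M G
  have k0 := ((rew W c hc s0).pow (M + 1)).E_nonneg fun w => sq_nonneg (G w)
  simp only [rew_pow hc s0, rew_E hc s0, pow_succ (W.E c),
    var _ ((rew W c hc s0).E_pow_succ M _ G), ← Finset.mul_sum, Finset.sum_add_distrib,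
    Finset.sum_const, Finset.card_univ, Fintype.card_fin, nsmul_eq_mul, Nat.cast_succ]
  have k1 := mul_le_of_le_one_left (sq_nonneg (((rew W c hc s0).pow (M + 1)).E G)) s2
  have k2 := mul_nonneg (pow_nonneg s0.le M) s0.le
  nlinarith [mul_le_mul_of_nonneg_right s1 (mul_nonneg k2 k0), mul_le_mul_of_nonneg_left
    ((add_le_add_right k1 _).trans k) (mul_nonneg (pow_nonneg s0.le M) k2)]

theorem bd {c : W.α → ℝ} {H B : ℝ} (hc : ∀ w, 0 ≤ c w ∧ c w ≤ H ^ 2) {N : ℕ} (h : H ^ N ≤ B)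
    (hH : 0 ≤ H) {F : (Fin N → W.α) → ℝ} (hF : ∀ w, |F w| ≤ B) :
    |(W.pow N).E fun w => (∏ l, c (w l)) * F w| ≤ B ^ 3 := by
  refine PS.abs_E_le_of _ fun w => ?_
  have k := Finset.prod_le_prod (s := Finset.univ) (fun l _ => (hc (w l)).1) fun l _ => (hc _).2
  rw [Finset.prod_const, Finset.card_univ, Fintype.card_fin, pow_right_comm] at k
  rw [abs_mul, abs_of_nonneg (Finset.prod_nonneg fun l _ => (hc _).1), pow_succ]
  exact mul_le_mul (k.trans (pow_le_pow_left₀ (by positivity) h 2)) (hF w) (abs_nonneg _)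
    (sq_nonneg _)

theorem pt (h : ESI) {c : W.α → ℝ} {H B : ℝ} (hc : ∀ w, 0 ≤ c w ∧ c w ≤ H ^ 2) {M : ℕ}
    (hH : 1 ≤ H) (h1 : H ^ (M + 1) ≤ B) (h2 : (M + 1 : ℝ) ≤ B) {G : (Fin (M + 1) → W.α) → ℝ}
    (hG : ∀ w, |G w| ≤ B) :
    (∑ j : Fin (M + 1), W.E fun v => c v *
      (((W.pow M).E fun w => (∏ l, c (w l)) * G (Fin.insertNth j v w)) -
        (W.pow (M + 1)).E fun w => (∏ l, c (w l)) * G w) ^ 2) ≤
      2 * ((W.pow (M + 1)).E fun w => (∏ l, c (w l)) * G w ^ 2) + 8 * B ^ 10 * |W.E c - 1| := by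
  have hM := Nat.cast_nonneg (α := ℝ) M
  have hB : 0 ≤ B := by linarith
  rcases le_total (2 * (M + 1) * |W.E c - 1|) 1 with hs | hs
  · exact (near h (fun w => (hc w).1) hs G).trans (le_add_of_nonneg_right (by positivity))
  have h0 : 0 ≤ H := by linarith
  have k0 := (W.pow (M + 1)).E_nonneg fun w =>
    mul_nonneg (Finset.prod_nonneg fun l (_ : l ∈ Finset.univ) => (hc (w l)).1) (sq_nonneg (G w))
  have k1 : H ^ 2 ≤ B ^ 2 :=
    pow_le_pow_left₀ h0 ((le_self_pow₀ hH M.succ_ne_zero).trans h1) 2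
  refine (Finset.sum_le_card_nsmul _ _ (B ^ 2 * (B ^ 3 + B ^ 3) ^ 2) fun j _ => W.E_le fun v =>
    mul_le_mul ((hc v).2.trans k1) ((sq_abs _).symm.trans_le (pow_le_pow_left₀ (abs_nonneg _)
      ((abs_sub _ _).trans (add_le_add
        (bd hc ((pow_le_pow_right₀ hH M.le_succ).trans h1) h0 fun _ => hG _) (bd hc h1 h0 hG))) 2))
      (sq_nonneg _) (by positivity)).trans ?_
  rw [Finset.card_univ, Fintype.card_fin, nsmul_eq_mul, Nat.cast_succ]
  have k2 := mul_le_mul_of_nonneg_right h2 (abs_nonneg (W.E c - 1))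
  have k3 : 1 ≤ 2 * B * |W.E c - 1| := by linarith
  nlinarith [mul_le_mul_of_nonneg_right h2 (pow_nonneg hB 8),
    mul_le_mul_of_nonneg_left k3 (pow_nonneg hB 9)]

theorem av_ext {S : KS X Y} (a : X.α → W.α → ℝ) (b : Y.α → W.α → ℝ) (F : (S.ext W a b).Ker) :
    (S.ext W a b).av F = S.av (ce a b F) := by
  refine (PS.E_prod _ _ _).trans (PS.E_congr _ fun ω => (PS.E_comm _ _ _).trans
    (PS.E_congr _ fun x => (PS.E_comm _ _ _).trans (PS.E_congr _ fun y => ?_)))
  rw [ce, ← PS.E_mul_left]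
  exact PS.E_congr _ fun w => by ring

end Ort

open Ort

theorem ort_of (hS : STAR) (hE : ESI) : ORT := by
  intro X Y W S a b H B δ M G hH ha hb h1 h2 hB hG
  have h0 : 0 ≤ H := by linarith
  have hM := Nat.cast_nonneg (α := ℝ) M
  have b1 : 1 ≤ B := by linarith
  have k := (hS X Y X W a b a H δ hH ha hb ha).2.1
  have k1 : (S.av fun _ x y => |(W.E fun w => a x w * b y w) - 1|) ≤ B * B * (2 * H * δ) :=
    PS.E_le _ fun ω => by
      refine le_trans ?_ (mul_le_mul_of_nonneg_left k (by positivity))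
      simp only [← PS.E_mul_left]
      exact PS.E_mono _ fun x => PS.E_mono _ fun y => mul_le_mul_of_nonneg_right
        (mul_le_mul (hB.1 ω x).2 (hB.2 ω y).2 (hB.2 ω y).1 (by positivity)) (abs_nonneg _)
  have k2 := KS.av_mono hB fun ω x y => pt hE (c := fun w => a x w * b y w)
    (fun w => ⟨mul_nonneg (ha.nn x w) (hb.nn y w),
      (mul_le_mul (ha.le x w) (hb.le y w) (hb.nn y w) h0).trans_eq (sq H).symm⟩) hH h1 h2
    (G := fun w => G (ω, w) x y) fun w => hG _ x y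
  have e1 : ∀ (A : Fin (M + 1) → S.Ker), (S.av fun ω x y => ∑ j, A j ω x y) = ∑ j, S.av (A j) :=
    fun A => by simp only [KS.av, Finset.mul_sum, PS.E_sum]
  have e2 : ∀ (A A' : S.Ker) (s t : ℝ), (S.av fun ω x y => s * A ω x y + t * A' ω x y) =
      s * S.av A + t * S.av A' := fun A A' s t => by
    simp only [KS.av, ← PS.E_mul_left, ← PS.E_add]
    exact PS.E_congr _ fun _ => PS.E_congr _ fun _ => PS.E_congr _ fun _ => by ring
  rw [e1, e2] at k2
  simp only [Finset.prod_mul_distrib] at k2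
  simp only [av_ext]
  refine k2.trans (add_le_add_right ((mul_le_mul_of_nonneg_left k1 (by positivity)).trans ?_) _)
  have k3 := mul_le_mul ((le_self_pow₀ hH M.succ_ne_zero).trans h1)
    (pow_le_pow_right₀ b1 (show 12 ≤ 19 by norm_num)) (by positivity) (by positivity)
  nlinarith [mul_le_mul_of_nonneg_right k3 ha.nonneg, mul_nonneg (pow_nonneg (h0.trans
    ((le_self_pow₀ hH M.succ_ne_zero).trans h1)) 20) ha.nonneg]

end Vale.Agent.P057Z.St
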