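import Vale.Agent.P057Z.St.Api

/-! # P057Z, block St: the spectral cut -/

open Matrix

set_option linter.all false

noncomputable section

namespace Vale.Agent.P057Z.St

namespace SpecX

variable {X Y : Type} [Fintype X] [Fintype Y]

theorem ssq (M : Matrix X Y ℝ) : ∑ x, ∑ y, M x y ^ 2 = (Mᵀ * M).trace := by
  rw [Finset.sum_comm]
  simp only [trace, diag_apply, mul_apply, transpose_apply, sq]

variable [DecidableEq Y]

theorem exists_diag (A : Matrix X Y ℝ) : ∃ (U : Matrix Y Y ℝ) (s : Y → ℝ), U * Uᵀ = 1 ∧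
    Uᵀ * U = 1 ∧ (∀ i, 0 ≤ s i) ∧ Aᵀ * A = U * diagonal (fun i => s i * s i) * Uᵀ := by
  have h : (Aᵀ * A).PosSemidef := by
    simpa only [conjTranspose_eq_transpose_of_trivial] using posSemidef_conjTranspose_mul_self A
  have h1 := h.1.spectral_theorem
  rw [Unitary.conjStarAlgAut_apply] at h1
  refine ⟨h.1.eigenvectorUnitary, fun i => √(h.1.eigenvalues i), ?_, ?_,
    fun i => Real.sqrt_nonneg _, ?_⟩
  · simpa only [star_eq_conjTranspose, conjTranspose_eq_transpose_of_trivial] using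
      Unitary.mul_star_self_of_mem h.1.eigenvectorUnitary.2
  · simpa only [star_eq_conjTranspose, conjTranspose_eq_transpose_of_trivial] using
      Unitary.star_mul_self_of_mem h.1.eigenvectorUnitary.2
  · simp only [Real.mul_self_sqrt (h.eigenvalues_nonneg _)]
    simpa [star_eq_conjTranspose, conjTranspose_eq_transpose_of_trivial, Function.comp_def]
      using h1

/-- functions of the matrix -/
def c (U : Matrix Y Y ℝ) (φ : Y → ℝ) : Matrix Y Y ℝ := U * diagonal φ * Uᵀ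

variable {U : Matrix Y Y ℝ}

theorem c_mul (h : Uᵀ * U = 1) (φ ψ : Y → ℝ) : c U φ * c U ψ = c U fun i => φ i * ψ i := by
  have : c U φ * c U ψ = U * (diagonal φ * (Uᵀ * U) * diagonal ψ) * Uᵀ := by
    simp only [c, Matrix.mul_assoc]
  rw [this, h, Matrix.mul_one, diagonal_mul_diagonal, c]

theorem c_tp (φ : Y → ℝ) : (c U φ)ᵀ = c U φ := by
  simp only [c, transpose_mul, transpose_transpose, diagonal_transpose, Matrix.mul_assoc]

theorem c_tr (h : Uᵀ * U = 1) (φ : Y → ℝ) : (c U φ).trace = ∑ i, φ i := by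
  rw [c, trace_mul_comm, ← Matrix.mul_assoc, h, Matrix.one_mul, trace_diagonal]

theorem c_sub (h : U * Uᵀ = 1) (φ : Y → ℝ) : 1 - c U φ = c U fun i => 1 - φ i := by
  rw [c, c, ← diagonal_sub, diagonal_one, Matrix.mul_sub, Matrix.sub_mul, Matrix.mul_one, h]

theorem c_bd (h : U * Uᵀ = 1) {φ : Y → ℝ} {b : ℝ} (hb : 0 ≤ b) (hφ : ∀ i, |φ i| ≤ b)
    (u v : Y → ℝ) : |u ⬝ᵥ c U φ *ᵥ v| ≤ √(u ⬝ᵥ u) * √(v ⬝ᵥ v) * b := by
  have h1 : ∀ u : Y → ℝ, u ⬝ᵥ u = ∑ i, |(Uᵀ *ᵥ u) i| ^ 2 := fun u => by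
    have : (Uᵀ *ᵥ u) ⬝ᵥ (Uᵀ *ᵥ u) = u ⬝ᵥ u := by
      rw [dotProduct_mulVec, vecMul_transpose, mulVec_mulVec, h, one_mulVec]
    rw [← this]
    simp only [dotProduct, sq, abs_mul_abs_self]
  have h2 : u ⬝ᵥ c U φ *ᵥ v = ∑ i, (Uᵀ *ᵥ u) i * (φ i * (Uᵀ *ᵥ v) i) := by
    rw [c, ← mulVec_mulVec, ← mulVec_mulVec, dotProduct_mulVec, ← mulVec_transpose]
    simp only [dotProduct, mulVec_diagonal]
  rw [h2, h1 u, h1 v]
  refine (Finset.abs_sum_le_sum_abs _ _).trans (le_trans ?_ (mul_le_mul_of_nonneg_right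
    (Real.sum_mul_le_sqrt_mul_sqrt _ _ _) hb))
  rw [Finset.sum_mul]
  refine Finset.sum_le_sum fun i _ => ?_
  rw [abs_mul, abs_mul, mul_assoc, mul_comm _ b]
  gcongr
  exact hφ i

end SpecX

open SpecX

theorem spec : SPEC := by
  intro X Y _ _ A
  classical
  obtain ⟨U, s, h1, h2, h3, h4⟩ := exists_diag A
  change _ = c U _ at h4
  refine ⟨c U s, c_tp s, by rw [c_mul h2, h4], fun l hl => ?_⟩
  have e : c U (fun i => if l ≤ s i then 1 / (s i * s i) else 0) * (Aᵀ * A) =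
      c U fun i => if l ≤ s i then 1 else 0 := by
    rw [h4, c_mul h2]
    refine congrArg (c U) (funext fun i => ?_)
    split_ifs with h
    · exact one_div_mul_cancel (mul_pos (hl.trans_le h) (hl.trans_le h)).ne'
    · exact zero_mul _
  refine ⟨c U fun i => if l ≤ s i then 1 / (s i * s i) else 0, fun u v => ?_, ?_, ?_⟩
  · rw [div_eq_mul_one_div]
    refine c_bd h1 (by positivity) (fun i => ?_) u v
    split_ifs with h
    · have := hl.trans_le h
      rw [abs_of_pos (by positivity), ← sq]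
      gcongr
    · rw [abs_zero]
      positivity
  · rw [ssq, Matrix.mul_assoc A, e, transpose_mul, c_tp, Matrix.mul_assoc, ← Matrix.mul_assoc Aᵀ,
      h4, c_mul h2, c_mul h2, c_mul h2, c_tr h2, c_tr h2, Finset.sum_div]
    refine Finset.sum_le_sum fun i _ => ?_
    rw [le_div_iff₀ hl]
    have := mul_nonneg (h3 i) (h3 i)
    split_ifs with h
    · nlinarith
    · nlinarith [h3 i]
  · have e2 : A - A * c U (fun i => if l ≤ s i then 1 / (s i * s i) else 0) * (Aᵀ * A) =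
        A * c U fun i => 1 - if l ≤ s i then 1 else 0 := by
      rw [Matrix.mul_assoc A, e, ← c_sub h1, Matrix.mul_sub, Matrix.mul_one]
    have e3 : ∀ P : Matrix Y Y ℝ, Pᵀ = P → ((A * P * (A * P)ᵀ)ᵀ * (A * P * (A * P)ᵀ)).trace =
        (Aᵀ * A * (P * P) * (Aᵀ * A) * (P * P)).trace := fun P hP => by
      simp only [transpose_mul, transpose_transpose, hP, Matrix.mul_assoc]
      rw [trace_mul_comm Aᵀ]
      simp only [Matrix.mul_assoc]
    rw [ssq, e2, e3 _ (c_tp _), h4]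
    simp only [c_mul h2, c_tr h2, Finset.mul_sum]
    refine Finset.sum_le_sum fun i _ => ?_
    have := mul_nonneg (mul_nonneg (h3 i) (h3 i)) (h3 i)
    split_ifs with h
    · nlinarith
    · nlinarith [not_le.1 h]

namespace SpecX

theorem one (hS : SPEC) {X Y : Type} [Fintype X] [Fintype Y] {w : X → ℝ} {w' : Y → ℝ}
    (hw : ∀ x, 0 ≤ w x) (hw' : ∀ y, 0 ≤ w' y) {B R : ℝ} (hB : ∑ x, w x ≤ B) (hB' : ∑ y, w' y ≤ B)
    (hR : 0 ≤ R) (A : X → Y → ℝ) (hA : ∀ x y, |A x y| ≤ R) :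
    ∃ (α : X → Y → ℝ) (β : Y → Y → ℝ),
    (∀ x x', ∑ i, α x i * α x' i = ∑ y, w' y * (A x y * A x' y)) ∧
    (∀ y y', w' y ≠ 0 → w' y' ≠ 0 → ∑ i, β y i * β y' i = ∑ x, w x * (A x y * A x y')) ∧
    (∀ y, ∑ i, β y i * β y i ≤ B * R ^ 2) ∧ ∀ l : ℝ, 0 < l → ∃ A' : X → Y → ℝ,
      (∀ x y, |A' x y| ≤ B ^ 2 * R ^ 3 / l ^ 2) ∧
      ∑ x, ∑ y, w x * w' y * A' x y ^ 2 ≤
        (∑ x, ∑ y, w x * w' y * (A x y * ∑ i, α x i * β y i)) / l ∧
      ∑ x, ∑ x', w x * w x' * (∑ y, w' y * ((A x y - A' x y) * (A x' y - A' x' y))) ^ 2 ≤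
        l * ∑ x, ∑ y, w x * w' y * (A x y * ∑ i, α x i * β y i) := by
  let At : Matrix X Y ℝ := of fun x y => √(w x) * A x y * √(w' y)
  obtain ⟨S, s1, s2, s3⟩ := hS X Y At
  have q : ∀ x, √(w x) * √(w x) = w x := fun x => Real.mul_self_sqrt (hw x)
  have q' : ∀ y, √(w' y) * √(w' y) = w' y := fun y => Real.mul_self_sqrt (hw' y)
  have B0 : 0 ≤ B := (Finset.sum_nonneg fun x _ => hw x).trans hB
  have hAA : ∀ x y x' y', |A x y * A x' y'| ≤ R ^ 2 := fun x y x' y' => by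
    rw [abs_mul, sq]
    exact mul_le_mul (hA _ _) (hA _ _) (abs_nonneg _) hR
  have bd : ∀ {Z : Type} [Fintype Z] {v f : Z → ℝ} {C : ℝ}, (∀ z, 0 ≤ v z) → ∑ z, v z ≤ B →
      0 ≤ C → (∀ z, |f z| ≤ C) → |∑ z, v z * f z| ≤ B * C := by
    intro Z _ v f C h1 h2 h3 h4
    refine (Finset.abs_sum_le_sum_abs _ _).trans (le_trans ?_ (mul_le_mul_of_nonneg_right h2 h3))
    rw [Finset.sum_mul]
    refine Finset.sum_le_sum fun z _ => ?_
    rw [abs_mul, abs_of_nonneg (h1 z)]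
    exact mul_le_mul_of_nonneg_left (h4 z) (h1 z)
  have hH : ∀ y y', (Atᵀ * At) y y' = √(w' y) * (∑ x, w x * (A x y * A x y')) * √(w' y') := by
    intro y y'
    simp only [mul_apply, transpose_apply, At, of_apply, Finset.mul_sum, Finset.sum_mul]
    refine Finset.sum_congr rfl fun x _ => ?_
    linear_combination (A x y * A x y' * √(w' y) * √(w' y')) * q x
  have a1 : ∀ x x', ∑ i, A x i * √(w' i) * (A x' i * √(w' i)) = ∑ y, w' y * (A x y * A x' y) :=
    fun x x' => Finset.sum_congr rfl fun y _ => by linear_combination (A x y * A x' y) * q' y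
  have a2 : ∀ y y', w' y ≠ 0 → w' y' ≠ 0 → ∑ i, S i y / √(w' y) * (S i y' / √(w' y')) =
      ∑ x, w x * (A x y * A x y') := by
    intro y y' h h'
    have k : √(w' y) ≠ 0 := fun k => h (by rw [← q' y, k, mul_zero])
    have k' : √(w' y') ≠ 0 := fun k => h' (by rw [← q' y', k, mul_zero])
    have k2 : (Sᵀ * S) y y' = (Atᵀ * At) y y' := by rw [s1, s2]
    simp only [div_mul_div_comm, ← Finset.sum_div]
    rw [div_eq_iff (mul_ne_zero k k')]
    exact k2.trans ((hH y y').trans (by ring))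
  have a3 : ∑ x, ∑ y, w x * w' y * (A x y * ∑ i, A x i * √(w' i) * (S i y / √(w' y))) =
      (Atᵀ * At * S).trace := by
    rw [Finset.sum_comm]
    refine Finset.sum_congr rfl fun y _ => ?_
    rw [diag_apply, mul_apply]
    simp only [hH, Finset.mul_sum, Finset.sum_mul]
    rw [Finset.sum_comm]
    refine Finset.sum_congr rfl fun i _ => Finset.sum_congr rfl fun x _ => ?_
    have k : w' y / √(w' y) = √(w' y) := Real.div_sqrt
    rw [div_eq_mul_inv] at k ⊢
    linear_combination (w x * A x y * A x i * √(w' i) * S i y) * k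
  refine ⟨fun x i => A x i * √(w' i), fun y i => S i y / √(w' y), a1, a2, fun y => ?_,
    fun l hl => ?_⟩
  · by_cases h : w' y = 0
    · simp only [h, Real.sqrt_zero, div_zero, mul_zero, Finset.sum_const_zero]
      positivity
    · rw [a2 y y h h]
      exact (le_abs_self _).trans (bd hw hB (sq_nonneg R) fun x => hAA _ _ _ _)
  obtain ⟨G, g1, g2, g3⟩ := s3 l hl
  let A' : X → Y → ℝ := fun x y => (fun i => A x i * √(w' i)) ⬝ᵥ G *ᵥ
    fun i => √(w' i) * ∑ x', w x' * (A x' i * A x' y)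
  have b1 : ∀ x y, (At * G * (Atᵀ * At)) x y = √(w x) * A' x y * √(w' y) := by
    intro x y
    rw [Matrix.mul_assoc, mul_apply]
    simp only [A', dotProduct, mulVec, Finset.mul_sum _ _ (√(w x)), Finset.sum_mul _ _ (√(w' y))]
    refine Finset.sum_congr rfl fun j _ => ?_
    rw [mul_apply]
    simp only [hH, ← mul_assoc, ← Finset.sum_mul _ _ (√(w' y)), At, of_apply]
  refine ⟨A', fun x y => (g1 _ _).trans ?_, ?_, ?_⟩
  · have k1 : (fun i => A x i * √(w' i)) ⬝ᵥ (fun i => A x i * √(w' i)) ≤ B * R ^ 2 :=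
      (a1 x x).trans_le ((le_abs_self _).trans (bd hw' hB' (sq_nonneg R) fun x => hAA _ _ _ _))
    have k2 : (fun i => √(w' i) * ∑ x', w x' * (A x' i * A x' y)) ⬝ᵥ
        (fun i => √(w' i) * ∑ x', w x' * (A x' i * A x' y)) ≤ B * (B * R ^ 2) ^ 2 := by
      refine le_trans (le_of_eq ?_) ((le_abs_self _).trans (bd hw' hB' (sq_nonneg _)
        (f := fun i => (∑ x', w x' * (A x' i * A x' y)) ^ 2) fun i => ?_))
      · exact Finset.sum_congr rfl fun i _ => by
          linear_combination (∑ x', w x' * (A x' i * A x' y)) ^ 2 * q' i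
      · rw [abs_pow]
        exact pow_le_pow_left₀ (abs_nonneg _) (bd hw hB (sq_nonneg R) fun x => hAA _ _ _ _) 2
    refine div_le_div_of_nonneg_right ?_ (sq_nonneg l)
    refine (mul_le_mul (Real.sqrt_le_sqrt k1) (Real.sqrt_le_sqrt k2) (Real.sqrt_nonneg _)
      (Real.sqrt_nonneg _)).trans ?_
    rw [← Real.sqrt_mul (by positivity), Real.sqrt_le_left (by positivity)]
    exact le_of_eq (by ring)
  · rw [a3]
    refine le_trans (le_of_eq ?_) g2
    refine Finset.sum_congr rfl fun x _ => Finset.sum_congr rfl fun y _ => ?_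
    rw [b1, mul_pow, mul_pow, Real.sq_sqrt (hw x), Real.sq_sqrt (hw' y)]
    ring
  · rw [a3]
    refine le_trans (le_of_eq ?_) g3
    refine Finset.sum_congr rfl fun x _ => Finset.sum_congr rfl fun x' _ => ?_
    have k : ((At - At * G * (Atᵀ * At)) * (At - At * G * (Atᵀ * At))ᵀ) x x' =
        √(w x) * √(w x') * ∑ y, w' y * ((A x y - A' x y) * (A x' y - A' x' y)) := by
      rw [mul_apply, Finset.mul_sum]
      refine Finset.sum_congr rfl fun y _ => ?_
      rw [transpose_apply, Matrix.sub_apply, Matrix.sub_apply, b1, b1]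
      simp only [At, of_apply]
      linear_combination
        (√(w x) * √(w x') * ((A x y - A' x y) * (A x' y - A' x' y))) * q' y
    rw [k, mul_pow, mul_pow, Real.sq_sqrt (hw x), Real.sq_sqrt (hw x')]

theorem E2 (X Y : PS) (ν : X.α → ℝ) (ν' : Y.α → ℝ) (F : X.α → Y.α → ℝ) :
    (X.E fun x => Y.E fun y => ν x * ν' y * F x y) =
      ∑ x, ∑ y, X.μ x * ν x * (Y.μ y * ν' y) * F x y := by
  simp only [PS.E, Finset.mul_sum]
  exact Finset.sum_congr rfl fun x _ => Finset.sum_congr rfl fun y _ => by ring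

theorem E1 (X : PS) (ν f g : X.α → ℝ) :
    (X.E fun x => ν x * f x * g x) = ∑ x, X.μ x * ν x * (f x * g x) :=
  Finset.sum_congr rfl fun x _ => by ring

end SpecX

theorem spk_of (hS : SPEC) : SPK := by
  intro X Y S B R A hB hA
  obtain ⟨x₀⟩ := X.nonempty
  obtain ⟨y₀⟩ := Y.nonempty
  choose α β h1 h2 h3 h4 using fun ω => one hS (w := fun x => X.μ x * S.ν ω x)
    (w' := fun y => Y.μ y * S.ν' ω y) (fun x => mul_nonneg (X.nn x) (hB.1 ω x).1)
    (fun y => mul_nonneg (Y.nn y) (hB.2 ω y).1) (X.E_le fun x => (hB.1 ω x).2)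
    (Y.E_le fun y => (hB.2 ω y).2) ((abs_nonneg _).trans (hA ω x₀ y₀)) (A ω) (hA ω)
  refine ⟨α, β, fun ω x x' => by rw [h1, E1], fun ω y y' k k' => by rw [h2 ω y y' k k', E1], h3,
    fun l hl => ?_⟩
  choose A' k1 k2 k3 using fun ω => h4 ω l hl
  refine ⟨A', k1, ?_, ?_⟩
  · simp only [KS.av, E2]
    rw [← PS.E_div]
    exact S.Ω.E_mono k2
  · simp only [KS.av, KS.mom, E2]
    simp only [E1]
    rw [← PS.E_mul_left]
    exact S.Ω.E_mono k3

end Vale.Agent.P057Z.St
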