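import Vale.Agent.P057Z.St.Api

/-!
# P057Z, block St: the trilinear bound and the weak norm of positive kernels
-/

noncomputable section

namespace Vale.Agent.P057Z.St

namespace Tri

variable {X Y : PS}

theorem X0_nn (S : KS X Y) (A : S.Ker) : 0 ≤ S.X0 A := Real.sqrt_nonneg _

theorem X1_nn (S : KS X Y) (A : S.Ker) : 0 ≤ S.X1 A := Real.sqrt_nonneg _

theorem X1_zero (S : KS X Y) : S.X1 (fun _ _ _ => 0) = 0 := by
  simp [KS.X1, KS.mom, PS.E]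

/-- the chain of remainders of one kernel -/
theorem chain (hX : XN) {S : KS X Y} {B : ℝ} (hS : S.Bd B) {A : S.Ker} {κ τ : ℝ} {m : ℕ}
    (hτ : 0 < τ) (h : Wf S A κ τ m) : ∃ R : ℕ → S.Ker, R 0 = A ∧ R (m + 2) = (fun _ _ _ => 0) ∧
      ∀ i, i < m + 2 → S.X1 (R i) ≤ κ / (2 ^ (i - 1) * τ) ∧
        S.X1 (R (i + 1)) ≤ κ / (2 ^ (i - 1) * τ) ∧
        S.X0 (fun ω x y => R i ω x y - R (i + 1) ω x y) ≤ 5 * κ * (2 ^ (i - 1) * τ) ^ 2 := by
  obtain ⟨hκ, ⟨R₀, hW⟩, h1, h0⟩ := h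
  have h2 : ∀ i : ℕ, ∃ A' : S.Ker, i ≤ m → S.X0 A' ≤ κ * (2 ^ i * τ) ^ 2 ∧
      S.X1 (fun ω x y => A ω x y - A' ω x y) ≤ κ / (2 ^ i * τ) := by
    intro i
    by_cases hi : i ≤ m
    · obtain ⟨A', -, b⟩ := hW (2 ^ i * τ) (le_mul_of_one_le_left hτ.le (one_le_pow₀ one_le_two))
        (mul_le_mul_of_nonneg_right (pow_le_pow_right₀ one_le_two hi) hτ.le)
      exact ⟨A', fun _ => b⟩
    · exact ⟨A, fun hh => absurd hh hi⟩
  choose A' hA' using h2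
  refine ⟨fun i => if i = 0 then A else if i ≤ m + 1 then
    (fun ω x y => A ω x y - A' (i - 1) ω x y) else fun _ _ _ => 0, by simp, by simp, ?_⟩
  intro i hi
  rcases i with _ | j
  · obtain ⟨a0, a1⟩ := hA' 0 (Nat.zero_le m)
    simp only [if_true, zero_add, one_ne_zero, if_false, Nat.le_add_left, Nat.sub_self,
      sub_sub_cancel, Nat.zero_sub]
    refine ⟨by simpa using h1, a1, a0.trans ?_⟩
    have : 0 ≤ κ * (2 ^ 0 * τ) ^ 2 := by positivity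
    linarith
  · have hj : j ≤ m := by omega
    obtain ⟨a0, a1⟩ := hA' j hj
    have hp : 0 < 2 ^ j * τ := by positivity
    have hq : 0 ≤ κ * (2 ^ j * τ) ^ 2 := by positivity
    simp only [Nat.succ_ne_zero, if_false, Nat.add_sub_cancel, Nat.add_le_add_iff_right, hj,
      if_true]
    refine ⟨a1, ?_⟩
    by_cases hj' : j + 1 ≤ m
    · obtain ⟨b0, b1⟩ := hA' (j + 1) hj'
      simp only [hj', if_true]
      constructor
      · refine b1.trans (div_le_div_of_nonneg_left hκ.le hp ?_)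
        rw [pow_succ]
        linarith
      · have e : (fun ω x y => A ω x y - A' j ω x y - (A ω x y - A' (j + 1) ω x y)) =
            fun ω x y => A' (j + 1) ω x y - A' j ω x y := by
          funext ω x y
          ring
        rw [e]
        refine (hX X Y S B _ _ hS).1.trans ?_
        have e2 : κ * (2 ^ (j + 1) * τ) ^ 2 = 4 * (κ * (2 ^ j * τ) ^ 2) := by ring
        linarith
    · have hjm : j = m := by omega
      simp only [hj', if_false, X1_zero, sub_zero]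
      refine ⟨by positivity, (hX X Y S B _ _ hS).1.trans ?_⟩
      rw [← hjm] at h0
      linarith

theorem tr_split {Y₁ Y₂ Y₃ Ω : PS} (ν₁ : Ω.α → Y₁.α → ℝ) (ν₂ : Ω.α → Y₂.α → ℝ)
    (ν₃ : Ω.α → Y₃.α → ℝ) (A A' : Ω.α → Y₂.α → Y₃.α → ℝ) (B B' : Ω.α → Y₁.α → Y₃.α → ℝ)
    (C C' : Ω.α → Y₁.α → Y₂.α → ℝ) :
    tr ν₁ ν₂ ν₃ A B C - tr ν₁ ν₂ ν₃ A' B' C' =
      tr ν₁ ν₂ ν₃ (fun ω x y => A ω x y - A' ω x y) B C +
      tr ν₁ ν₂ ν₃ A' (fun ω x y => B ω x y - B' ω x y) C +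
      tr ν₁ ν₂ ν₃ A' B' (fun ω x y => C ω x y - C' ω x y) := by
  simp only [tr, ← PS.E_add, ← PS.E_sub]
  exact PS.E_congr _ fun _ => PS.E_congr _ fun _ => PS.E_congr _ fun _ => PS.E_congr _ fun _ => by
    ring

theorem prod3 {a b c k₁ k₂ k₃ u : ℝ} (hu : 0 < u) (ha : 0 ≤ a) (hb : 0 ≤ b) (hc : 0 ≤ c)
    (h1 : a ≤ 5 * k₁ * u ^ 2) (h2 : b ≤ k₂ / u) (h3 : c ≤ k₃ / u) :
    a * b * c ≤ 5 * (k₁ * k₂ * k₃) := by
  have h4 : a * b * c ≤ 5 * k₁ * u ^ 2 * (k₂ / u) * (k₃ / u) :=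
    mul_le_mul (mul_le_mul h1 h2 hb (ha.trans h1)) h3 hc (mul_nonneg (ha.trans h1) (hb.trans h2))
  refine h4.trans (le_of_eq ?_)
  field_simp

theorem av_prod (S : KS X Y) (A : S.Ker) : S.av A = (S.Ω.prod (X.prod Y)).E fun p =>
    S.ν p.1 p.2.1 * S.ν' p.1 p.2.2 * A p.1 p.2.1 p.2.2 := by
  simp only [PS.E_prod, KS.av]

end Tri

open Tri in
theorem tri_of (hX : XN) (h3 : TR3) : TRI := by
  intro Y₁ Y₂ Y₃ Ω ν₁ ν₂ ν₃ A B C R b₁ b₂ b₃ κ₁ κ₂ κ₃ τ m hτ w₁ w₂ w₃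
  have hk : 0 < κ₁ * κ₂ * κ₃ := mul_pos (mul_pos w₁.1 w₂.1) w₃.1
  obtain ⟨RA, a0, a1, a2⟩ := chain hX b₁ hτ w₁
  obtain ⟨RB, b0, b1, b2⟩ := chain hX b₂ hτ w₂
  obtain ⟨RC, c0, c1, c2⟩ := chain hX b₃ hτ w₃
  have key : ∀ i ∈ Finset.range (m + 2), |tr ν₁ ν₂ ν₃ (RA i) (RB i) (RC i) -
      tr ν₁ ν₂ ν₃ (RA (i + 1)) (RB (i + 1)) (RC (i + 1))| ≤ 15 * (κ₁ * κ₂ * κ₃) := by
    intro i hi
    have hi' := Finset.mem_range.mp hi
    obtain ⟨p1, p2, p3⟩ := a2 i hi'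
    obtain ⟨q1, q2, q3⟩ := b2 i hi'
    obtain ⟨r1, r2, r3⟩ := c2 i hi'
    have hu : 0 < 2 ^ (i - 1) * τ := by positivity
    have t1 := (h3 Y₁ Y₂ Y₃ Ω ν₁ ν₂ ν₃ (fun ω x y => RA i ω x y - RA (i + 1) ω x y) (RB i) (RC i)
      R b₁ b₂ b₃).1.trans (prod3 hu (X0_nn _ _) (X1_nn _ _) (X1_nn _ _) p3 q1 r1)
    have t2 := (h3 Y₁ Y₂ Y₃ Ω ν₁ ν₂ ν₃ (RA (i + 1)) (fun ω x y => RB i ω x y - RB (i + 1) ω x y)
      (RC i) R b₁ b₂ b₃).2.1
    have t2' := prod3 hu (X0_nn _ _) (X1_nn _ _) (X1_nn _ _) q3 p2 r1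
    have t3 := (h3 Y₁ Y₂ Y₃ Ω ν₁ ν₂ ν₃ (RA (i + 1)) (RB (i + 1))
      (fun ω x y => RC i ω x y - RC (i + 1) ω x y) R b₁ b₂ b₃).2.2
    have t3' := prod3 hu (X0_nn _ _) (X1_nn _ _) (X1_nn _ _) r3 p2 q2
    rw [tr_split]
    refine (abs_add_three _ _ _).trans ?_
    linarith
  have e : tr ν₁ ν₂ ν₃ A B C = ∑ i ∈ Finset.range (m + 2), (tr ν₁ ν₂ ν₃ (RA i) (RB i) (RC i) -
      tr ν₁ ν₂ ν₃ (RA (i + 1)) (RB (i + 1)) (RC (i + 1))) := by
    rw [Finset.sum_range_sub', a0, b0, c0, a1, b1, c1]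
    simp [tr, PS.E]
  rw [e]
  refine (Finset.abs_sum_le_sum_abs _ _).trans ((Finset.sum_le_card_nsmul _ _ _ key).trans ?_)
  rw [Finset.card_range, nsmul_eq_mul]
  push_cast
  have : (0 : ℝ) ≤ m := Nat.cast_nonneg m
  nlinarith

open Tri in
theorem gram_of (hK : SPK) (hG : GRM) : GRAM := by
  intro X Y S n F B K δ m G κ τ₀ τ₁ q hB hK1 hS hn hF hq hq2 hm g1 g2 hδ hκ hfin hτ₀
  obtain ⟨A, hA⟩ : ∃ A : S.Ker, A = fun ω x y => n x y * F ω x y := ⟨_, rfl⟩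
  have hA' : ∀ ω x y, A ω x y = n x y * F ω x y := fun ω x y => by rw [hA]
  have g2' : S.tp.mom (fun ω y x => A ω x y) q ≤ G := by rw [hA]; exact g2
  rw [← hA] at hm g1 ⊢
  have hB0 : 0 ≤ B := by linarith
  have hK0 : 0 ≤ K := by linarith
  have hA0 : ∀ ω x y, 0 ≤ A ω x y := fun ω x y => by
    rw [hA']
    exact mul_nonneg (hn.nn x y) (hF ω x y).1
  have hAb : ∀ ω x y, |A ω x y| ≤ B * K := fun ω x y => by
    rw [abs_of_nonneg (hA0 ω x y), hA']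
    exact mul_le_mul (hn.le x y) (hF ω x y).2 (hF ω x y).1 hB0
  obtain ⟨α, β, s1, s2, s3, s4⟩ := hK X Y S B (B * K) A hS hAb
  have hG0 : 0 ≤ G := (KS.mom_nonneg hS A hq).trans g1
  have hα : ∀ ω x, ∑ i, α ω x i * α ω x i ≤ B ^ 3 * K ^ 2 := fun ω x => by
    rw [s1]
    refine PS.E_le _ fun y => ?_
    have h1 : A ω x y * A ω x y ≤ (B * K) * (B * K) :=
      mul_self_le_mul_self (hA0 ω x y) ((le_abs_self _).trans (hAb ω x y))
    have h2 := mul_le_mul (hS.2 ω y).2 h1 (mul_self_nonneg _) hB0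
    linarith
  have hβ : ∀ ω y, ∑ i, β ω y i * β ω y i ≤ B ^ 3 * K ^ 2 := fun ω y => by
    have := s3 ω y
    linarith
  have h1 := hG X Y S Y.α n B (B ^ 3 * K ^ 2) δ q α β hB hS hn hα hβ
  have e1 : (S.Ω.E fun ω => X.E fun x => X.E fun x' =>
      S.ν ω x * S.ν ω x' * (∑ i, α ω x i * α ω x' i) ^ q) = S.mom A q := by
    simp only [s1, KS.mom]
  have e2 : (S.Ω.E fun ω => Y.E fun y => Y.E fun y' =>
      S.ν' ω y * S.ν' ω y' * (∑ i, β ω y i * β ω y' i) ^ q) =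
      S.tp.mom (fun ω y x => A ω x y) q := by
    refine PS.E_congr _ fun ω => PS.E_congr' _ fun y hy => PS.E_congr' _ fun y' hy' => ?_
    by_cases h0 : S.ν' ω y = 0
    · simp [h0]
    by_cases h0' : S.ν' ω y' = 0
    · simp [h0']
    rw [s2 ω y y' (mul_ne_zero hy h0) (mul_ne_zero hy' h0')]
  rw [e1, e2] at h1
  have h2 : √(S.mom A q) * √(S.tp.mom (fun ω y x => A ω x y) q) ≤ G := by
    refine (mul_le_mul (Real.sqrt_le_sqrt g1) (Real.sqrt_le_sqrt g2') (Real.sqrt_nonneg _)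
      (Real.sqrt_nonneg _)).trans (le_of_eq (Real.mul_self_sqrt hG0))
  have h3 : √√(δ * B ^ 3) * (B ^ 2 * (B ^ 3 * K ^ 2) ^ q) ≤ G := by
    refine le_of_pow_le_pow_left₀ (n := 4) (by norm_num) hG0 (le_trans (le_of_eq ?_) hδ)
    have h0 : 0 ≤ δ * B ^ 3 := mul_nonneg hn.nonneg (by positivity)
    have e : √√(δ * B ^ 3) ^ 4 = δ * B ^ 3 := by
      rw [show 4 = 2 * 2 from rfl, pow_mul, Real.sq_sqrt (Real.sqrt_nonneg _), Real.sq_sqrt h0]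
    rw [mul_pow, e]
  have h4 : (S.av fun ω x y => A ω x y * (∑ i, α ω x i * β ω y i) ^ q) ≤ K * (2 * G) := by
    have h5 : (S.av fun ω x y => A ω x y * (∑ i, α ω x i * β ω y i) ^ q) ≤
        S.av fun ω x y => K * (n x y * (∑ i, α ω x i * β ω y i) ^ q) :=
      KS.av_mono hS fun ω x y => by
        rw [hA']
        have := mul_le_mul_of_nonneg_left (hF ω x y).2
          (mul_nonneg (hn.nn x y) (hq.pow_nonneg (∑ i, α ω x i * β ω y i)))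
        linarith
    have h6 : (S.av fun ω x y => K * (n x y * (∑ i, α ω x i * β ω y i) ^ q)) =
        K * S.av fun ω x y => n x y * (∑ i, α ω x i * β ω y i) ^ q := by
      simp only [KS.av, ← PS.E_mul_left]
      exact PS.E_congr _ fun _ => PS.E_congr _ fun _ => PS.E_congr _ fun _ => by ring
    rw [h6] at h5
    exact h5.trans (mul_le_mul_of_nonneg_left (by linarith) hK0)
  have hT : (S.av fun ω x y => A ω x y * ∑ i, α ω x i * β ω y i) ≤ κ ^ 3 := by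
    have h5 := PS.jen (S.Ω.prod (X.prod Y))
      (w := fun p => S.ν p.1 p.2.1 * S.ν' p.1 p.2.2 * A p.1 p.2.1 p.2.2)
      (fun p => mul_nonneg (mul_nonneg (hS.1 _ _).1 (hS.2 _ _).1) (hA0 _ _ _))
      (fun p => ∑ i, α p.1 p.2.1 i * β p.1 p.2.2 i) hq (by omega)
    simp only [mul_assoc _ (A _ _ _)] at h5
    rw [← av_prod S A, ← av_prod S fun ω x y => A ω x y * ∑ i, α ω x i * β ω y i,
      ← av_prod S fun ω x y => A ω x y * (∑ i, α ω x i * β ω y i) ^ q] at h5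
    have h6 := KS.av_nonneg hS hA0
    have h7 : S.av A ^ (q - 1) * (S.av fun ω x y => A ω x y * (∑ i, α ω x i * β ω y i) ^ q) ≤
        m ^ (q - 1) * (K * (2 * G)) :=
      mul_le_mul (pow_le_pow_left₀ h6 hm _) h4
        (KS.av_nonneg hS fun ω x y => mul_nonneg (hA0 ω x y) (hq.pow_nonneg _))
        (pow_nonneg (h6.trans hm) _)
    refine le_of_pow_le_pow_left₀ (n := q) (by omega) (by positivity) ?_
    rw [← pow_mul]
    linarith
  intro τ t0 t1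
  have hτ : 0 < τ := hτ₀.trans_le t0
  have hl : 0 < κ / τ ^ 4 := by positivity
  obtain ⟨A', u1, u2, u3⟩ := s4 _ hl
  refine ⟨A', fun ω x y => (u1 ω x y).trans ?_, ?_, ?_⟩
  · have e : B ^ 2 * (B * K) ^ 3 / (κ / τ ^ 4) ^ 2 = B ^ 2 * (B * K) ^ 3 * τ ^ 8 / κ ^ 2 := by
      field_simp
    rw [e]
    exact div_le_div_of_nonneg_right (mul_le_mul_of_nonneg_left (pow_le_pow_left₀ hτ.le t1 8)
      (by positivity)) (by positivity)
  · rw [KS.X0_le_iff (by positivity)]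
    refine u2.trans ((div_le_div_of_nonneg_right hT hl.le).trans (le_of_eq ?_))
    field_simp
  · rw [KS.X1_le_iff (by positivity)]
    refine u3.trans ((mul_le_mul_of_nonneg_left hT hl.le).trans (le_of_eq ?_))
    field_simp

end Vale.Agent.P057Z.St
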