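import Vale.Agent.P057Z.St.Api

/-!
# P057Z, block St: the two norms and the trilinear form
-/

noncomputable section

namespace Vale.Agent.P057Z.St

namespace Xn

open PS

theorem cs3 (P Q R : PS) {w : P.α → Q.α → R.α → ℝ} (hw : ∀ a b c, 0 ≤ w a b c)
    (u v : P.α → Q.α → R.α → ℝ) :
    |P.E fun a => Q.E fun b => R.E fun c => w a b c * (u a b c * v a b c)| ≤
      √(P.E fun a => Q.E fun b => R.E fun c => w a b c * u a b c ^ 2) *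
        √(P.E fun a => Q.E fun b => R.E fun c => w a b c * v a b c ^ 2) := by
  have h := (P.prod (Q.prod R)).cs_abs (w := fun z => w z.1 z.2.1 z.2.2) (fun _ => hw _ _ _)
    (fun z => u z.1 z.2.1 z.2.2) fun z => v z.1 z.2.1 z.2.2
  simpa only [E_prod] using h

theorem swap4 (P Q R T : PS) (F : P.α → Q.α → R.α → T.α → ℝ) :
    (P.E fun a => Q.E fun b => R.E fun c => T.E fun d => F a b c d) =
      R.E fun c => T.E fun d => P.E fun a => Q.E fun b => F a b c d := by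
  have h := (P.prod Q).E_comm (R.prod T) fun p q => F p.1 p.2 q.1 q.2
  simpa only [E_prod] using h

theorem swap3 (P Q R : PS) (F : P.α → Q.α → R.α → ℝ) :
    (P.E fun a => Q.E fun b => R.E fun c => F a b c) =
      Q.E fun b => R.E fun c => P.E fun a => F a b c := by
  have h := P.E_comm (Q.prod R) fun p q => F p q.1 q.2
  simpa only [E_prod] using h

variable {X Y : PS} (S : KS X Y)

/-- the form of degree four -/
def lam (A B C D : S.Ker) : ℝ := S.Ω.E fun ω => X.E fun x => X.E fun x' =>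
  S.ν ω x * S.ν ω x' * ((Y.E fun y => S.ν' ω y * A ω x y * B ω x' y) *
    Y.E fun y => S.ν' ω y * C ω x y * D ω x' y)

theorem mom_eq (A : S.Ker) : S.mom A 2 = lam S A A A A := by
  simp only [KS.mom, lam, sq]

theorem lam_tp (A B C D : S.Ker) : lam S A B C D = lam S.tp (fun ω y x => A ω x y)
    (fun ω y x => C ω x y) (fun ω y x => B ω x y) fun ω y x => D ω x y := by
  refine E_congr _ fun ω => ?_
  simp only [E_mul_E]
  simp only [← E_mul_left]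
  rw [swap4]
  exact E_congr _ fun _ => E_congr _ fun _ => E_congr _ fun _ => E_congr _ fun _ => by ring

theorem mom_tp (A : S.Ker) : S.tp.mom (fun ω y x => A ω x y) 2 = S.mom A 2 := by
  rw [mom_eq, mom_eq, lam_tp S]

theorem X1_tp (A : S.Ker) : S.tp.X1 (fun ω y x => A ω x y) = S.X1 A := by
  rw [KS.X1, KS.X1, mom_tp]

theorem lam_sub (A A' B C D : S.Ker) : lam S (fun ω x y => A ω x y - A' ω x y) B C D =
    lam S A B C D - lam S A' B C D := by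
  simp only [lam, mul_sub, sub_mul, E_sub]

variable {S} {M : ℝ}

theorem lam_cs (h : S.Bd M) (A B C D : S.Ker) :
    |lam S A B C D| ≤ √(lam S A B A B) * √(lam S C D C D) := by
  have h1 := cs3 S.Ω X X (w := fun ω x x' => S.ν ω x * S.ν ω x')
    (fun ω x x' => mul_nonneg (h.1 ω x).1 (h.1 ω x').1)
    (fun ω x x' => Y.E fun y => S.ν' ω y * A ω x y * B ω x' y)
    fun ω x x' => Y.E fun y => S.ν' ω y * C ω x y * D ω x' y
  simpa only [lam, sq] using h1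

theorem lam_two (h : S.Bd M) (A B : S.Ker) : √(lam S A B A B) ≤ S.X1 A * S.X1 B := by
  rw [KS.X1, KS.X1, ← Real.sqrt_mul (Real.sqrt_nonneg _), ← mom_tp S A, ← mom_tp S B, mom_eq,
    mom_eq, lam_tp]
  exact Real.sqrt_le_sqrt ((le_abs_self _).trans (lam_cs h.tp _ _ _ _))

theorem lam_le (h : S.Bd M) (A B C D : S.Ker) :
    |lam S A B C D| ≤ S.X1 A * S.X1 B * (S.X1 C * S.X1 D) :=
  (lam_cs h A B C D).trans (mul_le_mul (lam_two h A B) (lam_two h C D) (Real.sqrt_nonneg _)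
    (mul_nonneg (Real.sqrt_nonneg _) (Real.sqrt_nonneg _)))

theorem X1_pow (h : S.Bd M) (A : S.Ker) : S.X1 A ^ 4 = S.mom A 2 := by
  rw [show 4 = 2 * 2 from rfl, pow_mul, KS.X1, Real.sq_sqrt (Real.sqrt_nonneg _),
    Real.sq_sqrt (KS.mom_nonneg h A even_two)]

theorem x0 (h : S.Bd M) (A A' : S.Ker) :
    S.X0 (fun ω x y => A ω x y - A' ω x y) ≤ S.X0 A + S.X0 A' := by
  have h1 : |S.av fun ω x y => A ω x y * A' ω x y| ≤ S.X0 A * S.X0 A' :=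
    cs3 S.Ω X Y (w := fun ω x y => S.ν ω x * S.ν' ω y)
      (fun ω x y => mul_nonneg (h.1 ω x).1 (h.2 ω y).1) A A'
  have h2 : ∀ A : S.Ker, S.X0 A ^ 2 = S.av fun ω x y => A ω x y ^ 2 := fun A =>
    Real.sq_sqrt (KS.av_nonneg h fun _ _ _ => sq_nonneg _)
  have h3 : (S.av fun ω x y => (A ω x y - A' ω x y) ^ 2) = (S.av fun ω x y => A ω x y ^ 2) -
      2 * (S.av fun ω x y => A ω x y * A' ω x y) + S.av fun ω x y => A' ω x y ^ 2 := by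
    simp only [KS.av, ← E_mul_left, ← E_sub, ← E_add]
    exact E_congr _ fun _ => E_congr _ fun _ => E_congr _ fun _ => by ring
  refine (KS.X0_le_iff (t := S.X0 A + S.X0 A')
    (add_nonneg (Real.sqrt_nonneg _) (Real.sqrt_nonneg _))).2 ?_
  rw [h3, add_sq, h2, h2]
  linarith [neg_abs_le (S.av fun ω x y => A ω x y * A' ω x y)]

theorem x1 (h : S.Bd M) (A A' : S.Ker) :
    S.X1 (fun ω x y => A ω x y - A' ω x y) ≤ S.X1 A + S.X1 A' := by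
  have h1 := X1_pow h fun ω x y => A ω x y - A' ω x y
  rw [mom_eq, lam_sub] at h1
  obtain ⟨R, hR⟩ : ∃ R : S.Ker, R = fun ω x y => A ω x y - A' ω x y := ⟨_, rfl⟩
  rw [← hR] at h1 ⊢
  have h2 := abs_le.1 (lam_le h A R R R)
  have h3 := abs_le.1 (lam_le h A' R R R)
  have h4 : 0 ≤ S.X1 R := Real.sqrt_nonneg _
  rcases h4.eq_or_lt with h5 | h5
  · rw [← h5]
    exact add_nonneg (Real.sqrt_nonneg _) (Real.sqrt_nonneg _)
  · refine le_of_mul_le_mul_right ?_ (pow_pos h5 3)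
    linarith [h2.2, h3.1]

theorem bds (h : S.Bd M) (A : S.Ker) {R : ℝ} (hA : ∀ ω x y, |A ω x y| ≤ R) :
    S.X0 A ≤ M * R ∧ S.X1 A ≤ M * R := by
  obtain ⟨ω⟩ := S.Ω.nonempty
  obtain ⟨x⟩ := X.nonempty
  obtain ⟨y⟩ := Y.nonempty
  have hM : 0 ≤ M := (h.1 ω x).1.trans (h.1 ω x).2
  have hR : 0 ≤ R := (abs_nonneg _).trans (hA ω x y)
  refine ⟨(KS.X0_le_iff (mul_nonneg hM hR)).2 (E_le _ fun ω => E_le _ fun x => E_le _ fun y => ?_),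
    (KS.X1_le_iff (mul_nonneg hM hR)).2 (E_le _ fun ω => E_le _ fun x => E_le _ fun x' => ?_)⟩
  · rw [mul_pow, sq M]
    exact mul_le_mul (mul_le_mul (h.1 ω x).2 (h.2 ω y).2 (h.2 ω y).1 hM)
      (sq_le_sq' (abs_le.1 (hA ω x y)).1 (abs_le.1 (hA ω x y)).2) (sq_nonneg _) (mul_nonneg hM hM)
  · have h1 : |Y.E fun y => S.ν' ω y * A ω x y * A ω x' y| ≤ M * R * R :=
      abs_E_le_of _ fun y => by
        rw [abs_mul, abs_mul, abs_of_nonneg (h.2 ω y).1]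
        exact mul_le_mul (mul_le_mul (h.2 ω y).2 (hA ω x y) (abs_nonneg _) hM) (hA ω x' y)
          (abs_nonneg _) (mul_nonneg hM hR)
    rw [show (M * R) ^ 4 = M * M * (M * R * R) ^ 2 by ring]
    exact mul_le_mul (mul_le_mul (h.1 ω x).2 (h.1 ω x').2 (h.1 ω x').1 hM)
      (sq_le_sq' (abs_le.1 h1).1 (abs_le.1 h1).2) (sq_nonneg _) (mul_nonneg hM hM)

theorem tr1 {Y₁ Y₂ Y₃ Ω : PS} {ν₁ : Ω.α → Y₁.α → ℝ} {ν₂ : Ω.α → Y₂.α → ℝ} {ν₃ : Ω.α → Y₃.α → ℝ}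
    (h₁ : ∀ ω y, 0 ≤ ν₁ ω y) (h₂ : ∀ ω y, 0 ≤ ν₂ ω y) (h₃ : ∀ ω y, 0 ≤ ν₃ ω y)
    (A : Ω.α → Y₂.α → Y₃.α → ℝ) (B : Ω.α → Y₁.α → Y₃.α → ℝ) (C : Ω.α → Y₁.α → Y₂.α → ℝ) :
    |tr ν₁ ν₂ ν₃ A B C| ≤
      (KS.mk Ω ν₂ ν₃).X0 A * (KS.mk Ω ν₁ ν₃).X1 B * (KS.mk Ω ν₁ ν₂).X1 C := by
  have e1 : tr ν₁ ν₂ ν₃ A B C = Ω.E fun ω => Y₂.E fun y₂ => Y₃.E fun y₃ => ν₂ ω y₂ * ν₃ ω y₃ *
      (A ω y₂ y₃ * Y₁.E fun y₁ => ν₁ ω y₁ * B ω y₁ y₃ * C ω y₁ y₂) := by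
    refine E_congr _ fun ω => ?_
    rw [swap3]
    simp only [← E_mul_left]
    exact E_congr _ fun _ => E_congr _ fun _ => E_congr _ fun _ => by ring
  have e2 : (Ω.E fun ω => Y₂.E fun y₂ => Y₃.E fun y₃ => ν₂ ω y₂ * ν₃ ω y₃ *
      (Y₁.E fun y₁ => ν₁ ω y₁ * B ω y₁ y₃ * C ω y₁ y₂) ^ 2) =
      Ω.E fun ω => Y₁.E fun y => Y₁.E fun y' => ν₁ ω y * ν₁ ω y' *
        ((Y₂.E fun y₂ => ν₂ ω y₂ * C ω y y₂ * C ω y' y₂) *
          Y₃.E fun y₃ => ν₃ ω y₃ * B ω y y₃ * B ω y' y₃) := by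
    refine E_congr _ fun ω => ?_
    simp only [sq, E_mul_E]
    simp only [← E_mul_left]
    rw [swap4]
    exact E_congr _ fun _ => E_congr _ fun _ => E_congr _ fun _ => E_congr _ fun _ => by ring
  have h4 := cs3 Ω Y₂ Y₃ (w := fun ω y₂ y₃ => ν₂ ω y₂ * ν₃ ω y₃)
    (fun ω y₂ y₃ => mul_nonneg (h₂ ω y₂) (h₃ ω y₃)) A
    fun ω y₂ y₃ => Y₁.E fun y₁ => ν₁ ω y₁ * B ω y₁ y₃ * C ω y₁ y₂
  have h5 := cs3 Ω Y₁ Y₁ (w := fun ω y y' => ν₁ ω y * ν₁ ω y')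
    (fun ω y y' => mul_nonneg (h₁ ω y) (h₁ ω y'))
    (fun ω y y' => Y₂.E fun y₂ => ν₂ ω y₂ * C ω y y₂ * C ω y' y₂)
    fun ω y y' => Y₃.E fun y₃ => ν₃ ω y₃ * B ω y y₃ * B ω y' y₃
  rw [e2, ← e1] at h4
  refine h4.trans ?_
  rw [mul_assoc]
  refine mul_le_mul_of_nonneg_left ?_ (Real.sqrt_nonneg _)
  rw [KS.X1, KS.X1, mul_comm, ← Real.sqrt_mul (Real.sqrt_nonneg _)]
  exact Real.sqrt_le_sqrt ((le_abs_self _).trans h5)

end Xn

open Xn PS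

theorem xn : XN := fun _ _ S _ A A' h => ⟨x0 h A A', x1 h A A', mom_tp S A, fun _ => bds h A⟩

theorem tr3 : TR3 := by
  intro Y₁ Y₂ Y₃ Ω ν₁ ν₂ ν₃ A B C R h1 h2 _
  have n₁ : ∀ ω y, 0 ≤ ν₁ ω y := fun ω y => (h2.1 ω y).1
  have n₂ : ∀ ω y, 0 ≤ ν₂ ω y := fun ω y => (h1.1 ω y).1
  have n₃ : ∀ ω y, 0 ≤ ν₃ ω y := fun ω y => (h1.2 ω y).1
  refine ⟨tr1 n₁ n₂ n₃ A B C, ?_, ?_⟩
  · have e : tr ν₁ ν₂ ν₃ A B C = tr ν₂ ν₁ ν₃ B A fun ω y₂ y₁ => C ω y₁ y₂ := by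
      refine E_congr _ fun ω => ?_
      rw [E_comm]
      exact E_congr _ fun _ => E_congr _ fun _ => E_congr _ fun _ => by ring
    have h := tr1 n₂ n₁ n₃ B A fun ω y₂ y₁ => C ω y₁ y₂
    rw [← e, X1_tp (KS.mk Ω ν₁ ν₂) C] at h
    exact h.trans_eq (by ring)
  · have e : tr ν₃ ν₁ ν₂ C (fun ω y₃ y₂ => A ω y₂ y₃) (fun ω y₃ y₁ => B ω y₁ y₃) =
        tr ν₁ ν₂ ν₃ A B C := by
      refine E_congr _ fun ω => ?_
      rw [swap3]
      exact E_congr _ fun _ => E_congr _ fun _ => E_congr _ fun _ => by ring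
    have h := tr1 n₃ n₁ n₂ C (fun ω y₃ y₂ => A ω y₂ y₃) fun ω y₃ y₁ => B ω y₁ y₃
    rw [e, X1_tp (KS.mk Ω ν₂ ν₃) A, X1_tp (KS.mk Ω ν₁ ν₃) B] at h
    exact h.trans_eq (by ring)

end Vale.Agent.P057Z.St
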