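import Vale.Agent.P057Z.St.Tools
import Vale.Agent.P057Z.St.Xn
import Vale.Agent.P057Z.St.Spec
import Vale.Agent.P057Z.St.Tri
import Vale.Agent.P057Z.St.Grm
import Vale.Agent.P057Z.St.Ort
import Vale.Agent.P057Z.St.Blk
import Vale.Agent.P057Z.St.Hol
import Vale.Agent.P057Z.St.Iter
import Vale.Agent.P057Z.St.Edge
import Vale.Agent.P057Z.St.Hg

/-!
# P057Z, block St: the lower tail theorem
-/

namespace Vale.Agent.P057Z.St

theorem hg : P057Z.HG :=
  bridge (hg_of (hol_of star (good_of star))
    (edge_of xn (gram_of (spk_of spec) (grm_of opn))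
      (iter_of (block_of cutp (con_of star) (lift_of star) (ort_of star esi) xn))
      gmon (one_of cutp star)) (tri_of xn tr3))

end Vale.Agent.P057Z.St
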