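import Vale.Agent.P057Z.St.Sk

/-!
# P057Z, block St: basic lemmas on finite probability spaces
-/

noncomputable section

namespace Vale.Agent.P057Z.St

namespace PS

variable (P Q : PS)

theorem E_add (F G : P.α → ℝ) : (P.E fun a => F a + G a) = P.E F + P.E G := by
  simp only [E, mul_add, Finset.sum_add_distrib]

theorem E_sub (F G : P.α → ℝ) : (P.E fun a => F a - G a) = P.E F - P.E G := by
  simp only [E, mul_sub, Finset.sum_sub_distrib]

theorem E_neg (F : P.α → ℝ) : (P.E fun a => -F a) = -P.E F := by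
  simp only [E, mul_neg, Finset.sum_neg_distrib]

theorem E_mul_left (c : ℝ) (F : P.α → ℝ) : (P.E fun a => c * F a) = c * P.E F := by
  simp only [E, Finset.mul_sum]
  exact Finset.sum_congr rfl fun a _ => by ring

theorem E_mul_right (c : ℝ) (F : P.α → ℝ) : (P.E fun a => F a * c) = P.E F * c := by
  simp only [E, Finset.sum_mul]
  exact Finset.sum_congr rfl fun a _ => by ring

theorem E_div (c : ℝ) (F : P.α → ℝ) : (P.E fun a => F a / c) = P.E F / c := by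
  simp only [div_eq_mul_inv, E_mul_right]

theorem E_sum {ι : Type*} (s : Finset ι) (F : ι → P.α → ℝ) :
    (P.E fun a => ∑ i ∈ s, F i a) = ∑ i ∈ s, P.E (F i) := by
  simp only [E, Finset.mul_sum]
  exact Finset.sum_comm

theorem E_const (c : ℝ) : (P.E fun _ => c) = c := by
  simp only [E, ← Finset.sum_mul, P.one, one_mul]

theorem E_congr {F G : P.α → ℝ} (h : ∀ a, F a = G a) : P.E F = P.E G := by
  rw [show F = G from funext h]

/-- only points of positive mass matter -/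
theorem E_congr' {F G : P.α → ℝ} (h : ∀ a, P.μ a ≠ 0 → F a = G a) : P.E F = P.E G := by
  refine Finset.sum_congr rfl fun a _ => ?_
  by_cases h0 : P.μ a = 0
  · rw [h0, zero_mul, zero_mul]
  · rw [h a h0]

theorem E_mono {F G : P.α → ℝ} (h : ∀ a, F a ≤ G a) : P.E F ≤ P.E G :=
  Finset.sum_le_sum fun a _ => mul_le_mul_of_nonneg_left (h a) (P.nn a)

theorem E_nonneg {F : P.α → ℝ} (h : ∀ a, 0 ≤ F a) : 0 ≤ P.E F :=
  Finset.sum_nonneg fun a _ => mul_nonneg (P.nn a) (h a)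

theorem E_le {F : P.α → ℝ} {c : ℝ} (h : ∀ a, F a ≤ c) : P.E F ≤ c :=
  (P.E_mono h).trans_eq (P.E_const c)

theorem le_E {F : P.α → ℝ} {c : ℝ} (h : ∀ a, c ≤ F a) : c ≤ P.E F :=
  (P.E_const c).symm.trans_le (P.E_mono h)

theorem abs_E_le (F : P.α → ℝ) : |P.E F| ≤ P.E fun a => |F a| := by
  refine (Finset.abs_sum_le_sum_abs _ _).trans_eq (Finset.sum_congr rfl fun a _ => ?_)
  rw [abs_mul, abs_of_nonneg (P.nn a)]

theorem abs_E_le_of {F : P.α → ℝ} {c : ℝ} (h : ∀ a, |F a| ≤ c) : |P.E F| ≤ c :=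
  (P.abs_E_le F).trans (P.E_le h)

theorem nonempty : Nonempty P.α := by
  by_contra h
  have := not_nonempty_iff.mp h
  have h1 := P.one
  simp at h1

/-- some point is at most the mean -/
theorem exists_le_E (F : P.α → ℝ) : ∃ a, F a ≤ P.E F := by
  have := P.nonempty
  obtain ⟨a, -, ha⟩ := Finset.exists_min_image Finset.univ F Finset.univ_nonempty
  exact ⟨a, P.le_E fun b => ha b (Finset.mem_univ b)⟩

theorem E_prod (F : (P.prod Q).α → ℝ) : (P.prod Q).E F = P.E fun a => Q.E fun b => F (a, b) := by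
  simp only [E, Finset.mul_sum]
  exact (Fintype.sum_prod_type _).trans
    (Finset.sum_congr rfl fun a _ => Finset.sum_congr rfl fun b _ => mul_assoc _ _ _)

theorem E_comm (F : P.α → Q.α → ℝ) :
    (P.E fun a => Q.E fun b => F a b) = Q.E fun b => P.E fun a => F a b := by
  simp only [E, Finset.mul_sum]
  rw [Finset.sum_comm]
  exact Finset.sum_congr rfl fun a _ => Finset.sum_congr rfl fun b _ => by ring

theorem E_mul_E (F : P.α → ℝ) (G : Q.α → ℝ) :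
    P.E F * Q.E G = P.E fun a => Q.E fun b => F a * G b := by
  simp only [E_mul_left, E_mul_right]

theorem E_sq (F : P.α → ℝ) : P.E F ^ 2 = P.E fun a => P.E fun b => F a * F b := by
  rw [sq, E_mul_E]

theorem E_pow_prod (N : ℕ) (F : Fin N → P.α → ℝ) :
    ((P.pow N).E fun w => ∏ l, F l (w l)) = ∏ l, P.E (F l) := by
  simp only [E, pow, ← Finset.prod_mul_distrib]
  rw [Finset.prod_univ_sum, Fintype.piFinset_univ]

theorem E_pow (N : ℕ) (F : P.α → ℝ) : P.E F ^ N = (P.pow N).E fun w => ∏ l, F (w l) := by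
  rw [P.E_pow_prod N fun _ => F, Finset.prod_const, Finset.card_univ, Fintype.card_fin]

/-- measure preserving bijections -/
theorem E_equiv (e : P.α ≃ Q.α) (he : ∀ a, Q.μ (e a) = P.μ a) (F : Q.α → ℝ) :
    (P.E fun a => F (e a)) = Q.E F := by
  simp only [E, ← he]
  exact e.sum_comp fun b => Q.μ b * F b

theorem E_pow_succ (N : ℕ) (j : Fin (N + 1)) (F : (P.pow (N + 1)).α → ℝ) :
    (P.pow (N + 1)).E F = P.E fun v => (P.pow N).E fun w => F (Fin.insertNth j v w) := by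
  rw [← E_prod P (P.pow N) fun z => F (Fin.insertNth j z.1 z.2)]
  refine (E_equiv (P.prod (P.pow N)) (P.pow (N + 1))
    (Fin.insertNthEquiv (fun _ => P.α) j) (fun z => ?_) F).symm
  show ∏ i, P.μ (Fin.insertNth (α := fun _ => P.α) j z.1 z.2 i) = P.μ z.1 * ∏ i, P.μ (z.2 i)
  rw [Fin.prod_univ_succAbove _ j]
  simp

theorem E_pow_cons (N : ℕ) (F : (P.pow (N + 1)).α → ℝ) :
    (P.pow (N + 1)).E F = P.E fun v => (P.pow N).E fun w => F (Fin.cons v w) := by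
  rw [P.E_pow_succ N 0 F]
  simp only [Fin.insertNth_zero']

theorem E_pow_zero (F : (P.pow 0).α → ℝ) : (P.pow 0).E F = F Fin.elim0 := by
  rw [← (P.pow 0).E_const (F Fin.elim0)]
  exact E_congr _ fun a => congrArg F (funext fun i => i.elim0)

/-- weighted Cauchy-Schwarz -/
theorem cs {w : P.α → ℝ} (hw : ∀ a, 0 ≤ w a) (u v : P.α → ℝ) :
    (P.E fun a => w a * (u a * v a)) ^ 2 ≤
      (P.E fun a => w a * u a ^ 2) * P.E fun a => w a * v a ^ 2 := by
  refine Finset.sum_sq_le_sum_mul_sum_of_sq_le_mul _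
    (fun a _ => mul_nonneg (P.nn a) (mul_nonneg (hw a) (sq_nonneg _)))
    (fun a _ => mul_nonneg (P.nn a) (mul_nonneg (hw a) (sq_nonneg _))) fun a _ => le_of_eq ?_
  ring

theorem cs_abs {w : P.α → ℝ} (hw : ∀ a, 0 ≤ w a) (u v : P.α → ℝ) :
    |P.E fun a => w a * (u a * v a)| ≤
      √(P.E fun a => w a * u a ^ 2) * √(P.E fun a => w a * v a ^ 2) := by
  rw [← Real.sqrt_mul (P.E_nonneg fun a => mul_nonneg (hw a) (sq_nonneg _))]
  exact Real.abs_le_sqrt (P.cs hw u v)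

/-- Jensen for an even power and a weight -/
theorem jen {w : P.α → ℝ} (hw : ∀ a, 0 ≤ w a) (x : P.α → ℝ) {q : ℕ} (hq : Even q) (h1 : 1 ≤ q) :
    (P.E fun a => w a * x a) ^ q ≤ P.E w ^ (q - 1) * P.E fun a => w a * x a ^ q := by
  have h0 : 0 ≤ P.E w := P.E_nonneg hw
  rcases h0.eq_or_lt with h | h
  · have hz : ∀ a, P.μ a * w a = 0 := fun a =>
      (Finset.sum_eq_zero_iff_of_nonneg fun a _ => mul_nonneg (P.nn a) (hw a)).mp h.symm a
        (Finset.mem_univ a)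
    have e1 : (P.E fun a => w a * x a) = 0 :=
      Finset.sum_eq_zero fun a _ => by rw [← mul_assoc, hz, zero_mul]
    rw [e1, zero_pow (by omega)]
    exact mul_nonneg (pow_nonneg h0 _) (P.E_nonneg fun a => mul_nonneg (hw a) (hq.pow_nonneg _))
  · have hJ := (hq.convexOn_pow (𝕜 := ℝ)).map_sum_le (t := Finset.univ)
      (w := fun a => P.μ a * w a / P.E w) (p := x)
      (fun a _ => div_nonneg (mul_nonneg (P.nn a) (hw a)) h0)
      (by rw [← Finset.sum_div]; exact div_self h.ne') (fun a _ => Set.mem_univ _)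
    have e1 : ∑ a, (P.μ a * w a / P.E w) • x a = (P.E fun a => w a * x a) / P.E w := by
      rw [E, E, Finset.sum_div]
      exact Finset.sum_congr rfl fun a _ => by rw [smul_eq_mul]; ring
    have e2 : ∑ a, (P.μ a * w a / P.E w) • x a ^ q = (P.E fun a => w a * x a ^ q) / P.E w := by
      rw [E, E, Finset.sum_div]
      exact Finset.sum_congr rfl fun a _ => by rw [smul_eq_mul]; ring
    rw [e1, e2, div_pow, div_le_div_iff₀ (pow_pos h q) h] at hJ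
    obtain ⟨r, rfl⟩ : ∃ r, q = r + 1 := ⟨q - 1, by omega⟩
    rw [Nat.add_sub_cancel]
    refine le_of_mul_le_mul_right (hJ.trans_eq ?_) h
    ring

end PS

variable {X Y W : PS}

theorem Cut.nonneg {n : X.α → Y.α → ℝ} {M δ : ℝ} (h : Cut n M δ) : 0 ≤ δ :=
  (abs_nonneg _).trans (h.cut (fun _ => 0) (fun _ => 0) (by simp) (by simp))

theorem Cut.mono {n : X.α → Y.α → ℝ} {M δ M' δ' : ℝ} (h : Cut n M δ) (hM : M ≤ M')
    (hδ : δ ≤ δ') : Cut n M' δ' :=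
  ⟨h.nn, fun x y => (h.le x y).trans hM, fun u v hu hv => (h.cut u v hu hv).trans hδ⟩

theorem Cut.tp {n : X.α → Y.α → ℝ} {M δ : ℝ} (h : Cut n M δ) : Cut (fun y x => n x y) M δ := by
  refine ⟨fun y x => h.nn x y, fun y x => h.le x y, fun u v hu hv => ?_⟩
  rw [PS.E_comm]
  refine le_of_eq_of_le ?_ (h.cut v u hv hu)
  exact congrArg _ (PS.E_congr _ fun x => PS.E_congr _ fun y => by ring)

/-- the cut norm with general bounds -/
theorem Cut.cut' {n : X.α → Y.α → ℝ} {M δ : ℝ} (h : Cut n M δ) {u : X.α → ℝ} {v : Y.α → ℝ}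
    {U V : ℝ} (hU : 0 < U) (hV : 0 < V) (hu : ∀ x, |u x| ≤ U) (hv : ∀ y, |v y| ≤ V) :
    |X.E fun x => Y.E fun y => u x * v y * (n x y - 1)| ≤ U * V * δ := by
  have h1 := h.cut (fun x => u x / U) (fun y => v y / V)
    (fun x => by rw [abs_div, abs_of_pos hU, div_le_one hU]; exact hu x)
    (fun y => by rw [abs_div, abs_of_pos hV, div_le_one hV]; exact hv y)
  have e : (X.E fun x => Y.E fun y => u x * v y * (n x y - 1)) =
      U * V * X.E fun x => Y.E fun y => u x / U * (v y / V) * (n x y - 1) := by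
    rw [← PS.E_mul_left]
    refine PS.E_congr _ fun x => ?_
    rw [← PS.E_mul_left]
    exact PS.E_congr _ fun y => by field_simp
  rw [e, abs_mul, abs_of_pos (mul_pos hU hV)]
  exact mul_le_mul_of_nonneg_left h1 (mul_pos hU hV).le

theorem Cut.mean_le {n : X.α → Y.α → ℝ} {M δ : ℝ} (h : Cut n M δ) :
    |(X.E fun x => Y.E fun y => n x y) - 1| ≤ δ := by
  have h1 := h.cut (fun _ => 1) (fun _ => 1) (by simp) (by simp)
  simpa only [one_mul, PS.E_sub, PS.E_const] using h1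

theorem pw_nonneg {a : X.α → W.α → ℝ} (h : ∀ x w, 0 ≤ a x w) (N : ℕ) (x : X.α)
    (w : (W.pow N).α) : 0 ≤ pw a N x w := Finset.prod_nonneg fun _ _ => h _ _

theorem pw_le {a : X.α → W.α → ℝ} {M : ℝ} (h : ∀ x w, 0 ≤ a x w) (h' : ∀ x w, a x w ≤ M) (N : ℕ)
    (x : X.α) (w : (W.pow N).α) : pw a N x w ≤ M ^ N := by
  refine (Finset.prod_le_prod (fun _ _ => h _ _) fun _ _ => h' _ _).trans_eq ?_
  rw [Finset.prod_const, Finset.card_univ, Fintype.card_fin]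

theorem pw_insertNth (a : X.α → W.α → ℝ) (N : ℕ) (j : Fin (N + 1)) (x : X.α) (v : W.α)
    (w : (W.pow N).α) : pw a (N + 1) x (Fin.insertNth j v w) = a x v * pw a N x w := by
  unfold pw
  rw [Fin.prod_univ_succAbove _ j]
  simp

namespace KS

variable {S T : KS X Y}

theorem Bd.mono {B B' : ℝ} (h : S.Bd B) (hB : B ≤ B') : S.Bd B' :=
  ⟨fun ω x => ⟨(h.1 ω x).1, (h.1 ω x).2.trans hB⟩, fun ω y => ⟨(h.2 ω y).1, (h.2 ω y).2.trans hB⟩⟩

theorem Bd.tp {B : ℝ} (h : S.Bd B) : S.tp.Bd B := ⟨h.2, h.1⟩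

theorem Bd.ext {B H : ℝ} (h : S.Bd B) {a : X.α → W.α → ℝ} {b : Y.α → W.α → ℝ}
    (ha : ∀ x w, 0 ≤ a x w ∧ a x w ≤ H) (hb : ∀ y w, 0 ≤ b y w ∧ b y w ≤ H) :
    (S.ext W a b).Bd (B * H) :=
  ⟨fun ω x => ⟨mul_nonneg (h.1 _ x).1 (ha x _).1, mul_le_mul (h.1 _ x).2 (ha x _).2 (ha x _).1
    ((h.1 ω.1 x).1.trans (h.1 _ x).2)⟩, fun ω y => ⟨mul_nonneg (h.2 _ y).1 (hb y _).1,
    mul_le_mul (h.2 _ y).2 (hb y _).2 (hb y _).1 ((h.2 ω.1 y).1.trans (h.2 _ y).2)⟩⟩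

theorem mom_nonneg {B : ℝ} (h : S.Bd B) (A : S.Ker) {q : ℕ} (hq : Even q) : 0 ≤ S.mom A q :=
  PS.E_nonneg _ fun _ => PS.E_nonneg _ fun _ => PS.E_nonneg _ fun _ =>
    mul_nonneg (mul_nonneg (h.1 _ _).1 (h.1 _ _).1) (hq.pow_nonneg _)

theorem av_mono {B : ℝ} (h : S.Bd B) {A A' : S.Ker} (hA : ∀ ω x y, A ω x y ≤ A' ω x y) :
    S.av A ≤ S.av A' :=
  PS.E_mono _ fun _ => PS.E_mono _ fun _ => PS.E_mono _ fun _ =>
    mul_le_mul_of_nonneg_left (hA _ _ _) (mul_nonneg (h.1 _ _).1 (h.2 _ _).1)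

theorem av_nonneg {B : ℝ} (h : S.Bd B) {A : S.Ker} (hA : ∀ ω x y, 0 ≤ A ω x y) : 0 ≤ S.av A :=
  PS.E_nonneg _ fun _ => PS.E_nonneg _ fun _ => PS.E_nonneg _ fun _ =>
    mul_nonneg (mul_nonneg (h.1 _ _).1 (h.2 _ _).1) (hA _ _ _)

theorem X0_le_iff {A : S.Ker} {t : ℝ} (ht : 0 ≤ t) :
    S.X0 A ≤ t ↔ (S.av fun ω x y => A ω x y ^ 2) ≤ t ^ 2 := Real.sqrt_le_left ht

theorem X1_le_iff {A : S.Ker} {t : ℝ} (ht : 0 ≤ t) : S.X1 A ≤ t ↔ S.mom A 2 ≤ t ^ 4 := by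
  rw [X1, Real.sqrt_le_left ht, Real.sqrt_le_left (sq_nonneg t), ← pow_mul]

theorem Wd.mono {A : S.Ker} {κ R R' τ₀ τ₁ : ℝ} (h : S.Wd A κ R τ₀ τ₁) (hR : R ≤ R') :
    S.Wd A κ R' τ₀ τ₁ := fun τ h0 h1 => by
  obtain ⟨A', b, c⟩ := h τ h0 h1
  exact ⟨A', fun ω x y => (b ω x y).trans hR, c⟩

/-- isomorphisms of settings -/
structure Iso (S T : KS X Y) where
  e : S.Ω.α ≃ T.Ω.α
  μ : ∀ ω, T.Ω.μ (e ω) = S.Ω.μ ω
  ν : ∀ ω x, T.ν (e ω) x = S.ν ω x
  ν' : ∀ ω y, T.ν' (e ω) y = S.ν' ω y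

theorem Iso.av (i : Iso S T) (A : T.Ker) : S.av (fun ω => A (i.e ω)) = T.av A := by
  rw [KS.av, KS.av, ← PS.E_equiv _ _ i.e i.μ]
  simp only [i.ν, i.ν']

theorem Iso.mom (i : Iso S T) (A : T.Ker) (q : ℕ) :
    S.mom (fun ω => A (i.e ω)) q = T.mom A q := by
  rw [KS.mom, KS.mom, ← PS.E_equiv _ _ i.e i.μ]
  simp only [i.ν, i.ν']

theorem Iso.Wd (i : Iso S T) {A : T.Ker} {A₀ : S.Ker} (hA : ∀ ω x y, A₀ ω x y = A (i.e ω) x y)
    {κ R τ₀ τ₁ : ℝ} (h : T.Wd A κ R τ₀ τ₁) : S.Wd A₀ κ R τ₀ τ₁ := fun τ h0 h1 => by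
  obtain ⟨A', b, c, d⟩ := h τ h0 h1
  refine ⟨fun ω => A' (i.e ω), fun ω x y => b _ x y, ?_, ?_⟩
  · rw [X0, i.av fun ω x y => A' ω x y ^ 2]
    exact c
  · simp only [hA]
    rw [X1, i.mom fun ω x y => A ω x y - A' ω x y]
    exact d

end KS

end Vale.Agent.P057Z.St
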