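import Mathlib

/-!
# P057Z, block St (the lower tail): definitions
-/

noncomputable section

namespace Vale.Agent.P057Z.St

/-- finite probability spaces -/
structure PS : Type 1 where
  α : Type
  [fin : Fintype α]
  μ : α → ℝ
  nn : ∀ a, 0 ≤ μ a
  one : ∑ a, μ a = 1

attribute [instance] PS.fin

namespace PS

/-- expectation -/
def E (P : PS) (F : P.α → ℝ) : ℝ := ∑ a, P.μ a * F a

/-- the product of two spaces -/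
@[reducible] def prod (P Q : PS) : PS where
  α := P.α × Q.α
  μ a := P.μ a.1 * Q.μ a.2
  nn a := mul_nonneg (P.nn _) (Q.nn _)
  one := by rw [Fintype.sum_prod_type, ← Finset.sum_mul_sum, P.one, Q.one, one_mul]

/-- powers -/
@[reducible] def pow (P : PS) (N : ℕ) : PS where
  α := Fin N → P.α
  μ a := ∏ i, P.μ (a i)
  nn a := Finset.prod_nonneg fun _ _ => P.nn _
  one := by rw [← Fintype.sum_pow, P.one, one_pow]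

/-- the probability of an event -/
def Pr (P : PS) (s : P.α → Prop) : ℝ := open Classical in P.E fun a => if s a then 1 else 0

end PS

variable {X Y W : PS}

/-- edge weights with values in `[0, M]` which are close to `1` in the cut norm -/
structure Cut (n : X.α → Y.α → ℝ) (M δ : ℝ) : Prop where
  nn : ∀ x y, 0 ≤ n x y
  le : ∀ x y, n x y ≤ M
  cut : ∀ (u : X.α → ℝ) (v : Y.α → ℝ), (∀ x, |u x| ≤ 1) → (∀ y, |v y| ≤ 1) →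
    |X.E fun x => Y.E fun y => u x * v y * (n x y - 1)| ≤ δ

/-- upper bound for the slices in the direction `W` -/
def Slice (a : X.α → W.α → ℝ) (b : Y.α → W.α → ℝ) (f : X.α → Y.α → W.α → ℝ) (e δ : ℝ) : Prop :=
  ∀ x y, (W.E fun w => a x w * b y w * f x y w) ≤ (1 + e) * (W.E fun w => a x w * b y w) + δ

/-- the mean on a weighted triangle -/
def mean (n : X.α → Y.α → ℝ) (a : X.α → W.α → ℝ) (b : Y.α → W.α → ℝ)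
    (f : X.α → Y.α → W.α → ℝ) : ℝ :=
  X.E fun x => Y.E fun y => W.E fun w => n x y * a x w * b y w * f x y w

/-- the grid with two copies of `x`, `q` copies of `y`, `N` copies of `w` -/
def grid (n : X.α → Y.α → ℝ) (a : X.α → W.α → ℝ) (b : Y.α → W.α → ℝ)
    (f : X.α → Y.α → W.α → ℝ) (N q : ℕ) : ℝ :=
  (W.pow N).E fun w => (Y.pow q).E fun y => (∏ i, ∏ l, b (y i) (w l)) *
    (X.E fun x => (∏ l, a x (w l)) * (∏ i, n x (y i)) * ∏ i, ∏ l, f x (y i) (w l)) ^ 2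

/-- one of the two grids of a triangle is large -/
def Big (n : X.α → Y.α → ℝ) (a : X.α → W.α → ℝ) (b : Y.α → W.α → ℝ)
    (f : X.α → Y.α → W.α → ℝ) (N q : ℕ) (t : ℝ) : Prop :=
  t ≤ grid n a b f N q ∨ t ≤ grid (fun y x => n x y) b a (fun y x w => f x y w) N q

/-- the data on four vertex classes -/
structure K4 : Type 1 where
  (Y₁ Y₂ Y₃ Y₄ : PS)
  n₁₂ : Y₁.α → Y₂.α → ℝ
  n₁₃ : Y₁.α → Y₃.α → ℝ
  n₁₄ : Y₁.α → Y₄.α → ℝ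
  n₂₃ : Y₂.α → Y₃.α → ℝ
  n₂₄ : Y₂.α → Y₄.α → ℝ
  n₃₄ : Y₃.α → Y₄.α → ℝ
  f₁ : Y₂.α → Y₃.α → Y₄.α → ℝ
  f₂ : Y₁.α → Y₃.α → Y₄.α → ℝ
  f₃ : Y₁.α → Y₂.α → Y₄.α → ℝ
  f₄ : Y₁.α → Y₂.α → Y₃.α → ℝ

/-- one face: `f` has values in `[0, K]`, mean at least `1 - e`, bounded slices along `W` -/
structure Face (n : X.α → Y.α → ℝ) (a : X.α → W.α → ℝ) (b : Y.α → W.α → ℝ)
    (f : X.α → Y.α → W.α → ℝ) (K M e δ : ℝ) : Prop where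
  cn : Cut n M δ
  ca : Cut a M δ
  cb : Cut b M δ
  nn : ∀ x y w, 0 ≤ f x y w
  le : ∀ x y w, f x y w ≤ K
  mean : 1 - e ≤ mean n a b f
  slice : Slice a b f e δ

/-- the weighted number of copies of `K₄` -/
def K4.count (D : K4) : ℝ := D.Y₁.E fun y₁ => D.Y₂.E fun y₂ => D.Y₃.E fun y₃ => D.Y₄.E fun y₄ =>
  D.n₁₂ y₁ y₂ * D.n₁₃ y₁ y₃ * D.n₂₃ y₂ y₃ * D.f₄ y₁ y₂ y₃ * (D.n₁₄ y₁ y₄ * D.n₂₄ y₂ y₄ *
    D.n₃₄ y₃ y₄ * (D.f₁ y₂ y₃ y₄ * D.f₂ y₁ y₃ y₄ * D.f₃ y₁ y₂ y₄))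

/-- the hypotheses of the lower tail theorem -/
structure K4.Ok (D : K4) (K M e δ : ℝ) : Prop where
  F₁ : Face D.n₂₃ D.n₂₄ D.n₃₄ D.f₁ K M e δ
  F₂ : Face D.n₁₃ D.n₁₄ D.n₃₄ D.f₂ K M e δ
  F₃ : Face D.n₁₂ D.n₁₄ D.n₂₄ D.f₃ K M e δ
  F₄ : Face D.n₁₂ D.n₁₃ D.n₂₃ D.f₄ K M e δ
  s₂ : Slice D.n₁₂ (fun y₃ y₂ => D.n₂₃ y₂ y₃) (fun y₁ y₃ y₂ => D.f₄ y₁ y₂ y₃) e δ
  s₁ : Slice (fun y₂ y₁ => D.n₁₂ y₁ y₂) (fun y₃ y₁ => D.n₁₃ y₁ y₃)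
    (fun y₂ y₃ y₁ => D.f₄ y₁ y₂ y₃) e δ
  few : D.count ≤ e

/-- **HG**: few copies of `K₄` give a large grid -/
def HG : Prop := ∃ e₀ e₁ C : ℝ, 0 < e₀ ∧ 0 < e₁ ∧ e₁ ≤ 1 ∧ ∀ x : ℝ, C ≤ x → ∃ N q : ℕ,
  1 ≤ N ∧ 1 ≤ q ∧ (N : ℝ) ≤ x ^ 2 ∧ (q : ℝ) ≤ x ^ 2 ∧ 100 ≤ e₁ * N ∧
    ∀ (y δ : ℝ) (D : K4), x ≤ y →
    y ≤ Real.exp x → δ ≤ Real.exp (-y ^ 6) → D.Ok (Real.exp x) (Real.exp y) e₀ δ →
    Big D.n₂₃ D.n₂₄ D.n₃₄ D.f₁ N q ((1 + e₁) ^ (2 * q * N)) ∨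
    Big D.n₁₃ D.n₁₄ D.n₃₄ D.f₂ N q ((1 + e₁) ^ (2 * q * N)) ∨
    Big D.n₁₂ D.n₁₄ D.n₂₄ D.f₃ N q ((1 + e₁) ^ (2 * q * N))

/-! ### kernels -/

/-- kernels on `X × Y` with a parameter, and vertex weights -/
structure KS (X Y : PS) : Type 1 where
  Ω : PS
  ν : Ω.α → X.α → ℝ
  ν' : Ω.α → Y.α → ℝ

namespace KS

variable (S : KS X Y)

/-- kernels -/
abbrev Ker : Type := S.Ω.α → X.α → Y.α → ℝ

/-- the weights are in `[0, B]` -/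
def Bd (B : ℝ) : Prop := (∀ ω x, 0 ≤ S.ν ω x ∧ S.ν ω x ≤ B) ∧ ∀ ω y, 0 ≤ S.ν' ω y ∧ S.ν' ω y ≤ B

/-- the transposed setting -/
@[reducible] def tp : KS Y X := ⟨S.Ω, S.ν', S.ν⟩

/-- the weighted mean -/
def av (A : S.Ker) : ℝ := S.Ω.E fun ω => X.E fun x => Y.E fun y => S.ν ω x * S.ν' ω y * A ω x y

/-- the moments of `A A^*` -/
def mom (A : S.Ker) (q : ℕ) : ℝ := S.Ω.E fun ω => X.E fun x => X.E fun x' =>
  S.ν ω x * S.ν ω x' * (Y.E fun y => S.ν' ω y * A ω x y * A ω x' y) ^ q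

/-- the norm of `L²(S₂)` -/
def X0 (A : S.Ker) : ℝ := √(S.av fun ω x y => A ω x y ^ 2)

/-- the norm of `L⁴(S₄)` -/
def X1 (A : S.Ker) : ℝ := √√(S.mom A 2)

/-- one more parameter -/
@[reducible] def ext (W : PS) (a : X.α → W.α → ℝ) (b : Y.α → W.α → ℝ) : KS X Y :=
  ⟨S.Ω.prod W, fun ω x => S.ν ω.1 x * a x ω.2, fun ω y => S.ν' ω.1 y * b y ω.2⟩

/-- decompositions on all levels between `τ₀` and `τ₁` -/
def Wd (A : S.Ker) (κ R τ₀ τ₁ : ℝ) : Prop := ∀ τ, τ₀ ≤ τ → τ ≤ τ₁ → ∃ A' : S.Ker,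
  (∀ ω x y, |A' ω x y| ≤ R) ∧ S.X0 A' ≤ κ * τ ^ 2 ∧
    S.X1 (fun ω x y => A ω x y - A' ω x y) ≤ κ / τ

end KS

/-- weights on powers -/
def pw (a : X.α → W.α → ℝ) (N : ℕ) : X.α → (W.pow N).α → ℝ := fun x w => ∏ l, a x (w l)

/-- the setting with `N` columns -/
@[reducible] def cols (a : X.α → W.α → ℝ) (b : Y.α → W.α → ℝ) (N : ℕ) : KS X Y :=
  ⟨W.pow N, fun w x => pw a N x w, fun w y => pw b N y w⟩

/-- integration of the last parameter -/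
def ce {S : KS X Y} (a : X.α → W.α → ℝ) (b : Y.α → W.α → ℝ) (G : (S.ext W a b).Ker) : S.Ker :=
  fun ω x y => W.E fun w => a x w * b y w * G (ω, w) x y

/-- integration of all the columns of a block but one -/
def sl {S : KS X Y} (a : X.α → W.α → ℝ) (b : Y.α → W.α → ℝ) {M : ℕ} (j : Fin (M + 1))
    (G : (S.ext (W.pow (M + 1)) (pw a _) (pw b _)).Ker) : (S.ext W a b).Ker :=
  fun ω x y => (W.pow M).E fun w => pw a M x w * pw b M y w *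
    G (ω.1, Fin.insertNth j ω.2 w) x y

/-- the trilinear form -/
def tr {Y₁ Y₂ Y₃ Ω : PS} (ν₁ : Ω.α → Y₁.α → ℝ) (ν₂ : Ω.α → Y₂.α → ℝ) (ν₃ : Ω.α → Y₃.α → ℝ)
    (A : Ω.α → Y₂.α → Y₃.α → ℝ) (B : Ω.α → Y₁.α → Y₃.α → ℝ) (C : Ω.α → Y₁.α → Y₂.α → ℝ) : ℝ :=
  Ω.E fun ω => Y₁.E fun y₁ => Y₂.E fun y₂ => Y₃.E fun y₃ =>
    ν₁ ω y₁ * ν₂ ω y₂ * ν₃ ω y₃ * (A ω y₂ y₃ * B ω y₁ y₃ * C ω y₁ y₂)

/-- `f - 1` or `1` -/
def sel (s : Bool) (f : X.α → Y.α → W.α → ℝ) : X.α → Y.α → W.α → ℝ :=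
  fun x y w => if s then f x y w - 1 else 1

/-- `g` is a normalisation of `f` on the good edges `γ` -/
structure Nm (a : X.α → W.α → ℝ) (b : Y.α → W.α → ℝ) (f g : X.α → Y.α → W.α → ℝ)
    (γ : X.α → Y.α → ℝ) (e : ℝ) : Prop where
  zo : ∀ x y, γ x y = 0 ∨ γ x y = 1
  nn : ∀ x y w, 0 ≤ g x y w
  le : ∀ x y w, g x y w ≤ (1 + e) * f x y w
  one : ∀ x y, γ x y = 1 → (W.E fun w => a x w * b y w * g x y w) = 1

/-- the lifted kernel -/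
def lift (n γ : X.α → Y.α → ℝ) (a : X.α → W.α → ℝ) (b : Y.α → W.α → ℝ)
    (g : X.α → Y.α → W.α → ℝ) (N : ℕ) : (cols a b N).Ker :=
  fun w x y => n x y * (γ x y * ∏ l, g x y (w l))

end Vale.Agent.P057Z.St
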