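import Vale.Agent.P057Z.St.Defs

/-!
# P057Z, block St (the lower tail): statements
-/

open Matrix

noncomputable section

namespace Vale.Agent.P057Z.St

/-- **CUTP**: powers of edge weights -/
def CUTP : Prop := ∀ (X W : PS) (a : X.α → W.α → ℝ) (M δ : ℝ) (N : ℕ), 1 ≤ M → Cut a M δ →
  Cut (pw a N) (M ^ N) (N * M ^ N * δ)

/-- **STAR**: degrees and codegrees -/
def STAR : Prop := ∀ (X Y Z W : PS) (a : X.α → W.α → ℝ) (b : Y.α → W.α → ℝ) (c : Z.α → W.α → ℝ)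
  (M δ : ℝ), 1 ≤ M → Cut a M δ → Cut b M δ → Cut c M δ →
  (X.E fun x => |(W.E fun w => a x w) - 1|) ≤ δ ∧
  (X.E fun x => Y.E fun y => |(W.E fun w => a x w * b y w) - 1|) ≤ 2 * M * δ ∧
  (X.E fun x => Y.E fun y => Z.E fun z => |(W.E fun w => a x w * b y w * c z w) - 1|) ≤
    3 * M ^ 2 * δ ∧
  (X.E fun x => X.E fun x' => Y.E fun y => Y.E fun y' =>
    |(W.E fun w => a x w * a x' w * b y w * b y' w) - 1|) ≤ 4 * M ^ 3 * δ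

/-- **OPN**: the operator norm of `n - 1` -/
def OPN : Prop := ∀ (X Y : PS) (n : X.α → Y.α → ℝ) (B δ : ℝ) (u : X.α → ℝ) (v : Y.α → ℝ), 1 ≤ B →
  Cut n B δ → |X.E fun x => Y.E fun y => u x * v y * (n x y - 1)| ≤
    √√(δ * B ^ 3) * √(X.E fun x => u x ^ 2) * √(Y.E fun y => v y ^ 2)

/-- **XN**: the two norms -/
def XN : Prop := ∀ (X Y : PS) (S : KS X Y) (B : ℝ) (A A' : S.Ker), S.Bd B →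
  S.X0 (fun ω x y => A ω x y - A' ω x y) ≤ S.X0 A + S.X0 A' ∧
  S.X1 (fun ω x y => A ω x y - A' ω x y) ≤ S.X1 A + S.X1 A' ∧
  S.tp.mom (fun ω y x => A ω x y) 2 = S.mom A 2 ∧
  ∀ R, (∀ ω x y, |A ω x y| ≤ R) → S.X0 A ≤ B * R ∧ S.X1 A ≤ B * R

/-- a statement on three kernels -/
def For3 (P : ∀ (Y₁ Y₂ Y₃ Ω : PS) (ν₁ : Ω.α → Y₁.α → ℝ) (ν₂ : Ω.α → Y₂.α → ℝ) (ν₃ : Ω.α → Y₃.α → ℝ),
    (KS.mk Ω ν₂ ν₃).Ker → (KS.mk Ω ν₁ ν₃).Ker → (KS.mk Ω ν₁ ν₂).Ker → Prop) : Prop :=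
  ∀ Y₁ Y₂ Y₃ Ω ν₁ ν₂ ν₃ A B C (R : ℝ), (KS.mk Ω ν₂ ν₃).Bd R → (KS.mk Ω ν₁ ν₃).Bd R →
    (KS.mk Ω ν₁ ν₂).Bd R → P Y₁ Y₂ Y₃ Ω ν₁ ν₂ ν₃ A B C

/-- **TR3**: Cauchy-Schwarz bounds for the trilinear form -/
def TR3 : Prop := For3 fun _ _ _ Ω ν₁ ν₂ ν₃ A B C =>
  |tr ν₁ ν₂ ν₃ A B C| ≤ (KS.mk Ω ν₂ ν₃).X0 A * (KS.mk Ω ν₁ ν₃).X1 B * (KS.mk Ω ν₁ ν₂).X1 C ∧
  |tr ν₁ ν₂ ν₃ A B C| ≤ (KS.mk Ω ν₂ ν₃).X1 A * (KS.mk Ω ν₁ ν₃).X0 B * (KS.mk Ω ν₁ ν₂).X1 C ∧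
  |tr ν₁ ν₂ ν₃ A B C| ≤ (KS.mk Ω ν₂ ν₃).X1 A * (KS.mk Ω ν₁ ν₃).X1 B * (KS.mk Ω ν₁ ν₂).X0 C

/-- decompositions on the levels `τ, 2 τ, …, 2 ^ m τ`, with the two ends -/
def Wf {X Y : PS} (S : KS X Y) (A : S.Ker) (κ τ : ℝ) (m : ℕ) : Prop :=
  0 < κ ∧ (∃ R, S.Wd A κ R τ (2 ^ m * τ)) ∧ S.X1 A ≤ κ / τ ∧ S.X0 A ≤ κ * (2 ^ m * τ) ^ 2

/-- **TRI**: the trilinear form is bounded by the weak norms -/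
def TRI : Prop := For3 fun _ _ _ Ω ν₁ ν₂ ν₃ A B C => ∀ (κ₁ κ₂ κ₃ τ : ℝ) (m : ℕ), 0 < τ →
  Wf (KS.mk Ω ν₂ ν₃) A κ₁ τ m → Wf (KS.mk Ω ν₁ ν₃) B κ₂ τ m → Wf (KS.mk Ω ν₁ ν₂) C κ₃ τ m →
  |tr ν₁ ν₂ ν₃ A B C| ≤ 24 * (m + 2) * (κ₁ * κ₂ * κ₃)

/-- **SPEC**: the spectral cut of a matrix -/
def SPEC : Prop := ∀ (X Y : Type) [Fintype X] [Fintype Y] (A : Matrix X Y ℝ),
  ∃ S : Matrix Y Y ℝ, Sᵀ = S ∧ S * S = Aᵀ * A ∧ ∀ l : ℝ, 0 < l → ∃ G : Matrix Y Y ℝ,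
    (∀ u v : Y → ℝ, |u ⬝ᵥ G *ᵥ v| ≤ √(u ⬝ᵥ u) * √(v ⬝ᵥ v) / l ^ 2) ∧
    ∑ x, ∑ y, (A * G * (Aᵀ * A)) x y ^ 2 ≤ (Aᵀ * A * S).trace / l ∧
    ∑ x, ∑ x', ((A - A * G * (Aᵀ * A)) * (A - A * G * (Aᵀ * A))ᵀ) x x' ^ 2 ≤
      l * (Aᵀ * A * S).trace

/-- **SPK**: the spectral cut of a kernel -/
def SPK : Prop := ∀ (X Y : PS) (S : KS X Y) (B R : ℝ) (A : S.Ker), S.Bd B →
  (∀ ω x y, |A ω x y| ≤ R) → ∃ (α : S.Ω.α → X.α → Y.α → ℝ) (β : S.Ω.α → Y.α → Y.α → ℝ),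
    (∀ ω x x', ∑ i, α ω x i * α ω x' i = Y.E fun y => S.ν' ω y * A ω x y * A ω x' y) ∧
    (∀ ω y y', Y.μ y * S.ν' ω y ≠ 0 → Y.μ y' * S.ν' ω y' ≠ 0 →
      ∑ i, β ω y i * β ω y' i = X.E fun x => S.ν ω x * A ω x y * A ω x y') ∧
    (∀ ω y, ∑ i, β ω y i * β ω y i ≤ B * R ^ 2) ∧ ∀ l : ℝ, 0 < l → ∃ A' : S.Ker,
      (∀ ω x y, |A' ω x y| ≤ B ^ 2 * R ^ 3 / l ^ 2) ∧
      (S.av fun ω x y => A' ω x y ^ 2) ≤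
        (S.av fun ω x y => A ω x y * ∑ i, α ω x i * β ω y i) / l ∧
      S.mom (fun ω x y => A ω x y - A' ω x y) 2 ≤
        l * S.av fun ω x y => A ω x y * ∑ i, α ω x i * β ω y i

/-- **GRM**: moments of a Gram kernel -/
def GRM : Prop := ∀ (X Y : PS) (S : KS X Y) (ι : Type) [Fintype ι] (n : X.α → Y.α → ℝ)
  (B R δ : ℝ) (q : ℕ) (α : S.Ω.α → X.α → ι → ℝ) (β : S.Ω.α → Y.α → ι → ℝ), 1 ≤ B → S.Bd B →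
  Cut n B δ → (∀ ω x, ∑ i, α ω x i * α ω x i ≤ R) → (∀ ω y, ∑ i, β ω y i * β ω y i ≤ R) →
  (S.av fun ω x y => n x y * (∑ i, α ω x i * β ω y i) ^ q) ≤
    √(S.Ω.E fun ω => X.E fun x => X.E fun x' =>
      S.ν ω x * S.ν ω x' * (∑ i, α ω x i * α ω x' i) ^ q) *
    √(S.Ω.E fun ω => Y.E fun y => Y.E fun y' =>
      S.ν' ω y * S.ν' ω y' * (∑ i, β ω y i * β ω y' i) ^ q) + √√(δ * B ^ 3) * (B ^ 2 * R ^ q)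

/-- **GRAM**: positive kernels with small moments have a small weak norm -/
def GRAM : Prop := ∀ (X Y : PS) (S : KS X Y) (n : X.α → Y.α → ℝ) (F : S.Ker)
  (B K δ m G κ τ₀ τ₁ : ℝ) (q : ℕ), 1 ≤ B → 1 ≤ K → S.Bd B → Cut n B δ →
  (∀ ω x y, 0 ≤ F ω x y ∧ F ω x y ≤ K) → Even q → 2 ≤ q →
  (S.av fun ω x y => n x y * F ω x y) ≤ m → S.mom (fun ω x y => n x y * F ω x y) q ≤ G →
  S.tp.mom (fun ω y x => n x y * F ω x y) q ≤ G →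
  δ * B ^ 3 * (B ^ 2 * (B ^ 3 * K ^ 2) ^ q) ^ 4 ≤ G ^ 4 → 0 < κ →
  m ^ (q - 1) * K * (2 * G) ≤ κ ^ (3 * q) → 0 < τ₀ →
  S.Wd (fun ω x y => n x y * F ω x y) κ (B ^ 2 * (B * K) ^ 3 * τ₁ ^ 8 / κ ^ 2) τ₀ τ₁

/-- a statement on one more parameter -/
def ForE (P : ∀ (X Y W : PS) (_ : KS X Y), (X.α → W.α → ℝ) → (Y.α → W.α → ℝ) → ℝ → ℝ → Prop) :
    Prop := ∀ X Y W S a b B δ, 1 ≤ B → KS.Bd S B → Cut a B δ → Cut b B δ → P X Y W S a b B δ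

/-- **CON**: integration is a contraction -/
def CON : Prop := ForE fun _ _ W S a b B δ => ∀ G : (S.ext W a b).Ker, (∀ ω x y, |G ω x y| ≤ B) →
  S.mom (ce a b G) 2 ≤ 8 * (S.ext W a b).mom G 2 + 20 * B ^ 20 * δ

/-- **LIFT**: a kernel which does not depend on the last parameter -/
def LIFT : Prop := ForE fun _ _ W S a b B δ => ∀ G : S.Ker, (∀ ω x y, |G ω x y| ≤ B) →
  (S.ext W a b).mom (fun ω => G ω.1) 2 ≤ S.mom G 2 + 20 * B ^ 20 * δ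

/-- **ESI**: the Efron-Stein inequality of level one -/
def ESI : Prop := ∀ (P : PS) (M : ℕ) (G : (P.pow (M + 1)).α → ℝ),
  (∑ j : Fin (M + 1), P.E fun v =>
    (((P.pow M).E fun w => G (Fin.insertNth j v w)) - (P.pow (M + 1)).E G) ^ 2) +
    (P.pow (M + 1)).E G ^ 2 ≤ (P.pow (M + 1)).E fun w => G w ^ 2

/-- **ORT**: orthogonality in one block -/
def ORT : Prop := ∀ (X Y W : PS) (S : KS X Y) (a : X.α → W.α → ℝ) (b : Y.α → W.α → ℝ)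
  (H B δ : ℝ) (M : ℕ) (G : (S.ext (W.pow (M + 1)) (pw a _) (pw b _)).Ker), 1 ≤ H → Cut a H δ →
  Cut b H δ → H ^ (M + 1) ≤ B → (M + 1 : ℝ) ≤ B → S.Bd B → (∀ ω x y, |G ω x y| ≤ B) →
  (∑ j : Fin (M + 1), (S.ext W a b).av fun ω x y =>
    (sl a b j G ω x y - ce (pw a _) (pw b _) G ω.1 x y) ^ 2) ≤
    2 * ((S.ext (W.pow (M + 1)) (pw a _) (pw b _)).av fun ω x y => G ω x y ^ 2) + 20 * B ^ 20 * δ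

/-- **BLOCK**: the gain in one block -/
def BLOCK : Prop := ∀ (X Y W : PS) (S : KS X Y) (a : X.α → W.α → ℝ) (b : Y.α → W.α → ℝ)
  (Φ : S.Ker) (g : X.α → Y.α → W.α → ℝ) (H B₀ B δ Γ κ R τ₀ τ₁ : ℝ) (m : ℕ), 1 ≤ H → Cut a H δ →
  Cut b H δ → H ^ m ≤ B₀ → B₀ ≤ B → (m : ℝ) ≤ B → 2 * R ≤ B → S.Bd B → 1 ≤ Γ →
  1875 * Γ ^ 6 ≤ m → 0 < κ → 0 < τ₀ → 20 * B ^ 62 * δ ≤ κ ^ 2 * τ₀ ^ 4 →
  20 * B ^ 62 * δ ≤ (κ / τ₁) ^ 4 →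
  (∀ ω x y, Φ ω x y ≠ 0 → (W.E fun w => a x w * b y w * g x y w) = 1) →
  (∀ ω x y (w : Fin m → W.α), |Φ ω x y * ∏ l, g x y (w l)| ≤ R) →
  (S.ext (W.pow m) (pw a m) (pw b m)).Wd (fun ω x y => Φ ω.1 x y * ∏ l, g x y (ω.2 l)) κ R τ₀ τ₁ →
  (S.ext W a b).Wd (fun ω x y => Φ ω.1 x y * (g x y ω.2 - 1)) (κ / Γ) (R * (2 * B₀ ^ 2))
    (τ₀ / (5 * Γ)) (τ₁ / (5 * Γ))

/-- **ITER**: the gain in `p` blocks -/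
def ITER : Prop := ∀ (X Y W : PS) (n γ : X.α → Y.α → ℝ) (a : X.α → W.α → ℝ) (b : Y.α → W.α → ℝ)
  (g : X.α → Y.α → W.α → ℝ) (H K B₀ B δ Γ κ R τ₀ τ₁ : ℝ) (m p : ℕ), 1 ≤ H → Cut n H δ →
  Cut a H δ → Cut b H δ → (∀ x y, γ x y = 0 ∨ γ x y = 1) →
  (∀ x y w, 0 ≤ g x y w ∧ g x y w ≤ K) → 1 ≤ K →
  (∀ x y, γ x y = 1 → (W.E fun w => a x w * b y w * g x y w) = 1) →
  H ^ m ≤ B₀ → B₀ ≤ B → H ^ (p * m) ≤ B → (m : ℝ) ≤ B → H * K ^ (p * m) ≤ R →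
  2 * (R * (2 * B₀ ^ 2) ^ p) ≤ B → 1 ≤ Γ → 1875 * Γ ^ 6 ≤ m → 0 < κ → 0 < τ₀ → τ₀ ≤ τ₁ →
  20 * B ^ 62 * δ ≤ (κ / Γ ^ p) ^ 2 * (τ₀ / (5 * Γ) ^ p) ^ 4 → 20 * B ^ 62 * δ ≤ (κ / τ₁) ^ 4 →
  (cols a b (p * m)).Wd (lift n γ a b g (p * m)) κ R τ₀ τ₁ →
  (cols a b p).Wd (lift n γ a b (sel true g) p) (κ / Γ ^ p) (R * (2 * B₀ ^ 2) ^ p)
    (τ₀ / (5 * Γ) ^ p) (τ₁ / (5 * Γ) ^ p)

/-- **GMON**: moments of the lifted kernel and grids -/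
def GMON : Prop := ∀ (X Y W : PS) (n γ : X.α → Y.α → ℝ) (a : X.α → W.α → ℝ) (b : Y.α → W.α → ℝ)
  (f g : X.α → Y.α → W.α → ℝ) (H δ e : ℝ) (N q : ℕ), Cut n H δ → Cut a H δ → Cut b H δ → 0 ≤ e →
  (∀ x y w, 0 ≤ f x y w) → Nm a b f g γ e →
  (cols a b N).av (lift n γ a b g N) ≤ 1 + δ ∧
  (cols a b N).mom (lift n γ a b g N) q ≤ (1 + e) ^ (2 * q * N) * grid n a b f N q ∧
  (cols a b N).tp.mom (fun w y x => lift n γ a b g N w x y) q ≤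
    (1 + e) ^ (2 * q * N) * grid (fun y x => n x y) b a (fun y x w => f x y w) N q

/-- **ONE**: the moments of the weights -/
def ONE : Prop := ∀ (X Y W : PS) (n γ : X.α → Y.α → ℝ) (a : X.α → W.α → ℝ) (b : Y.α → W.α → ℝ)
  (g : X.α → Y.α → W.α → ℝ) (H δ : ℝ) (p : ℕ), 1 ≤ H → Cut n H δ → Cut a H δ → Cut b H δ →
  (∀ x y, γ x y = 0 ∨ γ x y = 1) → 10 * (p + 1) * H ^ (8 * p + 8) * δ ≤ 1 →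
  (cols a b p).av (lift n γ a b (sel false g) p) ≤ 2 ∧
    (cols a b p).mom (lift n γ a b (sel false g) p) 2 ≤ 2

/-- **GOOD**: normalisation on the good edges -/
def GOOD : Prop := ∀ (X Y W : PS) (n : X.α → Y.α → ℝ) (a : X.α → W.α → ℝ) (b : Y.α → W.α → ℝ)
  (f : X.α → Y.α → W.α → ℝ) (K M e e₀ δ : ℝ), 1 ≤ M → 0 < e → e ≤ 1 → 0 ≤ e₀ → e₀ ≤ e / 2000 →
  2000 * M ^ 2 * δ ≤ e → Face n a b f K M e₀ δ → ∃ g γ, Nm a b f g γ e ∧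
    (X.E fun x => Y.E fun y => n x y * (1 - γ x y)) ≤ 1 / 40

/-- **HOL**: the Hoelder lift -/
def HOL : Prop := ∀ (D : K4) (K M e e₀ δ : ℝ) (p : ℕ), 1 ≤ M → 1 ≤ K → K ≤ 3 ^ p → Even p →
  2 ≤ p → 0 < e → e ≤ 1 → 0 ≤ e₀ → e₀ ≤ e / 2000 → 2000 * K * M ^ 6 * δ ≤ e → D.Ok K M e₀ δ →
  ∃ g₁ g₂ g₃ γ₁ γ₂ γ₃ s₁ s₂ s₃, Nm D.n₂₄ D.n₃₄ D.f₁ g₁ γ₁ e ∧ Nm D.n₁₄ D.n₃₄ D.f₂ g₂ γ₂ e ∧
    Nm D.n₁₄ D.n₂₄ D.f₃ g₃ γ₃ e ∧ (s₁ = true ∨ s₂ = true ∨ s₃ = true) ∧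
    1 / 60 ^ p ≤ tr (Ω := D.Y₄.pow p) (fun w y => pw D.n₁₄ p y w) (fun w y => pw D.n₂₄ p y w)
      (fun w y => pw D.n₃₄ p y w) (lift D.n₂₃ γ₁ D.n₂₄ D.n₃₄ (sel s₁ g₁) p)
      (lift D.n₁₃ γ₂ D.n₁₄ D.n₃₄ (sel s₂ g₂) p) (lift D.n₁₂ γ₃ D.n₁₄ D.n₂₄ (sel s₃ g₃) p)

/-- the size of a block -/
def mB : ℕ := 1875 * 10 ^ 24

/-- **EDGE**: the weak norm of one face -/
def EDGE : Prop := ∀ (X Y W : PS) (n γ : X.α → Y.α → ℝ) (a : X.α → W.α → ℝ) (b : Y.α → W.α → ℝ)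
  (f g : X.α → Y.α → W.α → ℝ) (x y δ e₀ : ℝ) (p : ℕ) (s : Bool), 8 * (mB : ℝ) ≤ x → x ≤ y →
  2 * x ≤ p → (p : ℝ) ≤ 2 * x + 2 → δ ≤ Real.exp (-y ^ 6) →
  Face n a b f (Real.exp x) (Real.exp y) e₀ δ → Nm a b f g γ (1 / (10 * mB)) →
  ¬ Big n a b f (p * mB) (2 * (p * mB)) ((1 + 1 / (10 * mB)) ^ (2 * (2 * (p * mB)) * (p * mB))) →
  Wf (cols a b p) (lift n γ a b (sel s g) p) (if s then (2 / 10 ^ 4) ^ p else 2)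
    (Real.exp (-y ^ 3)) ⌈3 * y ^ 3⌉₊

end Vale.Agent.P057Z.St
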