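import Vale.Agent.P057Z.St.Api

/-!
# P057Z, block St: powers of weights, codegrees, the operator norm
-/

noncomputable section

namespace Vale.Agent.P057Z.St

namespace Tools

variable {X Y Z W : PS}

theorem step {a : X.α → W.α → ℝ} {M δ C : ℝ} (h : Cut a M δ) {c : W.α → ℝ} (hC : 0 < C)
    (h0 : ∀ w, 0 ≤ c w) (hc : ∀ w, c w ≤ C) :
    (X.E fun x => |(W.E fun w => a x w * c w) - 1|) ≤ C * δ + |W.E c - 1| := by
  have k := h.cut' (u := fun x => if 0 ≤ W.E fun w => c w * (a x w - 1) then 1 else -1) (v := c)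
    one_pos hC (fun x => by split_ifs <;> simp) fun w => by rw [abs_of_nonneg (h0 w)]; exact hc w
  rw [one_mul] at k
  refine le_trans ?_ (add_le_add_left ((le_abs_self _).trans k) _)
  rw [← X.E_const |W.E c - 1|, ← PS.E_add]
  refine X.E_mono fun x => ?_
  have e : (W.E fun w => a x w * c w) - 1 = (W.E fun w => c w * (a x w - 1)) + (W.E c - 1) := by
    rw [add_sub, ← PS.E_add]
    exact congrArg (· - 1) (W.E_congr fun w => by ring)
  rw [e]
  refine (abs_add_le _ _).trans (add_le_add_left (le_of_eq ?_) _)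
  simp only [mul_assoc, PS.E_mul_left]
  split_ifs with h1
  · rw [one_mul, abs_of_nonneg h1]
  · rw [neg_one_mul, abs_of_neg (not_le.1 h1)]

theorem s1 {a : X.α → W.α → ℝ} {M δ : ℝ} (h : Cut a M δ) :
    (X.E fun x => |(W.E fun w => a x w) - 1|) ≤ δ := by
  simpa [PS.E_const] using step h (c := fun _ => 1) one_pos (fun _ => zero_le_one) fun _ => le_rfl

theorem s2 {a : X.α → W.α → ℝ} {b : Y.α → W.α → ℝ} {M δ : ℝ} (hM : 1 ≤ M) (ha : Cut a M δ)
    (hb : Cut b M δ) :
    (X.E fun x => Y.E fun y => |(W.E fun w => a x w * b y w) - 1|) ≤ 2 * M * δ := by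
  rw [PS.E_comm]
  refine (Y.E_mono fun y => step ha (by linarith) (hb.nn y) (hb.le y)).trans ?_
  rw [PS.E_add, PS.E_const]
  nlinarith [s1 hb, ha.nonneg]

theorem s3 {a : X.α → W.α → ℝ} {b : Y.α → W.α → ℝ} {c : Z.α → W.α → ℝ} {M δ : ℝ} (hM : 1 ≤ M)
    (ha : Cut a M δ) (hb : Cut b M δ) (hc : Cut c M δ) :
    (X.E fun x => Y.E fun y => Z.E fun z => |(W.E fun w => a x w * b y w * c z w) - 1|) ≤
      3 * M ^ 2 * δ := by
  rw [PS.E_comm]
  simp only [mul_assoc, X.E_comm Z]
  refine (Y.E_mono fun y => Z.E_mono fun z => step ha (C := M * M) (by positivity)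
    (fun w => mul_nonneg (hb.nn y w) (hc.nn z w)) fun w =>
      mul_le_mul (hb.le y w) (hc.le z w) (hc.nn z w) (by linarith)).trans ?_
  simp only [PS.E_add, PS.E_const]
  have k := mul_le_mul_of_nonneg_right hM (mul_nonneg (by linarith : 0 ≤ M) ha.nonneg)
  nlinarith [s2 hM hb hc]

theorem s4 {a : X.α → W.α → ℝ} {b : Y.α → W.α → ℝ} {M δ : ℝ} (hM : 1 ≤ M)
    (ha : Cut a M δ) (hb : Cut b M δ) :
    (X.E fun x => X.E fun x' => Y.E fun y => Y.E fun y' =>
      |(W.E fun w => a x w * a x' w * b y w * b y' w) - 1|) ≤ 4 * M ^ 3 * δ := by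
  have k0 := s3 hM ha hb hb
  rw [PS.E_comm]
  simp only [mul_assoc, X.E_comm Y] at k0 ⊢
  have M0 : 0 ≤ M := by linarith
  refine (Y.E_mono fun y => Y.E_mono fun y' => X.E_mono fun x' => step ha (C := M * (M * M))
    (by positivity) (fun w => mul_nonneg (ha.nn x' w) (mul_nonneg (hb.nn y w) (hb.nn y' w)))
    fun w => mul_le_mul (ha.le x' w) (mul_le_mul (hb.le y w) (hb.le y' w) (hb.nn y' w) M0)
      (mul_nonneg (hb.nn y w) (hb.nn y' w)) M0).trans ?_
  simp only [PS.E_add, PS.E_const]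
  have k := mul_le_mul_of_nonneg_right hM (mul_nonneg (sq_nonneg M) ha.nonneg)
  nlinarith

end Tools

theorem cutp : CUTP := by
  intro X W a M δ N hM h
  refine ⟨pw_nonneg h.nn N, pw_le h.nn h.le N, ?_⟩
  induction N with
  | zero =>
    intro u v _ _
    simp [pw, PS.E_const]
  | succ N ih =>
    intro u v hu hv
    have M0 : 0 < M ^ N := by positivity
    have e : (X.E fun x => (W.pow (N + 1)).E fun w => u x * v w * (pw a (N + 1) x w - 1)) =
        ((W.pow N).E fun w => X.E fun x => W.E fun t =>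
          u x * pw a N x w * v (Fin.insertNth 0 t w) * (a x t - 1)) +
        W.E fun t => X.E fun x => (W.pow N).E fun w =>
          u x * v (Fin.insertNth 0 t w) * (pw a N x w - 1) := by
      rw [← X.E_comm, ← X.E_comm, ← PS.E_add]
      refine X.E_congr fun x => ?_
      rw [W.E_pow_succ N 0, ← W.E_comm, ← PS.E_add]
      refine W.E_congr fun t => ?_
      rw [← PS.E_add]
      refine PS.E_congr _ fun w => ?_
      rw [pw_insertNth]
      ring
    rw [e]
    refine (abs_add_le _ _).trans ((add_le_add (PS.abs_E_le_of _ fun w =>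
      h.cut' M0 one_pos (fun x => ?_) fun t => hv _)
      (PS.abs_E_le_of _ fun t => ih u _ hu fun w => hv _)).trans ?_)
    · rw [abs_mul, abs_of_nonneg (pw_nonneg h.nn N x w)]
      exact (mul_le_of_le_one_left (pw_nonneg h.nn N x w) (hu x)).trans (pw_le h.nn h.le N x w)
    · have k := mul_le_mul_of_nonneg_right hM
        (mul_nonneg (by positivity : (0 : ℝ) ≤ (N + 1) * M ^ N) h.nonneg)
      push_cast
      rw [pow_succ]
      nlinarith

theorem star : STAR := fun _ _ _ _ _ _ _ _ _ hM ha hb hc =>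
  ⟨Tools.s1 ha, Tools.s2 hM ha hb, Tools.s3 hM ha hb hc, Tools.s4 hM ha hb⟩

theorem opn : OPN := by
  intro X Y n B δ u v hB h
  have B0 : 0 < B := by linarith
  have hh : ∀ x y, |n x y - 1| ≤ B := fun x y =>
    abs_le.2 ⟨by linarith [h.nn x y], by linarith [h.le x y]⟩
  have k1 := X.cs_abs (w := fun _ => 1) (fun _ => zero_le_one) u
    fun x => Y.E fun y => v y * (n x y - 1)
  have k2 := (Y.prod Y).cs_abs (w := fun _ => 1) (fun _ => zero_le_one) (fun z => v z.1 * v z.2)
    fun z => X.E fun x => (n x z.1 - 1) * (n x z.2 - 1)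
  simp only [one_mul, PS.E_prod] at k1 k2
  have e1 : (X.E fun x => (Y.E fun y => v y * (n x y - 1)) ^ 2) =
      Y.E fun y => Y.E fun y' => v y * v y' * X.E fun x => (n x y - 1) * (n x y' - 1) := by
    simp only [PS.E_sq, X.E_comm Y, ← PS.E_mul_left]
    exact Y.E_congr fun y => Y.E_congr fun y' => X.E_congr fun x => by ring
  have e2 : (Y.E fun y => Y.E fun y' => (v y * v y') ^ 2) = (Y.E fun y => v y ^ 2) ^ 2 := by
    simp only [PS.E_sq, mul_pow]
  have k3 : (Y.E fun y => Y.E fun y' => (X.E fun x => (n x y - 1) * (n x y' - 1)) ^ 2) ≤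
      δ * B ^ 3 := by
    have e3 : (Y.E fun y => Y.E fun y' => (X.E fun x => (n x y - 1) * (n x y' - 1)) ^ 2) =
        Y.E fun y' => X.E fun x' => (n x' y' - 1) *
          X.E fun x => Y.E fun y => (n x y' - 1) * (n x' y - 1) * (n x y - 1) := by
      rw [Y.E_comm]
      refine Y.E_congr fun y' => ?_
      simp only [PS.E_sq, Y.E_comm X, ← PS.E_mul_left]
      rw [X.E_comm]
      exact X.E_congr fun x' => X.E_congr fun x => Y.E_congr fun y => by ring
    rw [e3]
    refine Y.E_le fun y' => X.E_le fun x' => (le_abs_self _).trans ?_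
    rw [abs_mul]
    refine (mul_le_mul (hh x' y') (h.cut' B0 B0 (fun x => hh x y') fun y => hh x' y)
      (abs_nonneg _) B0.le).trans_eq ?_
    ring
  have v0 : 0 ≤ Y.E fun y => v y ^ 2 := Y.E_nonneg fun y => sq_nonneg _
  rw [e2, Real.sqrt_sq v0, ← e1] at k2
  have k4 := Real.sqrt_le_sqrt (((le_abs_self _).trans k2).trans
    (mul_le_mul_of_nonneg_left (Real.sqrt_le_sqrt k3) v0))
  rw [Real.sqrt_mul v0] at k4
  simp only [mul_assoc, PS.E_mul_left]
  refine k1.trans ((mul_le_mul_of_nonneg_left k4 (Real.sqrt_nonneg _)).trans_eq ?_)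
  ring

end Vale.Agent.P057Z.St
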